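import Vale.Agent.P291Z.AS2

/-!
# Global quotient orbifolds: Thom and Euler cocycles, fundamental class, virtual class
-/

namespace Vale.Agent.P269.Orb

open Set Function Topology Filter Vale.Agent.P291Z

/-- The orbit space `T / G`. -/
abbrev Q (G T : Type) [Group G] [MulAction G T] : Type := MulAction.orbitRel.Quotient G T

variable {G G' T T' : Type} [Group G] [Group G'] [MulAction G T] [MulAction G' T']

/-- The orbit of a point. -/
def Q.mk (G : Type) [Group G] [MulAction G T] (t : T) : Q G T := Quotient.mk'' t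

/-- The map of orbit spaces induced by a map that is equivariant along `ρ`. -/
def Q.map (ρ : G →* G') (f : T → T') (hf : ∀ g t, f (g • t) = ρ g • f t) : Q G T → Q G' T' :=
  Quotient.map' f (by rintro _ y ⟨g, rfl⟩; exact ⟨ρ g, (hf g y).symm⟩)

/-- The inclusion of the orbit space of an invariant subset. -/
def Q.inc (Z : SubMulAction G T) : Q G Z → Q G T :=
  Q.map (MonoidHom.id G) Subtype.val fun _ _ => rfl

section bundle

variable {W : Type} [AddCommGroup W] [Module ℂ W] [DistribMulAction G W]

/-- Linear parametrizations of the fibres of an invariant family `V ⊆ T × W` of subspaces of the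
representation `W`, followed by the projection to `V / G`. -/
def fib (V : SubMulAction G (T × W)) (r : ℕ) (φ : (Fin r → ℂ) → Q G V) : Prop :=
  ∃ (t : T) (ℓ : (Fin r → ℂ) →ₗ[ℂ] W), Injective ℓ ∧ (∀ w, (t, w) ∈ V ↔ w ∈ range ℓ) ∧
    ∀ a, ∃ h, φ a = Q.mk G ⟨(t, ℓ a), h⟩

/-- The zero set of an equivariant map to a representation. -/
def zeros (s : T →[G] W) : SubMulAction G T where
  carrier := {t | s t = 0}
  smul_mem' g t ht := by
    change s (g • t) = 0
    rw [map_smul, show s t = 0 from ht, smul_zero]

variable [TopologicalSpace T] [TopologicalSpace W]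

/-- A Thom cocycle of the orbifold vector bundle `V / G → T / G`. -/
noncomputable def thom (V : SubMulAction G (T × W)) : Coch (Q G V) :=
  Classical.epsilon (IsThom {x | ∃ y : V, y.1.2 = 0 ∧ x = Q.mk G y} (fib V))

/-- The Euler cocycle of a section `s` of `V`, the pull-back of the Thom cocycle; its support lies
in the zero set of `s`. -/
noncomputable def eul (V : SubMulAction G (T × W)) (s : T →[G] W) (hs : ∀ t, (t, s t) ∈ V) :
    Coch (Q G T) :=
  pull (Q.map (MonoidHom.id G) (fun t => (⟨(t, s t), hs t⟩ : V))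
    fun g t => Subtype.ext (Prod.ext rfl (map_smul s g t))) (thom V)

end bundle

/-- Near the origin of `ℂ^n` the cochain `a` is cohomologous to `c` times the orientation cocycle,
through a cochain supported at the origin. -/
def LocCo {n : ℕ} (a : Coch (Fin n → ℂ)) (c : ℂ) : Prop :=
  ∃ b, ∀ᶠ z in 𝓝 (0 : Fin n → ℂ), z ∉ supp (a - c • tau n - δ b) ∧ (z ∈ supp b → z = 0)

/-- `β` is the fundamental class for the oriented uniformizing charts `φ` centred at the origin,
with isotropy group of order `m`, for which `Ch φ m` holds. -/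
def IsFund {X : Type} [TopologicalSpace X] {n : ℕ} (Ch : ((Fin n → ℂ) → X) → ℕ → Prop)
    (β : BM X) : Prop :=
  BM.IsDeg (2 * n) β ∧ ∀ φ m, Ch φ m → ∀ a c, supp (δ a) = ∅ → supp a ⊆ {φ 0} →
    LocCo (pull φ a) c → m * ev β a = c

section hol

variable [TopologicalSpace G] [TopologicalSpace T] {A : Type} [NormedAddCommGroup A]
  [NormedSpace ℂ A]

/-- `φ` is a holomorphic slice at `φ 0`, for the holomorphic coordinates `ι` on `T`: the map
`(g, z) ↦ g • φ z` is a local homeomorphism at `(1, 0)`, and `φ` and the second component of the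
local inverse are holomorphic. -/
def IsSlice (G : Type) [Group G] [TopologicalSpace G] [MulAction G T] (ι : T → A) {n : ℕ}
    (φ : (Fin n → ℂ) → T) : Prop :=
  IsLocalHomeomorphOn (fun x : G × (Fin n → ℂ) => x.1 • φ x.2) {(1, 0)} ∧
    AnalyticAt ℂ (ι ∘ φ) 0 ∧ ∃ w, AnalyticAt ℂ w (ι (φ 0)) ∧
      ∀ᶠ x in 𝓝 ((1, 0) : G × (Fin n → ℂ)), w (ι (x.1 • φ x.2)) = x.2

/-- The uniformizing charts of `T / G` given by holomorphic slices. -/
def sliceCh (G : Type) [Group G] [TopologicalSpace G] [MulAction G T] (ι : T → A) (n : ℕ)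
    (ψ : (Fin n → ℂ) → Q G T) (m : ℕ) : Prop :=
  ∃ φ, IsSlice G ι φ ∧ ψ = Q.mk G ∘ φ ∧ m = Nat.card (MulAction.stabilizer G (φ 0))

/-- The fundamental class of the complex orbifold `[T / G]` of dimension `n`. -/
noncomputable def fund (G : Type) [Group G] [TopologicalSpace G] [MulAction G T] (ι : T → A)
    (n : ℕ) : BM (Q G T) :=
  Classical.epsilon (IsFund (sliceCh G ι n))

variable {W : Type} [AddCommGroup W] [Module ℂ W] [DistribMulAction G W] [TopologicalSpace W]

/-- The virtual fundamental class of the global Kuranishi chart `(G, T, V, s)`: the localized Euler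
class of the section `s` of `V` capped with the fundamental class of `[T / G]`. -/
noncomputable def vir (ι : T → A) (n : ℕ) (V : SubMulAction G (T × W)) (s : T →[G] W)
    (hs : ∀ t, (t, s t) ∈ V) : BM (Q G (zeros s)) :=
  Classical.epsilon (Gys (Q.inc (zeros s)) (eul V s hs) (fund G ι n))

end hol

end Vale.Agent.P269.Orb
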