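import Vale.Agent.P269.Orb.Hol
import Vale.Agent.P269.Ch.Tot
import Vale.Agent.P269.Loc.HO

set_option linter.all false

/-!
# Local coefficients of Euler cocycles, transverse zero sets
-/

namespace Vale.Agent.P269.Orb

open Set Topology Filter Asymptotics Vale.Agent.P291Z Vale.Agent.P269.Holo Vale.Agent.P269.Ch

variable {Y : Ch.Sp} {E : VB Y} {s : Y.T → E.W} {n r k : ℕ}

theorem exists_fibre_coord (E : VB Y) (hr : E.r = r) (t : Y.T) :
    ∃ q : E.W →L[ℂ] (Fin r → ℂ), ∀ w ∈ E.F t, q w = 0 → w = 0 := by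
  subst hr
  obtain ⟨N, ψ, q, -, h2, -, h4⟩ := E.exists_frame t
  refine ⟨q, fun w hw h => ?_⟩
  obtain ⟨a, rfl⟩ := ((h4 t h2).2 w).1 hw
  rw [(h4 t h2).1] at h
  rw [h, map_zero]

/-- frames dual to a family of coordinates -/
theorem exists_dual_frame (E : VB Y) (hr : E.r = r) {B : Type} [TopologicalSpace B] {b : B}
    {φ : B → Y.T} {m : B → E.W →L[ℂ] (Fin r → ℂ)}
    (hφ : ∀ᶠ z in 𝓝 b, ContinuousAt φ z ∧ ContinuousAt m z)
    (hm : ∀ w ∈ E.F (φ b), m b w = 0 → w = 0) : ∃ ψ : B → (Fin r → ℂ) →L[ℂ] E.W,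
      ∀ᶠ z in 𝓝 b, ContinuousAt ψ z ∧ (∀ a, m z (ψ z a) = a) ∧ (∀ a, ψ z a ∈ E.F (φ z)) ∧
        ∀ w ∈ E.F (φ z), ψ z (m z w) = w := by
  subst hr
  obtain ⟨N, ψ, q, h1, h2, h3, h4⟩ := E.exists_frame (φ b)
  have h5 : ∀ᶠ z in 𝓝 b, φ z ∈ N := hφ.self_of_nhds.1.eventually (h1.mem_nhds h2)
  have h6 : ∀ᶠ z in 𝓝 b, ContinuousAt (fun z => ψ (φ z)) z := (h5.and hφ).mono fun z hz =>
    (h3.continuousAt (h1.mem_nhds hz.1)).comp hz.2.1
  have h7 : ∀ᶠ z in 𝓝 b, ContinuousAt (fun z => m z ∘L ψ (φ z)) z :=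
    (h6.and hφ).mono fun z hz => hz.2.2.clm_comp hz.1
  have h8 : Function.Bijective (m b ∘L ψ (φ b)) := bijective_of_injective _
    ((injective_iff_map_eq_zero _).2 fun a ha => by
      rw [← (h4 _ h2).1 a, hm _ (((h4 _ h2).2 _).2 ⟨a, rfl⟩) ha, map_zero]) rfl
  refine ⟨fun z => ψ (φ z) ∘L (m z ∘L ψ (φ z)).inverse, ?_⟩
  filter_upwards [h5, h6, h7, eventually_bijective h7.self_of_nhds h8] with z e1 e2 e3 e4
  have e5 := isInvertible_of_bijective e4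
  refine ⟨e2.clm_comp ((analyticAt_clm_inverse e4).continuousAt.comp
    (f := fun z => m z ∘L ψ (φ z)) e3), fun a => e5.self_apply_inverse a,
    fun a => ((h4 _ e1).2 _).2 ⟨_, rfl⟩, fun w hw => ?_⟩
  obtain ⟨a, rfl⟩ := ((h4 _ e1).2 w).1 hw
  exact congrArg (ψ (φ z)) (e5.inverse_apply_self a)

/-- **the local coefficient of a Thom cocycle along a section** is the local degree of the section
in any continuous family of fibre coordinates -/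
theorem locCo_thom (hr : E.r = r) {t : Coch E.tot.X} (ht : IsThom E.Z E.ch t)
    {φ : (Fin n → ℂ) → E.V} {m : (Fin n → ℂ) → E.W →L[ℂ] (Fin r → ℂ)}
    (hφ : ∀ᶠ z in 𝓝 0, ContinuousAt φ z ∧ ContinuousAt m z)
    (hm : ∀ w ∈ E.F (φ 0).1.1, m 0 w = 0 → w = 0) (h0 : (φ 0).1.2 = 0)
    (h1 : ∀ᶠ z in 𝓝 0, (φ z).1.2 = 0 → z = 0) {d : ℂ}
    (hd : LocCo (pull (fun z => m z (φ z).1.2) (tau r)) d) : LocCo (pull (E.tot.π ∘ φ) t) d := by
  have c1 : Continuous fun y : E.V => y.1.1 := by fun_prop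
  have c2 : Continuous fun y : E.V => y.1.2 := by fun_prop
  obtain ⟨ψ, hψ⟩ := exists_dual_frame E hr (φ := fun z => (φ z).1.1)
    (hφ.mono fun z hz => ⟨c1.continuousAt.comp hz.1, hz.2⟩) hm
  subst hr
  let Ξ : (Fin n → ℂ) × (Fin E.r → ℂ) → E.tot.X := fun y =>
    E.tot.π (⟨((φ y.1).1.1, E.P (φ y.1).1.1 (ψ y.1 y.2)), E.P_mem _ _⟩ : E.V)
  have h2 := E.isOVB.locCo_section ht (Ξ := Ξ) (s := fun z => m z (φ z).1.2) ?_ ?_ hd
  · refine h2.pull_congr (hψ.mono fun z hz => congrArg E.tot.π (Subtype.ext (Prod.ext rfl ?_)))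
    show (φ z).1.2 = E.P _ (ψ z (m z (φ z).1.2))
    rw [hz.2.2.2 _ (φ z).2, E.P_eq (φ z).2]
  · filter_upwards [(continuous_fst.tendsto' _ 0 rfl).eventually (hψ.and hφ)] with y hy
    have h3 : ContinuousAt (fun y : (Fin n → ℂ) × (Fin E.r → ℂ) => (φ y.1).1.1) y :=
      (c1.continuousAt.comp hy.2.1).comp continuousAt_fst
    refine ⟨E.tot.cont.continuousAt.comp (IsInducing.subtypeVal.continuousAt_iff.2 (h3.prodMk
      ((E.P_cont.continuousAt.comp h3).clm_apply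
        ((hy.1.1.comp continuousAt_fst).clm_apply continuousAt_snd)))), ?_⟩
    have h4 := VB.ch_mk (E := E) (t := (φ y.1).1.1) (ℓ := (ψ y.1 : (Fin E.r → ℂ) →ₗ[ℂ] E.W))
      (Function.LeftInverse.injective hy.1.2.1) (le_antisymm
        (by rintro _ ⟨a, rfl⟩; exact hy.1.2.2.1 a) fun w hw => ⟨_, hy.1.2.2.2 w hw⟩)
    refine (congrArg (E.ch E.r) (funext fun a => ?_)).mp h4
    exact congrArg E.tot.π (Subtype.ext (Prod.ext rfl (E.P_eq (hy.1.2.2.1 a)).symm))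
  · refine ⟨by rw [h0, map_zero], ?_⟩
    filter_upwards [hψ, hφ, h1] with z e1 e2 e3
    exact ⟨e2.2.clm_apply (c2.continuousAt.comp e2.1), fun e =>
      e3 (by rw [← e1.2.2.2 _ (φ z).2, e, map_zero])⟩

/-- **the local coefficient of the Euler cocycle** -/
theorem locCo_eul (h : E.IsSec s) (hr : E.r = r) {φ : (Fin n → ℂ) → Y.T}
    {m : (Fin n → ℂ) → E.W →L[ℂ] (Fin r → ℂ)}
    (hφ : ∀ᶠ z in 𝓝 0, ContinuousAt φ z ∧ ContinuousAt m z)
    (hm : ∀ w ∈ E.F (φ 0), m 0 w = 0 → w = 0) (h0 : s (φ 0) = 0)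
    (h1 : ∀ᶠ z in 𝓝 0, s (φ z) = 0 → z = 0) {d : ℂ}
    (hd : LocCo (pull (fun z => m z (s (φ z))) (tau r)) d) : LocCo (pull (Y.π ∘ φ) h.eul) d := by
  have h2 := locCo_thom hr E.isThom (φ := fun z => h.mor.f (φ z))
    (hφ.mono fun z hz => ⟨h.mor.cf.continuousAt.comp hz.1, hz.2⟩) hm h0 h1 hd
  rw [VB.IsSec.eul, pull_pull]
  exact h2.pull_congr (Eventually.of_forall fun z => h.mor.map_π _)

theorem deriv_mem {B : Type} [NormedAddCommGroup B] [NormedSpace ℂ B] {φ : B → Y.T} {u : B → E.W}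
    (hφ : ContinuousAt φ 0) (hu : ∀ᶠ z in 𝓝 0, u z ∈ E.F (φ z)) (h0 : u 0 = 0) {L : B →L[ℂ] E.W}
    (hL : HasFDerivAt u L 0) (v : B) : L v ∈ E.F (φ 0) := by
  have h1 : HasDerivAt (fun e : ℂ => e • v) v 0 := by
    simpa using (hasDerivAt_id (0 : ℂ)).smul_const v
  have h2 := (HasFDerivAt.comp_hasDerivAt_of_eq (0 : ℂ) hL h1 (zero_smul _ _).symm).tendsto_slope_zero
  have h3 : Tendsto (fun e : ℂ => e • v) (𝓝[≠] 0) (𝓝 0) :=
    (h1.continuousAt.tendsto.mono_left nhdsWithin_le_nhds).congr' EventuallyEq.rfl |>.trans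
      (by rw [zero_smul])
  refine E.closed.mem_of_tendsto ((hφ.tendsto.comp h3).prodMk_nhds h2)
    ((h3.eventually hu).mono fun e he => (E.F _).smul_mem _ ?_)
  simpa [h0] using he

theorem eventually_eq_zero_of_hasFDerivAt {B W : Type} [NormedAddCommGroup B] [NormedSpace ℂ B]
    [FiniteDimensional ℂ B] [NormedAddCommGroup W] [NormedSpace ℂ W] {α : Type} {l : Filter α}
    {f : α → W} {b : α → B} {L : B →L[ℂ] W} (hL : Function.Injective L)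
    (h : (fun p => f p - L (b p)) =o[l] b) : ∀ᶠ p in l, f p = 0 → b p = 0 := by
  obtain ⟨K, hK, h1⟩ := L.toLinearMap.exists_antilipschitzWith (LinearMap.ker_eq_bot.2 hL)
  have h2 : (0 : ℝ) < K := hK
  filter_upwards [h.bound (show (0 : ℝ) < 1 / (2 * K) by positivity)] with p hp e
  rw [e, zero_sub, norm_neg] at hp
  have h3 : ‖b p‖ ≤ K * ‖L (b p)‖ := by simpa using h1.le_mul_dist (b p) 0
  have h4 : K * ‖L (b p)‖ ≤ ‖b p‖ / 2 :=
    (mul_le_mul_of_nonneg_left hp h2.le).trans_eq (by field_simp)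
  exact norm_le_zero_iff.1 (by linarith)

/-- **a nondegenerate zero counts once** -/
theorem locCo_eul_one (h : E.IsSec s) (hr : E.r = r) {φ : (Fin r → ℂ) → Y.T}
    (hφ : ∀ᶠ z in 𝓝 0, ContinuousAt φ z) (h0 : s (φ 0) = 0) {L : (Fin r → ℂ) →L[ℂ] E.W}
    (hL : HasFDerivAt (fun z => s (φ z)) L 0) (hi : Function.Injective L) :
    LocCo (pull (Y.π ∘ φ) h.eul) 1 := by
  obtain ⟨q, hq⟩ := exists_fibre_coord E hr (φ 0)
  refine locCo_eul h hr (m := fun _ => q) (hφ.mono fun z hz => ⟨hz, continuousAt_const⟩) hq h0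
    (eventually_eq_zero_of_hasFDerivAt (b := fun z => z) hi (by simpa [h0] using hL.isLittleO))
    (posGerm_of_hasFDerivAt (θ := fun z => q (s (φ z))) (by rw [h0, map_zero]) (hφ.mono fun z hz =>
      q.continuous.continuousAt.comp (h.cont.continuousAt.comp hz)) (q.hasFDerivAt.comp 0 hL)
      ((injective_iff_map_eq_zero _).2 fun v hv => hi ((hq _ (deriv_mem hφ.self_of_nhds
        (Eventually.of_forall fun z => h.mem _) h0 hL v) hv).trans (map_zero L).symm))).co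

section slices

variable {G G₁ T T₁ X X₁ A A₁ L B B₀ B₁ : Type} [Group G] [TopologicalSpace G] [TopologicalSpace T]
  [MulAction G T] [TopologicalSpace X] [NormedAddCommGroup A] [NormedSpace ℂ A] [Group G₁]
  [TopologicalSpace G₁] [TopologicalSpace T₁] [MulAction G₁ T₁] [TopologicalSpace X₁]
  [NormedAddCommGroup A₁] [NormedSpace ℂ A₁] [NormedAddCommGroup L] [NormedSpace ℂ L]
  [NormedAddCommGroup B] [NormedSpace ℂ B] [NormedAddCommGroup B₀] [NormedSpace ℂ B₀]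
  [NormedAddCommGroup B₁] [NormedSpace ℂ B₁] {ι : T → A} {π : T → X} {ι₁ : T₁ → A₁} {π₁ : T₁ → X₁}

theorem isSlice_of_isSl {φ : B → T} {y : B} (h : IsSl G ι φ y) (e : (Fin n → ℂ) ≃L[ℂ] B) :
    IsSlice G ι fun z => φ (y + e z) := by
  refine isSlice_iff.2 (IsSl.comp_equiv (φ := fun z => φ (y + z)) e ?_)
  rw [map_zero]
  obtain ⟨h1, h2, w, h3, h4⟩ := h
  have h5 : Tendsto (fun x : G × B => (x.1, y + x.2)) (𝓝 (1, 0)) (𝓝 (1, y)) :=
    (continuous_fst.prodMk (continuous_const.add continuous_snd)).tendsto' _ _ (by simp)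
  refine ⟨LH.comp' h1 (((Homeomorph.refl G).prodCongr (Homeomorph.addLeft y)).lh (1, 0))
    (by simp), ?_, fun a => w a - y, ?_, (h5.eventually h4).mono fun x hx => ?_⟩
  · exact AnalyticAt.comp_of_eq (g := ι ∘ φ) h2 (analyticAt_const.add analyticAt_id) (add_zero y)
  · simp only [add_zero]
    exact h3.sub analyticAt_const
  · exact sub_eq_of_eq_add' hx

/-- `ℂ^(n + k) = ℂ^n × ℂ^k` -/
noncomputable def splitL (n k : ℕ) : (Fin (n + k) → ℂ) ≃L[ℂ] (Fin n → ℂ) × (Fin k → ℂ) :=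
  LinearEquiv.toContinuousLinearEquiv
    { toFun := fun z => (fun i => z (Fin.castAdd k i), fun i => z (Fin.natAdd n i))
      invFun := fun w => Fin.append w.1 w.2
      map_add' := fun _ _ => rfl
      map_smul' := fun _ _ => rfl
      left_inv := fun z => Fin.append_castAdd_natAdd
      right_inv := fun w => Prod.ext (funext fun i => Fin.append_left _ _ i)
        (funext fun i => Fin.append_right _ _ i) }

theorem splitL_append (v : Fin n → ℂ) (w : Fin k → ℂ) : splitL n k (Fin.append v w) = (v, w) :=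
  (splitL n k).apply_symm_apply (v, w)

theorem isSlice_of_prod {Φ : (Fin n → ℂ) × (Fin k → ℂ) → T} (h : IsSl G ι Φ 0) :
    IsSlice G ι fun z => Φ (splitL n k z) :=
  isSlice_iff.2 (IsSl.comp_equiv _ (by rwa [map_zero]))

theorem isSl_eventually_cont {φ : B → T} {y : B} (h : IsSl G ι φ y) :
    ∀ᶠ z in 𝓝 y, ContinuousAt φ z := by
  filter_upwards [(tendsto_inr (1 : G) y).eventually (LH.eventually_cont h.1)] with z hz
  simpa only [Function.comp_def, one_smul] using hz.comp (f := fun z => ((1 : G), z)) (by fun_prop)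

/-- a complex manifold with a proper holomorphic action with finite stabilisers -/
theorem HolOrb.of_mfd [IsTopologicalGroup G] [ProperSMul G T] [Nice T] [CompleteSpace A]
    [FiniteDimensional ℂ L] {κ : L → G} (hκ : IsExp κ) (ha : ∀ t, HolAct κ ι t)
    (hi : ∀ t, Function.Injective (inf κ ι t)) (hm : ∀ t, IsMfd ι (Module.finrank ℂ L + n) t)
    (hol : ∀ (g : G) t, HolAt ι (fun s => ι (g • s)) t) : HolOrb G ι n :=
  ⟨‹_›, ‹_›, ‹_›, ‹_›, fun t => by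
    obtain ⟨φ, h1, h2⟩ := (hm t).exists_slK hκ (ha t) (hi t) rfl
    exact ⟨φ, isSlice_iff.2 (h2.isSl hκ), h1⟩, hol⟩

theorem _root_.Vale.Agent.P269.Loc.HO.holAt_smul (Y : Loc.HO) (g : Y.G) (t : Y.T) :
    HolAt Y.ι (fun s => Y.ι (g • s)) t :=
  ⟨_, (Ch.lin Y.A g).analyticAt _, Eventually.of_forall fun s => Y.eqv g s⟩

theorem _root_.Vale.Agent.P269.Loc.HO.holOrb' (Y : Loc.HO) : HolOrb Y.G Y.ι Y.n :=
  HolOrb.of_mfd Y.exp Y.hol Y.inf_inj Y.mfd Y.holAt_smul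

/-- an invariant submanifold -/
theorem _root_.Vale.Agent.P269.Loc.HO.holOrb_sub (Y : Loc.HO) {Z : Type} [TopologicalSpace Z]
    [MulAction Y.G Z] [ContinuousSMul Y.G Z] [Nice Z] {j : Z → Y.T} (hj : Continuous j)
    (he : ∀ (g : Y.G) z, j (g • z) = g • j z)
    (hm : ∀ z, IsMfd (fun z => Y.ι (j z)) (Module.finrank ℂ Y.L + n) z) :
    HolOrb Y.G (fun z => Y.ι (j z)) n :=
  haveI := properSMul_of_map hj he
  HolOrb.of_mfd Y.exp (fun z => (Y.hol _).pull hj.continuousAt he)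
    (fun z => inf_pull (κ := Y.κ) (ι := Y.ι) he z ▸ Y.inf_inj _) hm fun g z =>
      ⟨_, (Ch.lin Y.A g).analyticAt _, Eventually.of_forall fun s =>
        (congrArg Y.ι (he g s)).trans (Y.eqv _ _)⟩

/-- **Gysin pull-back to a suborbifold**, with slices on a product -/
theorem HolOrb.gys_fund' [FiniteDimensional ℂ B₀] [FiniteDimensional ℂ B₁] (h : HolOrb G ι n)
    (hπ : IsQuo G π) (h₁ : HolOrb G₁ ι₁ (n + k)) (hπ₁ : IsQuo G₁ π₁) {i : X → X₁}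
    (hi : IsClosedEmbedding i) {t : Coch X₁} (ht : IsCo (range i) k t)
    (e₀ : (Fin n → ℂ) ≃L[ℂ] B₀) (e₁ : (Fin k → ℂ) ≃L[ℂ] B₁) {l : ℂ} {D : Set T}
    (hD : ∀ S, IsClopen S → π '' D ⊆ S → S = univ)
    (e : ∀ y ∈ D, ∃ (φ : B₀ → T) (Φ : B₀ × B₁ → T₁) (x : B₀) (d : ℂ), IsSl G ι φ x ∧ φ x = y ∧
      IsSl G₁ ι₁ Φ (x, 0) ∧ (∀ᶠ v in 𝓝 x, i (π (φ v)) = π₁ (Φ (v, 0))) ∧
      (∀ᶠ w in 𝓝 (x, 0), π₁ (Φ w) ∈ supp t → w.2 = 0) ∧
      LocCo (pull (fun w => π₁ (Φ (x, e₁ w))) t) d ∧ d * stab G y = l * stab G₁ (Φ (x, 0))) :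
    haveI := h₁.niceX hπ₁
    gys i t (fundQ G₁ ι₁ π₁ (n + k)) = l • fundQ G ι π n := by
  haveI := h₁.niceX hπ₁
  refine h.gys_fund hπ h₁ hπ₁ hi ht hD fun y hy => ?_
  obtain ⟨φ, Φ, x, d, h1, rfl, h2, h3, h4, h5, h6⟩ := e y hy
  have h7 : ∀ v w, (x, (0 : B₁)) + ((splitL n k).trans (e₀.prodCongr e₁)) (Fin.append v w) =
      (x + e₀ v, e₁ w) := fun v w => by
    rw [ContinuousLinearEquiv.trans_apply, splitL_append]
    exact Prod.ext rfl (zero_add _)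
  have h8 : Tendsto (fun v => x + e₀ v) (𝓝 0) (𝓝 x) :=
    (continuous_const.add e₀.continuous).tendsto' _ _ (by simp)
  refine ⟨_, _, d, isSlice_of_isSl h1 e₀, by simp,
    isSlice_of_isSl h2 ((splitL n k).trans (e₀.prodCongr e₁)), ?_, ?_, ?_, ?_⟩
  · simp only [h7, map_zero]
    exact h8.eventually h3
  · simp only [h7]
    have h9 : Tendsto (fun w : (Fin n → ℂ) × (Fin k → ℂ) => (x + e₀ w.1, e₁ w.2)) (𝓝 0)
        (𝓝 (x, 0)) := Continuous.tendsto' (by fun_prop) _ _ (by simp)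
    exact (h9.eventually h4).mono fun w hw e => e₁.map_eq_zero_iff.1 (hw e)
  · simpa only [h7, map_zero, add_zero] using h5
  · rwa [map_zero, add_zero]

/-- **the Euler class of a section localised along its zero set, with multiplicities** -/
theorem HolOrb.gys_eul_mult {ι₁ : Y.T → A₁} (h : HolOrb G ι n) (hπ : IsQuo G π)
    (h₁ : HolOrb Y.G ι₁ (n + k)) (hs : E.IsSec s) (hr : E.r = k) {i : X → Y.X}
    (hi : IsClosedEmbedding i) (hz : ∀ t, s t = 0 → Y.π t ∈ range i) {l : ℂ} {D : Set T}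
    (hD : ∀ S, IsClopen S → π '' D ⊆ S → S = univ)
    (e : ∀ y ∈ D, ∃ (φ : (Fin n → ℂ) → T) (Φ : (Fin n → ℂ) × (Fin k → ℂ) → Y.T)
      (m : (Fin k → ℂ) → E.W →L[ℂ] (Fin k → ℂ)) (d : ℂ), IsSlice G ι φ ∧ φ 0 = y ∧
      IsSl Y.G ι₁ Φ 0 ∧ (∀ᶠ v in 𝓝 0, i (π (φ v)) = Y.π (Φ (v, 0))) ∧ s (Φ 0) = 0 ∧
      (∀ᶠ w in 𝓝 0, s (Φ w) = 0 → w.2 = 0) ∧ (∀ᶠ z in 𝓝 0, ContinuousAt m z) ∧
      (∀ w ∈ E.F (Φ 0), m 0 w = 0 → w = 0) ∧
      LocCo (pull (fun w => m w (s (Φ (0, w)))) (tau k)) d ∧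
      d * stab G y = l * stab Y.G (Φ 0)) :
    gys i hs.eul (fundQ Y.G ι₁ Y.π (n + k)) = l • fundQ G ι π n := by
  refine h.gys_fund' hπ h₁ Y.isQuo hi ⟨hs.isCo.cocycle, hr ▸ hs.isCo.deg, hs.isCo.supp.trans ?_⟩
    (.refl ℂ _) (.refl ℂ _) hD fun y hy => ?_
  · rintro _ ⟨t, ht, rfl⟩
    exact hz t ht
  obtain ⟨φ, Φ, m, d, h1, h2, h3, h4, h5, h6, h7, h8, h9, h10⟩ := e y hy
  have h11 := tendsto_inr (0 : Fin n → ℂ) (0 : Fin k → ℂ)
  exact ⟨φ, Φ, 0, d, h1, h2, h3, h4, h6.mono fun w hw e => hw (hs.mem_zeros.1 (hs.isCo.supp e)),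
    locCo_eul hs hr (φ := fun w => Φ (0, w)) (((h11.eventually (isSl_eventually_cont h3)).and
      h7).mono fun z hz => ⟨hz.1.comp (f := fun w => (0, w)) (by fun_prop), hz.2⟩) h8 h5
      (h11.eventually h6) h9, h10⟩

/-- **transverse zero sets** -/
theorem HolOrb.gys_eul [FiniteDimensional ℂ B₀] [FiniteDimensional ℂ B₁] {ι₁ : Y.T → A₁}
    (h : HolOrb G ι n) (hπ : IsQuo G π) (h₁ : HolOrb Y.G ι₁ (n + k)) (hs : E.IsSec s)
    (hr : E.r = k) (h₀ : Module.finrank ℂ B₀ = n) (hB : Module.finrank ℂ B₁ = k) {i : X → Y.X}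
    (hi : IsClosedEmbedding i) (hz : ∀ t, s t = 0 → Y.π t ∈ range i) {l : ℂ} {D : Set T}
    (hD : ∀ S, IsClopen S → π '' D ⊆ S → S = univ)
    (e : ∀ y ∈ D, ∃ (φ : B₀ → T) (Φ : B₀ × B₁ → Y.T) (x : B₀) (L : B₁ →L[ℂ] E.W), IsSl G ι φ x ∧
      φ x = y ∧ IsSl Y.G ι₁ Φ (x, 0) ∧ (∀ᶠ v in 𝓝 x, i (π (φ v)) = Y.π (Φ (v, 0))) ∧
      Function.Injective L ∧ ((fun p => s (Φ p) - L p.2) =o[𝓝 (x, 0)] fun p => p.2) ∧
      (stab G y : ℂ) = l * stab Y.G (Φ (x, 0))) :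
    gys i hs.eul (fundQ Y.G ι₁ Y.π (n + k)) = l • fundQ G ι π n := by
  let e₁ : (Fin k → ℂ) ≃L[ℂ] B₁ := ContinuousLinearEquiv.ofFinrankEq (by simp [hB])
  refine h.gys_fund' hπ h₁ Y.isQuo hi ⟨hs.isCo.cocycle, hr ▸ hs.isCo.deg, hs.isCo.supp.trans ?_⟩
    (B₀ := B₀) (ContinuousLinearEquiv.ofFinrankEq (by simp [h₀])) e₁ hD fun y hy => ?_
  · rintro _ ⟨t, ht, rfl⟩
    exact hz t ht
  obtain ⟨φ, Φ, x, L, h1, h2, h3, h4, h5, h6, h7⟩ := e y hy
  have h8 : Tendsto (fun w => (x, e₁ w)) (𝓝 0) (𝓝 (x, 0)) :=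
    Continuous.tendsto' (by fun_prop) _ _ (by simp)
  have h9 : s (Φ (x, 0)) = 0 := by
    simpa using (h6.bound one_pos).self_of_nhds
  refine ⟨φ, Φ, x, 1, h1, h2, h3, h4, (eventually_eq_zero_of_hasFDerivAt h5 h6).mono
    fun w hw e => hw (hs.mem_zeros.1 (hs.isCo.supp e)), locCo_eul_one hs hr
      (φ := fun w => Φ (x, e₁ w)) ((h8.eventually (isSl_eventually_cont h3)).mono fun z hz =>
        hz.comp (f := fun w => (x, e₁ w)) (by fun_prop)) (by rwa [map_zero])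
      (L := L ∘L e₁) (HasFDerivAt.of_isLittleO ?_) (h5.comp e₁.injective), by rwa [one_mul]⟩
  simp only [map_zero, h9, sub_zero]
  exact (h6.comp_tendsto h8).trans_isBigO (e₁.isBigO_comp _ _)

/-- **transverse zero sets**: the section is `ℓ w` in a product slice, for a frame `ℓ` -/
theorem HolOrb.gys_eul_frame [FiniteDimensional ℂ B₁] {ι₁ : Y.T → A₁}
    (h : HolOrb G ι n) (hπ : IsQuo G π) (h₁ : HolOrb Y.G ι₁ (n + k)) (hs : E.IsSec s)
    (hr : E.r = k) (hB : Module.finrank ℂ B₁ = k) {i : X → Y.X}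
    (hi : IsClosedEmbedding i) (hz : ∀ t, s t = 0 → Y.π t ∈ range i) {l : ℂ} {D : Set T}
    (hD : ∀ S, IsClopen S → π '' D ⊆ S → S = univ)
    (e : ∀ y ∈ D, ∃ (φ : (Fin n → ℂ) → T) (Φ : (Fin n → ℂ) × B₁ → Y.T)
      (ℓ : (Fin n → ℂ) × B₁ → B₁ →L[ℂ] E.W), IsSl G ι φ 0 ∧ φ 0 = y ∧ IsSl Y.G ι₁ Φ (0, 0) ∧
      (∀ᶠ v in 𝓝 0, i (π (φ v)) = Y.π (Φ (v, 0))) ∧ ContinuousAt ℓ (0, 0) ∧
      Function.Injective (ℓ (0, 0)) ∧ (∀ᶠ p in 𝓝 (0, 0), s (Φ p) = ℓ p p.2) ∧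
      (stab G y : ℂ) = l * stab Y.G (Φ (0, 0))) :
    gys i hs.eul (fundQ Y.G ι₁ Y.π (n + k)) = l • fundQ G ι π n :=
  h.gys_eul hπ h₁ hs hr (Module.finrank_fin_fun ℂ) hB hi hz hD fun y hy => by
    obtain ⟨φ, Φ, ℓ, h1, h2, h3, h4, h5, h6, h7, h8⟩ := e y hy
    refine ⟨φ, Φ, 0, ℓ (0, 0), h1, h2, h3, h4, h6, IsLittleO.of_bound fun c hc => ?_, h8⟩
    filter_upwards [h7, h5.eventually (Metric.closedBall_mem_nhds _ hc)] with p e1 e2
    rw [e1, ← ContinuousLinearMap.sub_apply]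
    exact (ContinuousLinearMap.le_opNorm _ _).trans
      (mul_le_mul_of_nonneg_right (mem_closedBall_iff_norm.1 e2) (norm_nonneg _))

omit [TopologicalSpace G] [TopologicalSpace T] [TopologicalSpace T₁] in
theorem stab_of_injective [MulAction G T₁] {j : T → T₁} (hj : Function.Injective j)
    (he : ∀ (g : G) t, j (g • t) = g • j t) (t : T) : stab G (j t) = stab G t :=
  congrArg (fun S : Subgroup G => Nat.card S) (Subgroup.ext fun g => by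
    rw [MulAction.mem_stabilizer_iff, MulAction.mem_stabilizer_iff, ← he, hj.eq_iff])

omit [TopologicalSpace G] [TopologicalSpace T] [TopologicalSpace T₁] [TopologicalSpace G₁] in
theorem stab_of_bijOn {ρ : G →* G₁} {t : T} {t₁ : T₁}
    (h : BijOn ρ {g | g • t = t} {g | g • t₁ = t₁}) : stab G t = stab G₁ t₁ :=
  Nat.card_congr h.equiv

/-- **transverse holomorphic sections**: the zero set is an orbifold whose fundamental class is the
localised Euler class -/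
theorem _root_.Vale.Agent.P269.Loc.HO.gys_eul_hol (Y : Loc.HO) (hn : Y.n = n + k) {E : VB Y.toSp}
    (hr : E.r = k) {s : Y.T → E.W} (hs : E.IsSec s) {Z : Type} [TopologicalSpace Z]
    [MulAction Y.G Z] [ContinuousSMul Y.G Z] {j : Z → Y.T} (hj : IsEmbedding j)
    (he : ∀ (g : Y.G) z, j (g • z) = g • j z) (hz : ∀ t, t ∈ range j ↔ s t = 0)
    (hol : ∀ z, ∃ Φ : Y.A → E.W, AnalyticAt ℂ Φ (Y.ι (j z)) ∧ (∀ᶠ t in 𝓝 (j z), s t = Φ (Y.ι t)) ∧
      ∀ w ∈ E.F (j z), ∃ v ∈ tan Y.ι (j z), fderiv ℂ Φ (Y.ι (j z)) v = w)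
    {π : Z → X} (hπ : IsQuo Y.G π) {i : X → Y.X} (hi : ∀ z, i (π z) = Y.π (j z)) :
    IsClosedEmbedding i ∧ (∀ z, IsMfd (fun z => Y.ι (j z)) (Module.finrank ℂ Y.L + n) z) ∧
      HolOrb Y.G (fun z => Y.ι (j z)) n ∧
      gys i hs.eul (fundQ Y.G Y.ι Y.π Y.n) = fundQ Y.G (fun z => Y.ι (j z)) π n := by
  have hj' : IsClosedEmbedding j :=
    ⟨hj, by rw [show range j = _ from Set.ext hz]; exact isClosed_eq hs.cont continuous_const⟩
  haveI : Nice Z := Nice.of_isEmbedding hj hj'.isClosed_range.isLocallyClosed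
  have h1 := hπ.isClosedEmbedding_map Y.isQuo hi (fun g t => ⟨g, he g t⟩) hj'
  have key : ∀ z, ∃ (q : E.W →L[ℂ] (Fin k → ℂ)) (φ : (Fin n → ℂ) × (Fin k → ℂ) → Y.T)
      (φ' : (Fin n → ℂ) → Z), (∀ w ∈ E.F (j z), q w = 0 → w = 0) ∧ IsSlK Y.κ Y.ι φ (0, 0) ∧
      IsSlK Y.κ (fun s => Y.ι (j s)) φ' 0 ∧ φ' 0 = z ∧ φ (0, 0) = j z ∧
      (∀ᶠ p in 𝓝 (0, 0), q (s (φ p)) = p.2) ∧ ∀ᶠ y in 𝓝 0, j (φ' y) = φ (y, 0) := fun z => by
    obtain ⟨q, hq⟩ := exists_fibre_coord E hr (j z)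
    obtain ⟨ψ, hψ⟩ := exists_dual_frame E hr (b := j z) (φ := id) (m := fun _ => q)
      (Eventually.of_forall fun _ => ⟨continuousAt_id, continuousAt_const⟩) hq
    obtain ⟨Φ, h2, h3, h4⟩ := hol z
    obtain ⟨φ, φ', h5⟩ := (Y.mfd (j z)).exists_slK_zero Y.exp hj he (Y.hol _) (Y.inf_inj _)
      (n := n) (f := fun t => q (s t)) (Φ := fun a => q (Φ a)) ((q.analyticAt _).comp h2)
      (h3.mono fun t ht => congrArg q ht) (fun b => by
        obtain ⟨v, h5, h6⟩ := h4 _ (hψ.self_of_nhds.2.2.1 b)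
        exact ⟨v, h5, (DFunLike.congr_fun (q.hasFDerivAt.comp _
          h2.differentiableAt.hasFDerivAt).fderiv v).trans
            ((congrArg q h6).trans (hψ.self_of_nhds.2.1 b))⟩)
      (hψ.mono fun t ht => (hz t).trans ⟨fun e => by rw [e, map_zero], fun e => by
        rw [← ht.2.2.2 _ (hs.mem t), e, map_zero]⟩) (by simp [hn])
    exact ⟨q, φ, φ', hq, h5⟩
  have h2 : ∀ z, IsMfd (fun z => Y.ι (j z)) (Module.finrank ℂ Y.L + n) z := fun z => by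
    obtain ⟨-, -, φ', -, -, h2, rfl, -⟩ := key z
    simpa using h2.isMfd Y.exp
  have h3 := Y.holOrb_sub hj.continuous he h2
  refine ⟨h1, h2, h3, ?_⟩
  rw [hn, ← one_smul ℂ (fundQ Y.G (fun z => Y.ι (j z)) π n)]
  refine h3.gys_eul_mult hπ (hn ▸ Y.holOrb') hs hr h1 (fun t ht => ?_) (hπ.meets dense_univ)
    fun z _ => ?_
  · obtain ⟨z, rfl⟩ := (hz t).2 ht
    exact ⟨_, hi z⟩
  obtain ⟨q, φ, φ', h4, h5, h6, h7, h8, h9, h10⟩ := key z
  have h11 : φ 0 = j z := h8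
  refine ⟨φ', φ, fun _ => q, 1, h6.isSl Y.exp, h7, h5.isSl Y.exp,
    h10.mono fun v hv => by rw [hi, hv], h11 ▸ (hz _).1 ⟨z, rfl⟩,
    h9.mono fun w hw e => by rw [← hw, e, map_zero],
    Eventually.of_forall fun _ => continuousAt_const, h11 ▸ h4, ?_, by
      rw [h11, stab_of_injective hj.injective he]⟩
  exact posGerm_id.co.pull_congr ((tendsto_inr _ _).eventually h9)

end slices

end Vale.Agent.P269.Orb
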