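import Vale.Agent.P269.Orb.TZ

set_option linter.all false

/-!
# Open suborbifolds, singular spaces, the fundamental class of the statement
-/

namespace Vale.Agent.P269.Orb

open Set Topology Filter Vale.Agent.P291Z Vale.Agent.P269.Holo

section opn

variable {G T T' X X' Z A : Type} [Group G] [TopologicalSpace G] [TopologicalSpace T]
  [MulAction G T] [TopologicalSpace T'] [MulAction G T'] [TopologicalSpace X] [TopologicalSpace X']
  [TopologicalSpace Z] [NormedAddCommGroup A] [NormedSpace ℂ A] {n : ℕ} {ι : T → A} {π : T → X}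
  {π' : T' → X'} {j : T' → T} {J : X' → X}

theorem IsSlice.push_lh (he : ∀ (g : G) t, j (g • t) = g • j t) {φ : (Fin n → ℂ) → T'}
    (hj : LH j (φ 0)) (h : IsSlice G (fun t => ι (j t)) φ) : IsSlice G ι fun z => j (φ z) := by
  obtain ⟨h1, h2, w, h3, h4⟩ := h
  refine ⟨(LH.comp' hj h1 (one_smul _ _)).congr (Eventually.of_forall fun x => he _ _), h2, w, h3,
    h4.mono fun x hx => ?_⟩
  rwa [← he]

theorem IsSlice.lift_lh [ContinuousSMul G T'] (he : ∀ (g : G) t, j (g • t) = g • j t) {t : T'}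
    (hj : LH j t) {φ : (Fin n → ℂ) → T} (h : IsSlice G ι φ) (h0 : φ 0 = j t) :
    ∃ φ', IsSlice G (fun t => ι (j t)) φ' ∧ φ' 0 = t ∧ ∀ᶠ z in 𝓝 0, j (φ' z) = φ z := by
  obtain ⟨k, h1, h2, -, h3⟩ := hj.exists_inv
  rw [← h0] at h1 h2 h3
  have h4 := h.cont.eventually h3
  have h5 := h.congr h4
  obtain ⟨h6, h7, w, h8, h9⟩ := h5
  refine ⟨fun z => k (φ z), ⟨LH.of_comp_left (g := j) (LH.congr h6
    (Eventually.of_forall fun x => (he _ _).symm)) (by simpa only [one_smul, h1] using hj)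
    (continuousAt_fst.smul (ContinuousAt.comp_of_eq (g := fun z => k (φ z)) (h2.cont.comp h.cont)
      continuousAt_snd rfl)), h7, w,
    h8, h9.mono fun x hx => ?_⟩, h1, h4⟩
  rwa [← he] at hx

theorem HolOrb.of_lh [ContinuousSMul G T'] [Nice T'] (h : HolOrb G ι n) (hj : ∀ t, LH j t)
    (he : ∀ (g : G) t, j (g • t) = g • j t) : HolOrb G (fun t => ι (j t)) n :=
  haveI := h.proper
  ⟨h.grp, properSMul_of_map (continuous_iff_continuousAt.2 fun t => (hj t).cont) he, ‹_›,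
    h.complete, fun t => by
      obtain ⟨φ, h1, h2⟩ := h.slice (j t)
      exact (h1.lift_lh he (hj t) h2).imp fun _ h => ⟨h.1, h.2.1⟩, fun g t => by
      obtain ⟨Φ, h1, h2⟩ := h.hol g (j t)
      exact ⟨Φ, h1, ((hj t).cont.eventually h2).mono fun s hs => (congrArg ι (he g s)).trans hs⟩⟩

theorem continuousSMul_of_isEmbedding [ContinuousSMul G T] (hj : IsEmbedding j)
    (he : ∀ (g : G) t, j (g • t) = g • j t) : ContinuousSMul G T' :=
  ⟨hj.continuous_iff.2 ((continuous_fst.smul (hj.continuous.comp continuous_snd)).congr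
    fun x => (he x.1 x.2).symm)⟩

theorem HolOrb.of_open (h : HolOrb G ι n) (hj : IsOpenEmbedding j)
    (he : ∀ (g : G) t, j (g • t) = g • j t) : HolOrb G (fun t => ι (j t)) n :=
  haveI := h.nice
  haveI := h.orb.contSMul
  haveI := continuousSMul_of_isEmbedding hj.isEmbedding he
  haveI : Nice T' := Nice.of_isEmbedding hj.isEmbedding hj.isOpen_range.isLocallyClosed
  h.of_lh hj.lh he

theorem IsQuo.isOpenEmbedding (hπ' : IsQuo G π') (hπ : IsQuo G π) (hj : IsOpenEmbedding j)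
    (he : ∀ (g : G) t, j (g • t) = g • j t) (hJ : ∀ t, J (π' t) = π (j t)) : IsOpenEmbedding J :=
  hπ'.isOpenEmbedding_map hπ hJ (fun g t => ⟨g, he g t⟩) hj

theorem IsQuo.isClosedEmbedding (hπ' : IsQuo G π') (hπ : IsQuo G π) (hj : IsClosedEmbedding j)
    (he : ∀ (g : G) t, j (g • t) = g • j t) (hJ : ∀ t, J (π' t) = π (j t)) : IsClosedEmbedding J :=
  hπ'.isClosedEmbedding_map hπ hJ (fun g t => ⟨g, he g t⟩) hj

theorem IsQuo.exists_map (hπ' : IsQuo G π') (hπ : IsQuo G π)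
    (he : ∀ (g : G) t, j (g • t) = g • j t) : ∃ J : X' → X, ∀ t, J (π' t) = π (j t) :=
  hπ'.exists_lift _ fun g t => by rw [he, hπ.smul]

/-- a class is determined on the smooth part by its values at some points -/
theorem HolOrb.res_eq_of_val [Nice X] (h : HolOrb G (fun t => ι (j t)) n) (hπ' : IsQuo G π')
    (hJ : IsOpenEmbedding J) {β : BM X} (hβ : BM.IsDeg (2 * n) β) {D : Set T'}
    (hD : ∀ S, IsClopen S → π' '' D ⊆ S → S = univ) (e : ∀ t ∈ D, ∃ φ : (Fin n → ℂ) → T',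
      IsSlice G (fun t => ι (j t)) φ ∧ φ 0 = t ∧ Val β (J ∘ π' ∘ φ) (stab G t)) :
    res J β = fundQ G (fun t => ι (j t)) π' n := by
  haveI := h.niceX hπ'
  rw [← one_smul ℂ (fundQ G _ π' n)]
  refine h.eq_smul hπ' (hβ.res J) hD fun t ht => ?_
  obtain ⟨φ, h1, h2, h3⟩ := e t ht
  exact ⟨φ, _, h1, h2, Val.res hJ (h.gch hπ' h1).pch.cont h3, (one_mul _).symm⟩

theorem HolOrb.res_eq_of_isFund [Nice X] (h : HolOrb G (fun t => ι (j t)) n) (hπ' : IsQuo G π')
    (hπ : IsQuo G π) (hj : IsOpenEmbedding j) (he : ∀ (g : G) t, j (g • t) = g • j t)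
    (hJ : ∀ t, J (π' t) = π (j t)) {β : BM X} (hβ : IsFund (slCh G ι π n) β) :
    res J β = fundQ G (fun t => ι (j t)) π' n :=
  h.res_eq_of_val hπ' (hπ'.isOpenEmbedding hπ hj he hJ) hβ.1 (hπ'.meets dense_univ) fun t _ => by
    obtain ⟨φ, h1, rfl⟩ := h.slice t
    exact ⟨φ, h1, rfl, Val.congr (hβ.2 _ _ ⟨_, h1.push_lh he (hj.lh _), rfl,
      (stab_of_injective hj.injective he _).symm⟩) (Eventually.of_forall fun z => (hJ _).symm)⟩

/-- **restriction to an invariant open subset** -/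
theorem HolOrb.res_open (h : HolOrb G ι n) (hπ' : IsQuo G π') (hπ : IsQuo G π)
    (hj : IsOpenEmbedding j) (he : ∀ (g : G) t, j (g • t) = g • j t)
    (hJ : ∀ t, J (π' t) = π (j t)) :
    haveI := h.niceX hπ
    res J (fundQ G ι π n) = fundQ G (fun t => ι (j t)) π' n :=
  haveI := h.niceX hπ
  (h.of_open hj he).res_eq_of_isFund hπ' hπ hj he hJ (h.isFund hπ)

/-- a proper holomorphic action on a possibly singular space -/
structure PreOrb (G : Type) [Group G] [TopologicalSpace G] [MulAction G T] (ι : T → A) : Prop where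
  grp : IsTopologicalGroup G
  proper : ProperSMul G T
  nice : Nice T
  complete : CompleteSpace A
  hol : ∀ (g : G) t, HolAt ι (fun s => ι (g • s)) t

theorem HolOrb.preOrb (h : HolOrb G ι n) : PreOrb G ι := ⟨h.grp, h.proper, h.nice, h.complete, h.hol⟩

namespace PreOrb

variable (h : PreOrb G ι)
include h

theorem niceX (hπ : IsQuo G π) : Nice X := by
  haveI := h.proper
  haveI := h.nice
  exact ⟨hπ.t2Space, hπ.oq.locallyCompactSpace, hπ.oq.isQuotientMap.secondCountableTopology hπ.isOpenMap⟩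

/-- the points where there is a slice of dimension `n` -/
def sm (n : ℕ) : SubMulAction G T where
  carrier := {t | ∃ φ : (Fin n → ℂ) → T, IsSlice G ι φ ∧ φ 0 = t}
  smul_mem' := by
    haveI := h.grp
    haveI := h.proper
    rintro g _ ⟨φ, h1, rfl⟩
    exact ⟨fun z => g • φ z, isSlice_iff.2 (IsSl.smul h1 g (h.hol _ _) (h.hol _ _)), rfl⟩

theorem isOpen_sm (n : ℕ) : IsOpen (h.sm n : Set T) := by
  haveI := h.complete
  refine isOpen_iff_mem_nhds.2 ?_
  rintro _ ⟨φ, h1, rfl⟩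
  have h2 := LH.map_nhds h1.1
  rw [one_smul] at h2
  rw [← h2]
  exact ((continuous_snd.tendsto' _ 0 rfl).eventually h1.eventually).mono fun x hx =>
    (h.sm n).smul_mem _ ⟨_, hx, by rw [zero_add]⟩

theorem of_open (hj : IsOpenEmbedding j) (he : ∀ (g : G) t, j (g • t) = g • j t)
    (hs : ∀ t, j t ∈ h.sm n) : HolOrb G (fun t => ι (j t)) n :=
  haveI := h.nice
  haveI := h.proper
  haveI := continuousSMul_of_isEmbedding hj.isEmbedding he
  haveI := Nice.of_isEmbedding hj.isEmbedding hj.isOpen_range.isLocallyClosed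
  ⟨h.grp, properSMul_of_map hj.continuous he, this, h.complete, fun t => by
      obtain ⟨φ, h1, h2⟩ := hs t
      exact (h1.lift_lh he (hj.lh t) h2).imp fun _ h => ⟨h.1, h.2.1⟩, fun g t => by
      obtain ⟨Φ, h1, h2⟩ := h.hol g (j t)
      exact ⟨Φ, h1, (hj.continuous.continuousAt.eventually h2).mono fun s hs =>
        (congrArg ι (he g s)).trans hs⟩⟩

theorem holOrb_sm (n : ℕ) : HolOrb G (fun t : h.sm n => ι t) n :=
  h.of_open (h.isOpen_sm n).isOpenEmbedding_subtypeVal (fun _ _ => rfl) fun t => t.2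

theorem dim_eq {m : ℕ} {t : T} (h1 : t ∈ h.sm n) (h2 : t ∈ h.sm m) : n = m := by
  haveI := h.grp
  haveI := h.proper
  obtain ⟨φ, h3, rfl⟩ := h1
  obtain ⟨φ', h4, h5⟩ := h2
  exact h3.dim_eq h4 (g := 1) (by rw [one_smul, h5]) (h.hol _ _) (h.hol _ _)

variable (h' : HolOrb G (fun t => ι (j t)) n) (hπ' : IsQuo G π') (hπ : IsQuo G π)
  (hj : IsOpenEmbedding j) (he : ∀ (g : G) t, j (g • t) = g • j t) (hJ : ∀ t, J (π' t) = π (j t))
  (hd : Dense (range j))
include h' hj he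

theorem mem_sm (t : T') : j t ∈ h.sm n :=
  let ⟨_, h1, h2⟩ := h'.slice t
  ⟨_, h1.push_lh he (hj.lh _), congrArg j h2⟩

include hd in
theorem dim_eq_of_dense {m : ℕ} {φ : (Fin m → ℂ) → T} (hφ : IsSlice G ι φ) : m = n := by
  obtain ⟨_, ⟨t, rfl⟩, ht⟩ := hd.exists_mem_open (h.isOpen_sm m) ⟨_, φ, hφ, rfl⟩
  exact h.dim_eq ht (h.mem_sm h' hj he t)

include hπ' hπ hJ hd

/-- a class which is the fundamental class on a dense smooth part -/
theorem isFund_of_res [Nice X] {β : BM X} (hβ : BM.IsDeg (2 * n) β)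
    (e : res J β = fundQ G (fun t => ι (j t)) π' n) : IsFund (slCh G ι π n) β := by
  have h1 := h.holOrb_sm n
  haveI := h1.orb.contSMul
  have h2 := (h.isOpen_sm n).isOpenEmbedding_subtypeVal
  have hq := isQuo_mk (G := G) (T := h.sm n)
  haveI := h1.niceX hq
  haveI := h'.niceX hπ'
  obtain ⟨J₁, h3⟩ := hq.exists_map hπ (j := Subtype.val) fun _ _ => rfl
  have h4 := hq.isOpenEmbedding hπ h2 (fun _ _ => rfl) h3
  let j' : T' → h.sm n := fun t => ⟨j t, h.mem_sm h' hj he t⟩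
  have h5 : IsOpenEmbedding j' := IsOpenEmbedding.of_comp j' h2 hj
  have h6 : ∀ (g : G) t, j' (g • t) = g • j' t := fun g t => Subtype.ext (he g t)
  obtain ⟨J', h7⟩ := hπ'.exists_map hq h6
  have h8 := hπ'.isOpenEmbedding hq h5 h6 h7
  have h9 : res J₁ β = fundQ G (fun t : h.sm n => ι t) (Q.mk G) n := by
    refine (h1.ori hq).eq_of_res (hβ.res _) (h1.deg hq) h8 (fun S hS e => hq.meets
      (hd.preimage h2.isOpenMap) S hS (Subset.trans ?_ e)) ?_
    · rintro _ ⟨t, ⟨t', ht⟩, rfl⟩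
      exact ⟨π' t', (h7 t').trans (congrArg _ (Subtype.ext ht))⟩
    · rw [res_res h8 h4, h1.res_open hπ' hq h5 h6 h7, ← e]
      congr 2
      funext x
      obtain ⟨t, rfl⟩ := hπ'.surj x
      rw [Function.comp_apply, h7, h3, hJ]
  refine ⟨hβ, ?_⟩
  rintro _ _ ⟨φ, k1, rfl, rfl⟩
  obtain ⟨φ', k2, k3, k4⟩ := k1.lift_lh (T' := h.sm n) (j := Subtype.val) (t := ⟨_, φ, k1, rfl⟩)
    (fun _ _ => rfl) (h2.lh _) rfl
  have k5 := h1.val hq k2
  rw [← h9, ← stab_of_injective Subtype.val_injective fun _ _ => rfl, k3] at k5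
  exact (k5.of_res h4).congr (k4.mono fun z hz => (h3 _).trans (congrArg π hz))

variable [Nice X] {i : Z → X} (hi : IsClosedEmbedding i) (hc : range J = (range i)ᶜ)
  (hZ : Top Z (2 * n - 2))
include hi hc hZ

/-- **the fundamental class of a singular space** -/
theorem isFund_of_top : IsFund (slCh G ι π n) (fundQ G ι π n) := by
  obtain ⟨β, h1, h2⟩ := exists_res_of_top hi (hπ'.isOpenEmbedding hπ hj he hJ) hc hZ (h'.deg hπ')
  exact Classical.epsilon_spec ⟨β, h.isFund_of_res h' hπ' hπ hj he hJ hd h1 h2⟩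

theorem res_of_top : res J (fundQ G ι π n) = fundQ G (fun t => ι (j t)) π' n :=
  h'.res_eq_of_isFund hπ' hπ hj he hJ (h.isFund_of_top h' hπ' hπ hj he hJ hd hi hc hZ)

theorem eq_of_top {β : BM X} (hβ : BM.IsDeg (2 * n) β) {l : ℂ}
    (e : res J β = l • fundQ G (fun t => ι (j t)) π' n) : β = l • fundQ G ι π n :=
  eq_of_res_of_top hi (hπ'.isOpenEmbedding hπ hj he hJ) hc (hZ.mono (by omega)) hβ
    (isDeg_smul (h.isFund_of_top h' hπ' hπ hj he hJ hd hi hc hZ).1 l)
    (by rw [e, map_smul, h.res_of_top h' hπ' hπ hj he hJ hd hi hc hZ])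

/-- **normalisations, resolutions** -/
theorem push_eq_of_top {Y : Type} [TopologicalSpace Y] [Nice Y] {f : Y → X} (hf : IsPr f)
    {k : X' → Y} (hk : IsOpenEmbedding k) (hfk : ∀ x, f (k x) = J x)
    (hr : f ⁻¹' range J ⊆ range k) {γ : BM Y} (hγ : BM.IsDeg (2 * n) γ) {l : ℂ}
    (e : res k γ = l • fundQ G (fun t => ι (j t)) π' n) : push f γ = l • fundQ G ι π n :=
  haveI := h'.niceX hπ'
  h.eq_of_top h' hπ' hπ hj he hJ hd hi hc hZ (hγ.push f) (by
    rw [res_push (hπ'.isOpenEmbedding hπ hj he hJ) hk hf IsPr.id hfk hr, push_id', e])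

end PreOrb

end opn

theorem BM_eq_of_isEmpty {X : Type} [TopologicalSpace X] [IsEmpty X] (β β' : BM X) : β = β' :=
  LinearMap.ext fun c => by
    obtain ⟨b, -, rfl⟩ := cls_surj c
    rw [Subsingleton.elim b 0, cls_zero, map_zero, map_zero]

theorem LocCo.cohom_open {n : ℕ} {U : Set (Fin n → ℂ)} {a : Coch (Fin n → ℂ)} {c : ℂ}
    (h : LocCo a c) (ha : ∀ z ∈ U, z ≠ 0 → a ∈ Van z) :
    Cohom {z : U | z.1 = 0} (P291Z.pull Subtype.val a) (P291Z.pull Subtype.val (c • tau n)) := by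
  obtain ⟨b, hb⟩ := locCo_iff.1 h
  obtain ⟨N, h1, h2⟩ := exists_cut_pt (hb.mono fun z hz => hz.2)
  refine ⟨P291Z.pull Subtype.val (cut N b), fun z hz => h1 (supp_pull continuous_subtype_val _ hz),
    supp_eq_empty.2 fun z => ?_⟩
  rw [δ_pull, ← map_sub, ← map_sub]
  refine Van.pull continuous_subtype_val.continuousAt ?_
  by_cases h0 : z.1 = 0
  · have := add_mem hb.self_of_nhds.1 (Van.δ h2)
    rwa [map_sub, sub_add_sub_cancel, ← h0] at this
  · exact sub_mem (sub_mem (ha _ z.2 h0) (Submodule.smul_mem _ _ (tau_van h0)))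
      (Van.δ fun h' => h0 (h1 h'))

theorem gch_of_isOpenEmbedding {X : Type} [TopologicalSpace X] [Nice X] {n : ℕ}
    {U : Set (Fin n → ℂ)} (hU : IsOpen U) (h0 : 0 ∈ U) {ψ : (Fin n → ℂ) → X}
    (h : IsOpenEmbedding fun z : U => ψ z) : GCh ψ :=
  CUC.gch (Γ := PUnit) (h0 := h0) (a := fun _ u => u) ⟨hU, ⟨fun _ => rfl, fun _ _ _ => rfl,
    fun _ => continuous_id, h.continuous, h.isOpenMap, fun _ _ =>
      ⟨fun e => ⟨1, h.injective e⟩, fun ⟨_, e⟩ => e ▸ rfl⟩⟩,
    fun _ => ⟨id, posGerm_id, Eventually.of_forall fun _ => rfl⟩⟩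

section stmt

variable {A W : Type} [NormedRing A] [NormedAlgebra ℂ A] [NormedAddCommGroup W] [NormedSpace ℂ W]
  {act : A → W → W} {S S₀ : Set W} {d : ℕ}

theorem _root_.Vale.Agent.P269.IsChart.val_iff [Nice (Quo act S)] {U : Set (Fin d → ℂ)} {φ : U → S}
    (h : IsChart act S d U φ) {ψ : (Fin d → ℂ) → Quo act S} (e : ∀ z : U, ψ z = Quo.mk act (φ z))
    {β : BM (Quo act S)} : (∀ a ∈ Zc (Quo act S), supp a ⊆ {Quo.mk act (φ ⟨0, h.zero_mem⟩)} →
      Cohom {z | z.1 = 0} (pull (fun z => Quo.mk act (φ z)) a) (pull Subtype.val (tau d)) →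
        ev β a = 1) ↔ Val β ψ 1 := by
  have e1 : (fun z => Quo.mk act (φ z)) = ψ ∘ Subtype.val := funext fun z => (e z).symm
  have h1 := h.emb
  rw [← e ⟨0, h.zero_mem⟩, e1]
  rw [e1] at h1
  constructor
  · intro H a c h2 h3 h4
    obtain ⟨b, h5, h6⟩ := (gch_of_isOpenEmbedding h.isOpen h.zero_mem h1).gen
    have h7 : ∀ a, supp (δ a) = ∅ → supp a ⊆ {ψ 0} → LocCo (pull ψ a) 1 → ev β a = 1 :=
      fun a k1 k2 k3 => H a (Zc_of_pt k1 k2) k2 (by
        have := k3.cohom_open (U := U) fun z hz h0 => Van.pull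
          ((h.isOpen.isOpenEmbedding_subtypeVal.continuousAt_iff (x := ⟨z, hz⟩)).1
            h1.continuous.continuousAt) fun h' => h0 (congrArg Subtype.val
              (h1.injective (a₁ := ⟨z, hz⟩) (a₂ := ⟨0, h.zero_mem⟩) (k2 h')))
        rwa [one_smul, pull_pull] at this)
    have h8 := (Zc _).smul_mem (1 - c) h5.zc
    have h9 := h7 (a + (1 - c) • b) ((Zc _).add_mem (Zc_of_pt h2 h3) h8).2
      ((supp_add _ _).trans (union_subset h3 ((supp_smul _ _).trans h5.pt))) (by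
        have := h4.add (h6.smul (1 - c))
        rwa [← map_smul, ← map_add, mul_one, add_sub_cancel] at this)
    rw [ev_add β (Zc_of_pt h2 h3) h8, ev_smul β _ h5.zc, h7 b h5.cyc h5.pt h6] at h9
    linear_combination h9
  · rintro H a h2 h3 ⟨b, h4, h5⟩
    rw [← one_mul (ev β a)]
    refine H a 1 h2.2 h3 (LocCo.of_open h.isOpen h.zero_mem locCo_tau (e := b)
      (fun z hz => Subtype.ext (h4 hz)) ?_)
    rw [pull_pull]
    exact supp_eq_empty.1 h5 _

variable [IsAct act S]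

theorem isQuo_sp : IsQuo Aˣ (Sp.mk : Sp act S → Quo act S) :=
  ⟨Sp.isOpenQuotientMap_mk, fun _ _ => Sp.mk_eq_iff⟩

theorem holAt_sp (g : Aˣ) (x : Sp act S) : HolAt Sp.val (fun s : Sp act S => (g • s).val) x :=
  holAt_smul_units g (IsAct.an _ g.isUnit _ x.val_mem) fun _ _ => rfl

variable [FiniteDimensional ℂ A] [FiniteDimensional ℂ W] [ProperSMul Aˣ (Sp act S)]
  [LocallyCompactSpace S]

theorem preOrb_sp : PreOrb Aˣ (Sp.val : Sp act S → W) :=
  haveI := FiniteDimensional.proper ℂ W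
  ⟨inferInstance, inferInstance, ⟨inferInstance, inferInstance, inferInstance⟩, inferInstance,
    holAt_sp⟩

theorem nice_quo : Nice (Quo act S) := preOrb_sp.niceX isQuo_sp

theorem holOrb_sp (hm : ∀ x : Sp act S, IsMfd Sp.val (Module.finrank ℂ A + d) x)
    (hf : ∀ x : Sp act S, Finite (MulAction.stabilizer Aˣ x)) :
    HolOrb Aˣ (Sp.val : Sp act S → W) d :=
  haveI := FiniteDimensional.complete ℂ A
  haveI := FiniteDimensional.complete ℂ W
  haveI := (preOrb_sp (act := act) (S := S)).nice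
  HolOrb.of_mfd isExp_expU Sp.holAct (fun x => Sp.inf_injective_of_finite (hf x)) hm holAt_sp

/-- the values in all slices give the fundamental class of the statement -/
theorem isFund_of_slCh {β : BM (Quo act S)} (hβ : IsFund (slCh Aˣ Sp.val Sp.mk d) β)
    (hd : ∀ m (φ : (Fin m → ℂ) → Sp act S), IsSlice Aˣ Sp.val φ → m = d) : P269.IsFund act S β := by
  haveI := FiniteDimensional.complete ℂ A
  haveI := nice_quo (act := act) (S := S)
  refine ⟨d, hβ.1, fun d' U φ h => ?_⟩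
  obtain ⟨φ', h1, h2, h3⟩ := h.exists_slK
  obtain rfl := hd _ _ (h2.isSl isExp_expU)
  refine ⟨rfl, (h.val_iff (ψ := Sp.mk ∘ φ') fun z => congrArg Sp.mk (h1 z)).2 ?_⟩
  have := hβ.2 _ _ ⟨φ', h2.isSl isExp_expU, rfl, rfl⟩
  rwa [stab_eq_one h3, Nat.cast_one] at this

/-- the fundamental class of the statement in a slice at a free point -/
theorem _root_.Vale.Agent.P269.IsFund.val {β : BM (Quo act S)} (hβ : P269.IsFund act S β)
    {φ : (Fin d → ℂ) → Sp act S} (hφ : IsSlice Aˣ Sp.val φ) (h1 : ∀ g : Aˣ, g • φ 0 = φ 0 → g = 1) :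
    BM.IsDeg (2 * d) β ∧ Val β (Sp.mk ∘ φ) 1 := by
  haveI := FiniteDimensional.complete ℂ A
  haveI := FiniteDimensional.complete ℂ W
  haveI := nice_quo (act := act) (S := S)
  obtain ⟨U, -, h2⟩ := (IsSl.isSlK isExp_expU
    (Eventually.of_forall fun _ => Sp.continuous_val.continuousAt) (Sp.holAct _)
    (Sp.inf_injective (Eventually.of_forall h1)) hφ).isChart h1 univ_mem
  obtain ⟨d', h3, h4⟩ := hβ
  obtain ⟨rfl, h5⟩ := h4 _ _ _ h2
  exact ⟨h3, (h2.val_iff fun _ => rfl).1 h5⟩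

/-- **existence** -/
theorem HolOrb.isFund_sp (h : HolOrb Aˣ (Sp.val : Sp act S → W) d) :
    P269.IsFund act S (fundQ Aˣ Sp.val Sp.mk d) :=
  isFund_of_slCh (h.isFund isQuo_sp) fun _ _ hφ => h.preOrb.dim_eq ⟨_, hφ, rfl⟩ (h.slice _)

variable {T X Z : Type} [TopologicalSpace T] [MulAction Aˣ T] [TopologicalSpace X]
  [TopologicalSpace Z] {j : T → Sp act S} {π : T → X} {J : X → Quo act S}
  (h : HolOrb Aˣ (fun t => (j t).val) d) (hπ : IsQuo Aˣ π) (hj : IsOpenEmbedding j)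
  (he : ∀ (g : Aˣ) t, j (g • t) = g • j t) (hJ : ∀ t, J (π t) = (j t).mk)
  (hD : ∀ C, IsClopen C → π '' {t | ∀ g : Aˣ, g • t = t → g = 1} ⊆ C → C = univ)
include h hπ hj he hJ

include hD in
/-- **uniqueness on the smooth part** -/
theorem _root_.Vale.Agent.P269.IsFund.res_eq {β : BM (Quo act S)} (hβ : P269.IsFund act S β) :
    haveI := nice_quo (act := act) (S := S)
    res J β = fundQ Aˣ (fun t => (j t).val) π d ∧ (Nonempty T → BM.IsDeg (2 * d) β) := by
  haveI := nice_quo (act := act) (S := S)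
  have h1 : ∀ t, (∀ g : Aˣ, g • t = t → g = 1) → ∃ φ : (Fin d → ℂ) → T,
      IsSlice Aˣ (fun t => (j t).val) φ ∧ φ 0 = t ∧ BM.IsDeg (2 * d) β ∧
        Val β (J ∘ π ∘ φ) (stab Aˣ t) := fun t ht => by
    obtain ⟨φ, h2, rfl⟩ := h.slice t
    have h3 := hβ.val (h2.push_lh he (hj.lh _)) fun g hg => ht g (hj.injective ((he _ _).trans hg))
    rw [stab_eq_one ht, Nat.cast_one]
    exact ⟨φ, h2, rfl, h3.1, h3.2.congr (Eventually.of_forall fun z => (hJ _).symm)⟩
  have h2 : Nonempty T → BM.IsDeg (2 * d) β := fun ⟨t⟩ => by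
    by_contra h3
    exact (hD ∅ isClopen_empty (by
      rintro _ ⟨t, ht, rfl⟩
      obtain ⟨_, -, -, h4, -⟩ := h1 t ht
      exact h3 h4)).ge (mem_univ (π t))
  refine ⟨?_, h2⟩
  rcases isEmpty_or_nonempty T with h3 | h3
  · haveI := hπ.surj.isEmpty
    exact BM_eq_of_isEmpty _ _
  · exact h.res_eq_of_val hπ (hπ.isOpenEmbedding isQuo_sp hj he hJ) (h2 h3) hD fun t ht =>
      (h1 t ht).imp fun _ h => ⟨h.1, h.2.1, h.2.2.2⟩

variable (hd : Dense (range j)) {i : Z → Quo act S} (hi : IsClosedEmbedding i)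
  (hc : range J = (range i)ᶜ) (hZ : Top Z (2 * d - 2))
include hd

/-- a class which is the fundamental class on a dense smooth part -/
theorem isFund_of_res {β : BM (Quo act S)} (hβ : BM.IsDeg (2 * d) β)
    (e : haveI := nice_quo (act := act) (S := S); res J β = fundQ Aˣ (fun t => (j t).val) π d) :
    P269.IsFund act S β :=
  haveI := nice_quo (act := act) (S := S)
  isFund_of_slCh (preOrb_sp.isFund_of_res h hπ isQuo_sp hj he hJ hd hβ e) fun _ _ hφ =>
    preOrb_sp.dim_eq_of_dense h hj he hd hφ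

include hi hc hZ

/-- **existence for singular spaces** -/
theorem isFund_of_top : P269.IsFund act S (fundQ Aˣ Sp.val Sp.mk d) :=
  haveI := nice_quo (act := act) (S := S)
  isFund_of_slCh (preOrb_sp.isFund_of_top h hπ isQuo_sp hj he hJ hd hi hc hZ) fun _ _ hφ =>
    preOrb_sp.dim_eq_of_dense h hj he hd hφ

include hD in
/-- **uniqueness for singular spaces** -/
theorem _root_.Vale.Agent.P269.IsFund.eq_of_top {β : BM (Quo act S)} (hβ : P269.IsFund act S β) :
    β = fundQ Aˣ Sp.val Sp.mk d := by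
  haveI := nice_quo (act := act) (S := S)
  obtain ⟨h1, h2⟩ := hβ.res_eq h hπ hj he hJ hD
  rcases isEmpty_or_nonempty T with h3 | h3
  · haveI : IsEmpty (Sp act S) := ⟨fun x => by simpa [range_eq_empty j] using hd x⟩
    haveI := (isQuo_sp (act := act) (S := S)).surj.isEmpty
    exact BM_eq_of_isEmpty _ _
  · rw [preOrb_sp.eq_of_top h hπ isQuo_sp hj he hJ hd hi hc hZ (h2 h3) (l := 1)
      (by rw [h1, one_smul]), one_smul]

omit h hπ hj he hJ hd hi hc hZ

/-- **uniqueness** -/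
theorem _root_.Vale.Agent.P269.IsFund.eq_fundQ (h : HolOrb Aˣ (Sp.val : Sp act S → W) d)
    (hD : ∀ C, IsClopen C → Sp.mk '' {t : Sp act S | ∀ g : Aˣ, g • t = t → g = 1} ⊆ C → C = univ)
    {β : BM (Quo act S)} (hβ : P269.IsFund act S β) : β = fundQ Aˣ Sp.val Sp.mk d := by
  haveI := nice_quo (act := act) (S := S)
  have := (hβ.res_eq (j := id) (J := id) h isQuo_sp IsOpenEmbedding.id (fun _ _ => rfl)
    (fun _ => rfl) hD).1
  rwa [← push_id' (res id β), push_res_homeo IsHomeomorph.id] at this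

theorem HolOrb.epsilon_isFund (h : HolOrb Aˣ (Sp.val : Sp act S → W) d)
    (hD : ∀ C, IsClopen C → Sp.mk '' {t : Sp act S | ∀ g : Aˣ, g • t = t → g = 1} ⊆ C → C = univ) :
    Classical.epsilon (P269.IsFund act S) = fundQ Aˣ Sp.val Sp.mk d :=
  (Classical.epsilon_spec ⟨_, h.isFund_sp⟩).eq_fundQ h hD

end stmt

end Vale.Agent.P269.Orb
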