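import Vale.Agent.P269.Orb.Germ

set_option linter.all false

/-!
# Orientation classes of homology manifolds: Poincare and Alexander duality, uniqueness
-/

namespace Vale.Agent.P269.Orb

open Set Topology Filter Vale.Agent.P291Z

variable {X Y Z U : Type} [TopologicalSpace X] [TopologicalSpace Y] [TopologicalSpace Z]
  [TopologicalSpace U]

/-- the cocycle `a` with support at `x` generates the cohomology with compact supports near `x` -/
structure PtGen (d : ℤ) (x : X) (a : Coch X) : Prop where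
  cyc : supp (δ a) = ∅
  pt : supp a ⊆ {x}
  deg : IsDeg d a
  gen : ∀ U ∈ 𝓝 x, ∃ W ∈ 𝓝 x, W ⊆ U ∧ ∀ b ∈ Zc X, supp b ⊆ W → ∃ (z : ℂ) (c : Coch X),
    IsCompact (supp c) ∧ supp c ⊆ U ∧ ∀ y, b - z • a - δ c ∈ Van y

/-- `β` is an orientation class of the homology manifold `X` of real dimension `d` -/
structure Ori (d : ℤ) (β : BM X) : Prop where
  deg : BM.IsDeg d β
  fin : Soft.LocFin (univ : Set X)
  gen : ∀ x, ∃ a, PtGen d x a ∧ ev β a ≠ 0

theorem ev_add (β : BM X) {a b : Coch X} (ha : a ∈ Zc X) (hb : b ∈ Zc X) :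
    ev β (a + b) = ev β a + ev β b := by rw [ev_eq, ev_eq, ev_eq, cls_add ha hb, map_add]

theorem ev_smul (β : BM X) (c : ℂ) {a : Coch X} (ha : a ∈ Zc X) : ev β (c • a) = c * ev β a := by
  rw [ev_eq, ev_eq, cls_smul c ha, map_smul, smul_eq_mul]

theorem smul_ev (c : ℂ) (β : BM X) (a : Coch X) : ev (c • β) a = c * ev β a := by
  rw [ev_eq, ev_eq, LinearMap.smul_apply, smul_eq_mul]

theorem add_ev (β β' : BM X) (a : Coch X) : ev (β + β') a = ev β a + ev β' a := by
  rw [ev_eq, ev_eq, ev_eq, LinearMap.add_apply]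

theorem sub_ev (β β' : BM X) (a : Coch X) : ev (β - β') a = ev β a - ev β' a := by
  rw [ev_eq, ev_eq, ev_eq, LinearMap.sub_apply]

theorem sum_ev {ι : Type*} (s : Finset ι) (β : ι → BM X) (a : Coch X) :
    ev (∑ i ∈ s, β i) a = ∑ i ∈ s, ev (β i) a := by
  simp only [ev_eq, LinearMap.sum_apply]

theorem ev_congr (β : BM X) {a b : Coch X} (h : ∀ x, a - b ∈ Van x) : ev β a = ev β b := by
  rw [ev_eq, ev_eq, cls_eq_of_null h]

theorem isDeg_smul {k : ℤ} {β : BM X} (h : BM.IsDeg k β) (c : ℂ) : BM.IsDeg k (c • β) :=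
  fun j a hj ha => by rw [smul_ev, h j a hj ha, mul_zero]

theorem isDeg_add {k : ℤ} {β β' : BM X} (h : BM.IsDeg k β) (h' : BM.IsDeg k β') :
    BM.IsDeg k (β + β') := fun j a hj ha => by rw [add_ev, h j a hj ha, h' j a hj ha, add_zero]

theorem isDeg_sub {k : ℤ} {β β' : BM X} (h : BM.IsDeg k β) (h' : BM.IsDeg k β') :
    BM.IsDeg k (β - β') := fun j a hj ha => by rw [sub_ev, h j a hj ha, h' j a hj ha, sub_zero]

theorem isDeg_zero' (k : ℤ) : BM.IsDeg k (0 : BM X) := fun j a _ _ => by rw [ev_eq]; rfl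

theorem isDeg_sum {ι : Type*} {k : ℤ} {s : Finset ι} {β : ι → BM X}
    (h : ∀ i ∈ s, BM.IsDeg k (β i)) : BM.IsDeg k (∑ i ∈ s, β i) := fun j a hj ha => by
  rw [sum_ev]; exact Finset.sum_eq_zero fun i hi => h i hi j a hj ha

theorem pd_eq_cap (β : BM X) (c : H X) : pd β c = cap c β := rfl

theorem ev_cap {t a : Coch X} (ht : supp (δ t) = ∅) (ha : a ∈ Zc X) (β : BM X) :
    ev (cap (hcls t) β) a = ev β (a * t) := by
  rw [ev_eq, ev_eq, cap_apply, Hc.act_cls ht ha]

theorem ev_res [Nice Y] {j : X → Y} (hj : IsOpenEmbedding j) (β : BM Y) {a : Coch Y}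
    (ha : a ∈ Zc Y) (hs : supp a ⊆ range j) : ev (res j β) (pull j a) = ev β a := by
  rw [ev_eq, ev_eq, res_apply, cext_eq hj, Hc.push_cls hj ha hs]

theorem ev_push {f : X → Y} (hf : IsPr f) (β : BM X) {a : Coch Y} (ha : a ∈ Zc Y) :
    ev (push f β) a = ev β (pull f a) := by
  rw [ev_eq, ev_eq, push_apply, cpull_eq hf, Hc.pull_cls hf ha]

theorem ev_gys [Nice Y] {i : X → Y} (hi : IsClosedEmbedding i) {t : Coch Y} (ht : supp (δ t) = ∅)
    (hs : supp t ⊆ range i) (β : BM Y) {a : Coch Y} (ha : a ∈ Near i) :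
    ev (gys i t β) (pull i a) = ev β (a * t) := by
  rw [ev_eq, ev_eq, gys_apply, cgys_eq hi ht hs, Hc.gys_cls hi ht hs ha]

theorem cocycle_fn {f : X → ℂ} : supp (δ (fn f)) = ∅ ↔ IsLocallyConstant f := by
  rw [supp_eq_empty, IsLocallyConstant.iff_eventually_eq]
  exact forall_congr' fun x => δ_fn_van

theorem mul_fn_van {f : X → ℂ} {x : X} (hf : ∀ᶠ y in 𝓝 x, f y = f x) {a : Coch X}
    (hs : supp a ⊆ {x}) (y : X) : a * fn f - f x • a ∈ Van y := by
  rw [show a * fn f - f x • a = a * (fn f - f x • 1) by rw [mul_sub, mul_smul_comm, mul_one]]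
  by_cases hy : y = x
  · refine Van.mul_left ?_ a
    rw [hy, ← fn_const, ← fn_sub, fn_van]
    exact hf.mono fun z hz => sub_eq_zero.2 hz
  · exact Van.mul_right (fun h => hy (hs h)) _

theorem ev_cap_fn {f : X → ℂ} (hf : IsLocallyConstant f) (β : BM X) {x : X} {a : Coch X}
    (ha : supp (δ a) = ∅) (hs : supp a ⊆ {x}) : ev (cap (hcls (fn f)) β) a = f x * ev β a := by
  rw [ev_cap (cocycle_fn.2 hf) (Zc_of_pt ha hs), ev_congr β (mul_fn_van (hf.eventually_eq x) hs),
    ev_smul β _ (Zc_of_pt ha hs)]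

/-- the value on a cocycle with finite support is the sum of the local contributions -/
theorem ev_finite [T3Space X] (β : BM X) (c : X → ℂ) (F : Finset X) : ∀ {a : Coch X},
    supp (δ a) = ∅ → supp a ⊆ F → (∀ y ∈ F, ∀ a', supp (δ a') = ∅ → supp a' ⊆ {y} →
      a - a' ∈ Van y → ev β a' = c y) → ev β a = ∑ y ∈ F, c y := by
  classical
  induction F using Finset.induction_on with
  | empty =>
    intro a _ hs _
    rw [Finset.sum_empty, ev_eq, cls_of_mem_Bc (mem_Bc_of_null fun x hx => by simpa using hs hx),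
      map_zero]
  | insert y F hy ih =>
    intro a ha hs h
    obtain ⟨N, h1, h2⟩ := exists_cut_pt (x := y) (a := a) (mem_of_superset
      (F.finite_toSet.isClosed.isOpen_compl.mem_nhds hy) fun z hz h0 h' => by
        have := hs h'
        rw [Finset.coe_insert] at this
        exact this.elim h0 hz)
    have h3 := cocycle_of_pt (supp_eq_empty.1 ha y) h1 h2
    have h4 : supp (a - cut N a) ⊆ F := fun z hz => by
      have hz' : z ≠ y := fun e => h2 (e ▸ hz)
      have := hs ((supp_sub _ _ hz).resolve_right fun h => hz' (h1 h))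
      rw [Finset.coe_insert] at this
      exact this.resolve_left hz'
    have h5 := cocycle_sub ha h3
    rw [Finset.sum_insert hy, ← h y (Finset.mem_insert_self _ _) _ h3 h1 h2, ← ih h5 h4
      fun z hz a' h6 h7 h8 => h z (Finset.mem_insert_of_mem hz) a' h6 h7 (by
        have := (Van z).add_mem h8 (show cut N a ∈ Van z from fun h' => hy (h1 h' ▸ hz))
        rwa [sub_right_comm, sub_add_cancel] at this),
      ← ev_add β (Zc_of_pt h3 h1) ⟨isCompact_supp_of_subset F.finite_toSet.isCompact h4, h5⟩,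
      add_sub_cancel]

namespace PtGen

variable {d : ℤ} {x : X} {a : Coch X} (h : PtGen d x a)
include h

theorem zc : a ∈ Zc X := Zc_of_pt h.cyc h.pt

theorem exists_cls {b : Coch X} (hb : supp (δ b) = ∅) (hs : supp b ⊆ {x}) :
    ∃ z : ℂ, cls b = z • cls a := by
  obtain ⟨W, hW, -, h1⟩ := h.gen univ univ_mem
  obtain ⟨z, c, h2, -, h3⟩ := h1 b (Zc_of_pt hb hs)
    (hs.trans (singleton_subset_iff.2 (mem_of_mem_nhds hW)))
  exact ⟨z, by rw [← cls_smul z h.zc]; exact cls_eq_of_Bc ⟨c, h2, supp_eq_empty.2 h3⟩⟩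

theorem locOri {β : BM X} (hβ : ev β a ≠ 0) : LocOri d β x := fun U hU => by
  obtain ⟨W, hW, h1, h2⟩ := h.gen U hU
  exact ⟨W, hW, h1, a, h.zc, h.deg, h.pt.trans (singleton_subset_iff.2 (mem_of_mem_nhds hW)),
    by rwa [← ev_eq], h2⟩

theorem ev_eq_mul {β β' : BM X} {l : ℂ} (e : ev β' a = l * ev β a) {b : Coch X}
    (hb : supp (δ b) = ∅) (hs : supp b ⊆ {x}) : ev β' b = l * ev β b := by
  obtain ⟨z, hz⟩ := h.exists_cls hb hs
  rw [ev_eq, ev_eq, hz, map_smul, map_smul, ← ev_eq, ← ev_eq, e, smul_eq_mul, smul_eq_mul,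
    mul_left_comm]

theorem kills {φ : DualC X} {n : ℤ} (hd : (dualSoft X n).δ φ ∈ VanD x) (ha : φ.1 a = 0) :
    ∃ W ∈ 𝓝 x, ∀ b ∈ Zc X, supp b ⊆ W → φ.1 b = 0 := by
  obtain ⟨U, hU, h1⟩ := hd
  obtain ⟨W, hW, -, h2⟩ := h.gen U hU
  refine ⟨W, hW, fun b hb hs => ?_⟩
  obtain ⟨z, c, h3, h4, h5⟩ := h2 b hb hs
  have h6 : φ.1 (δ c) = 0 := by
    have := h1 (par c) (isCompact_supp_of_subset h3 (supp_par c)) ((supp_par c).trans h4)
    rwa [dualSoft_δ, par_δ_par, map_neg, neg_eq_zero] at this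
  rw [show b = b - z • a - δ c + z • a + δ c by abel, map_add, map_add, φ.null h5, map_smul, ha, h6,
    smul_zero, add_zero, add_zero]

theorem prim {φ : DualC X} {n m : ℤ} (hφ : φ ∈ (dualSoft X n).deg m)
    (hd : (dualSoft X n).δ φ ∈ VanD x) (ha : φ.1 a = 0) :
    ∃ φ' ∈ (dualSoft X n).deg (m - 1), φ - (dualSoft X n).δ φ' ∈ VanD x := by
  obtain ⟨W, hW, h1⟩ := h.kills hd ha
  obtain ⟨φ', h2, h3⟩ := exists_dual_prim hφ h1
  exact ⟨φ', h2, W, hW, h3⟩

end PtGen

theorem PtGen.pull [Nice Y] {j : X → Y} (hj : IsOpenEmbedding j) {d : ℤ} {x : X} {a : Coch Y}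
    (h : PtGen d (j x) a) : PtGen d x (pull j a) := by
  refine ⟨cocycle_pull hj.continuous h.cyc, fun y hy => hj.injective
    (h.pt (supp_pull hj.continuous a hy)), h.deg.pull j, fun U hU => ?_⟩
  obtain ⟨W, hW, h1, h2⟩ := h.gen _ (hj.image_mem_nhds.2 hU)
  refine ⟨j ⁻¹' W, hj.continuous.continuousAt hW, fun y hy => ?_, fun b hb hs => ?_⟩
  · obtain ⟨z, hz, e⟩ := h1 hy
    exact hj.injective e ▸ hz
  · obtain ⟨b', h3, h4, h5⟩ := exists_ext_open' hj hb
    obtain ⟨z, c, h6, h7, h8⟩ := h2 b' h3 (h4.trans (image_subset_iff.2 hs))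
    refine ⟨z, P291Z.pull j c, isCompact_pull_open hj h6 (h7.trans (image_subset_range _ _)),
      fun y hy => ?_, fun y => ?_⟩
    · obtain ⟨z, hz, e⟩ := h7 (supp_pull hj.continuous c hy)
      exact hj.injective e ▸ hz
    · have := (Van y).sub_mem (Van.pull hj.continuous.continuousAt (h8 (j y))) (h5 y)
      rw [map_sub, map_sub, map_smul, ← δ_pull] at this
      convert this using 1
      abel

theorem locFin_of_injective {f : X → Y} (hf : Continuous f) (hi : Function.Injective f)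
    (h : Soft.LocFin (univ : Set Y)) : Soft.LocFin (univ : Set X) := fun x _ => by
  obtain ⟨V, hV, D, g, h1, h2⟩ := h (f x) trivial
  exact ⟨f ⁻¹' V, hf.continuousAt hV, D, g ∘ f, h1.comp hf.continuousOn fun _ h => h,
    h2.comp hi.injOn fun _ h => h⟩

theorem locFin_mono {O : Set X} (h : Soft.LocFin (univ : Set X)) : Soft.LocFin O :=
  fun x _ => h x trivial

/-- a functional which kills coboundaries with compact support defines a Borel-Moore class -/
theorem exists_BM [Nice X] {n : ℤ} {φ : DualC X} (hd : ∀ x, (dualSoft X n).δ φ ∈ VanD x) :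
    ∃ β : BM X, ∀ a ∈ Zc X, ev β a = φ.1 a := by
  obtain ⟨β, hβ⟩ := Hc.exists_lift (Zc X) LinearMap.id (φ.1 ∘ₗ (Zc X).subtype) (fun _ h => h)
    (fun a ha => ⟨a, ha, by simp⟩) (by
      rintro ⟨a, ha⟩ ⟨c, h1, h2⟩
      have h3 := kills_of_van (isCompact_supp_of_subset h1 (supp_par c)) fun x _ => hd x
      rw [dualSoft_δ, par_δ_par, map_neg, neg_eq_zero] at h3
      have h4 := φ.null (supp_eq_empty.1 h2)
      rwa [map_sub, h3, sub_zero] at h4)
  exact ⟨β, fun a ha => by rw [ev_eq]; exact hβ ⟨a, ha⟩⟩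

theorem dual_δ_kills {n : ℤ} {φ : DualC X} {O : Set X}
    (h : ∀ c, IsCompact (supp c) → supp c ⊆ O → φ.1 (δ c) = 0) : Kills ((dualSoft X n).δ φ) O :=
  fun c h1 h2 => by
    rw [dualSoft_δ, ← neg_neg (par (δ c)), ← δ_par, map_neg, h _
      (isCompact_supp_of_subset h1 (supp_par c)) ((supp_par c).trans h2), neg_zero]

namespace Ori

variable {d : ℤ} {β : BM X} (h : Ori d β)
include h

theorem locOri (x : X) : LocOri d β x := let ⟨_, h1, h2⟩ := h.gen x; h1.locOri h2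

theorem smul {c : ℂ} (hc : c ≠ 0) : Ori d (c • β) :=
  ⟨isDeg_smul h.deg c, h.fin, fun x => let ⟨a, h1, h2⟩ := h.gen x
    ⟨a, h1, by rw [smul_ev]; exact mul_ne_zero hc h2⟩⟩

variable [Nice X]

theorem res {j : U → X} (hj : IsOpenEmbedding j) : Ori d (P291Z.res j β) := by
  haveI : Nice U := Nice.of_isEmbedding hj.isEmbedding hj.isOpen_range.isLocallyClosed
  refine ⟨h.deg.res j, locFin_of_injective hj.continuous hj.injective h.fin, fun x => ?_⟩
  obtain ⟨a, h1, h2⟩ := h.gen (j x)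
  exact ⟨_, h1.pull hj, by rwa [ev_res hj β h1.zc (h1.pt.trans (by simp))]⟩

theorem push [Nice Y] {e : X → Y} (he : IsHomeomorph e) : Ori d (P291Z.push e β) := by
  have h1 := (he.homeomorph e).symm.isHomeomorph
  have h2 : e ∘ (he.homeomorph e).symm = id := funext (he.homeomorph e).apply_symm_apply
  rw [← push_res_homeo h1 β, push_push (IsPr.of_isHomeomorph h1) (IsPr.of_isHomeomorph he), h2,
    push_id']
  exact h.res h1.isOpenEmbedding

/-- **Poincare duality** -/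
theorem pd_bijective : Function.Bijective (pd β) := P291Z.pd_bijective h.deg h.locOri h.fin

theorem cone_exact {Λ : DualC X} (hΛ : Λ ∈ degD X d) (hβ : ∀ a ∈ Zc X, Λ.1 a = β (cls a))
    {O : Set X} (hO : IsOpen O) (m : ℤ) : (Soft.cone (capD_isMap hΛ hβ)).ExactOn O m :=
  have := Soft.cone_exactOn_of_locFin (capD_isMap hΛ hβ) h.fin
    (fun x _ => capD_stalk_surj hΛ hβ (h.locOri x)) fun x _ => capD_stalk_inj hβ (h.locOri x)
  exactOn_open _ (GlueO.cone _ (asSoft_glueO _) (dualSoft_glueO d)) hO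
    (fun A _ hA => this A (subset_univ _) hA _) fun A _ hA => this A (subset_univ _) hA _

/-- **Alexander duality**, surjectivity -/
theorem exists_gys {i : Z → X} (hi : IsClosedEmbedding i) {k : ℤ} {γ : BM Z} (hγ : BM.IsDeg k γ) :
    ∃ t, supp (δ t) = ∅ ∧ supp t ⊆ range i ∧ IsDeg (d - k) t ∧ gys i t β = γ := by
  haveI : Nice Z := Nice.of_isEmbedding hi.isEmbedding hi.isClosed_range.isLocallyClosed
  obtain ⟨Λ, hΛ, hβ⟩ := BM.exists_dualC h.deg
  obtain ⟨Γ, hΓ, hγ'⟩ := BM.exists_dualC hγ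
  have hp := IsPr.of_isClosedEmbedding hi
  have hO := hi.isClosed_range.isOpen_compl
  let φ : DualC X := ⟨Γ.1 ∘ₗ (pull i).toLinearMap, (Submodule.mem_dualAnnihilator _).2 fun a ha =>
    Γ.null fun z => Van.pull hi.continuous.continuousAt (mem_NullC.1 ha _)⟩
  have hφ : ∀ a, φ.1 a = Γ.1 (pull i a) := fun _ => rfl
  obtain ⟨t, h1, h2, h3, c, -, h4, h5⟩ := surj_supp (capD_isMap hΛ hβ) (subset_univ (range i)ᶜ)
    (h.cone_exact hΛ hβ isOpen_univ (d - k)) (h.cone_exact hΛ hβ hO _) (b := φ)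
    (fun a j h1 h2 => hΓ _ j (h1.pull i) (by omega))
    (fun x _ => ⟨univ, univ_mem, dual_δ_kills fun c h1 _ => by
      rw [hφ, ← δ_pull]; exact lam_Bc hγ' (δ_mem_Bc (hp.isCompact_pull h1))⟩)
    fun x hx => ⟨_, hO.mem_nhds hx, fun a _ h2 => Γ.null fun z =>
      Van.pull hi.continuous.continuousAt fun h' => h2 h' (mem_range_self z)⟩
  have ht : supp (δ t) = ∅ := supp_eq_empty.2 ((asSoft_vanOn_univ _ _).1 h2)
  have hs : supp t ⊆ range i := fun x hx => by_contra fun h' => vanB_id.1 (h3 x h') hx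
  refine ⟨t, ht, hs, h1.1.cast (sub_zero _), (Gys_iff hi ht hs).1 fun a h6 h7 => ?_⟩
  have ha : a ∈ Near i := mem_Near'.2 ⟨h6, h7⟩
  have h8 := kills_of_van h6 fun x _ => h5 x trivial
  have h9 : c.1 (par (δ a)) = 0 := kills_of_van
    (isCompact_supp_of_subset h6 ((supp_par _).trans (supp_δ a))) fun x hx =>
      h4 x (h7.subset_compl_right (supp_par _ hx))
  rw [Submodule.coe_sub, Submodule.coe_sub, LinearMap.sub_apply, LinearMap.sub_apply, dualSoft_δ,
    h9, sub_zero, sub_eq_zero, capD_apply, hφ, hγ' _ (Near.pull_Zc hp ha),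
    hβ _ (Near.mul_Zc ha ht hs)] at h8
  rw [ev_eq, ev_eq, h8]

theorem cohom_of_gys_deg {i : Z → X} (hi : IsClosedEmbedding i) {t : Coch X} (ht : supp (δ t) = ∅)
    (hs : supp t ⊆ range i) {m : ℤ} (hm : IsDeg m t) (h0 : ∀ a ∈ Near i, ev β (a * t) = 0) :
    Cohom (range i) t 0 := by
  obtain ⟨Λ, hΛ, hβ⟩ := BM.exists_dualC h.deg
  have hO := hi.isClosed_range.isOpen_compl
  let N : Submodule ℂ (Coch X) := ⨅ z, Van (i z)
  let C := (Fam.cpt X).coch
  let f : C →ₗ[ℂ] Coch X ⧸ N := N.mkQ ∘ₗ par ∘ₗ δ ∘ₗ C.subtype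
  have h1 : (capD Λ t).1 ∘ₗ C.subtype ∈ (LinearMap.ker f).dualAnnihilator :=
    (Submodule.mem_dualAnnihilator _).2 fun b hb => by
      have h2 : b.1 ∈ Near i := mem_Near.2 ⟨b.2, fun z => by
        have := Van.par ((Submodule.mem_iInf _).1 ((Submodule.Quotient.mk_eq_zero _).1 hb) z)
        exact par_par (δ b.1) ▸ this⟩
      exact (hβ _ (Near.mul_Zc h2 ht hs)).trans ((ev_eq β _).symm.trans (h0 _ h2))
  rw [← LinearMap.range_dualMap_eq_dualAnnihilator_ker] at h1
  obtain ⟨g, hg⟩ := h1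
  have hN : ∀ a, (∀ z, a ∈ Van (i z)) → g (Submodule.Quotient.mk a) = 0 := fun a ha => by
    rw [(Submodule.Quotient.mk_eq_zero _).2 ((Submodule.mem_iInf _).2 ha), map_zero]
  obtain ⟨c, h2, h3⟩ := exists_dualC ⊤ (g ∘ₗ N.mkQ ∘ₗ Submodule.subtype ⊤) (d - (m - 1))
    fun a ha => ⟨trivial, hN a fun z => ha _⟩
  have hd : capD Λ t ∈ (dualSoft X d).deg m := by
    have := (capD_isMap hΛ hβ).deg m t ⟨hm, trivial⟩
    rwa [add_zero] at this
  obtain ⟨a', -, h4, h5⟩ := inj_supp (capD_isMap hΛ hβ) (subset_univ (range i)ᶜ) (n := m)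
    (h.cone_exact hΛ hβ isOpen_univ _) (h.cone_exact hΛ hβ hO _) (a := t)
    ⟨hm.cast (sub_zero m).symm, trivial⟩ ((asSoft_vanOn_univ _ _).2 (supp_eq_empty.1 ht))
    (fun x hx => vanB_id.2 fun h' => hx (hs h')) (c := c) h2
    (fun x hx => ⟨_, hO.mem_nhds hx, fun a _ h4 => (h3 a trivial).trans
      (hN _ fun z => Van.comp (fun h' => h4 h' (mem_range_self z)) _)⟩)
    fun x _ => ⟨univ, univ_mem, fun b h4 _ => by
      rw [Submodule.coe_sub, LinearMap.sub_apply, dualSoft_δ, h3 _ trivial, sub_eq_zero,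
        ← degD_comp hd b]
      refine (LinearMap.congr_fun hg ⟨comp (d - m) b,
        isCompact_supp_of_subset h4 (supp_comp _ b)⟩).symm.trans ?_
      show g (Submodule.Quotient.mk (par (δ (comp (d - m) b)))) =
        g (Submodule.Quotient.mk (comp (d - (m - 1)) (par (δ b))))
      rw [comp_par, ← comp_δ, show d - (m - 1) = d - m + 1 by ring]⟩
  exact ⟨a', fun x hx => by_contra fun h' => vanB_id.1 (h4 x h') hx,
    supp_eq_empty.2 fun x => by rw [sub_zero]; exact (asSoft_vanOn_univ _ _).1 h5 x⟩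

/-- **Alexander duality**, injectivity -/
theorem cohom_of_gys {i : Z → X} (hi : IsClosedEmbedding i) {t t' : Coch X} (ht : supp (δ t) = ∅)
    (hs : supp t ⊆ range i) (ht' : supp (δ t') = ∅) (hs' : supp t' ⊆ range i)
    (e : gys i t β = gys i t' β) : Cohom (range i) t t' := by
  have h1 := cocycle_sub ht ht'
  have h2 : supp (t - t') ⊆ range i := (supp_sub _ _).trans (union_subset hs hs')
  have h3 : ∀ a ∈ Near i, ev β (a * (t - t')) = 0 := fun a ha => by
    rw [mul_sub, ev_eq, cls_sub (Near.mul_Zc ha ht hs) (Near.mul_Zc ha ht' hs'), map_sub, ← ev_eq,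
      ← ev_eq,
      ← ev_gys hi ht hs β ha, ← ev_gys hi ht' hs' β ha, e, sub_self]
  refine cohom_iff_sub.2 (cohom_zero_of_comp fun m => h.cohom_of_gys_deg hi (cocycle_comp h1 m)
    ((supp_comp _ _).trans h2) (isDeg_comp m _) fun a ha => ?_)
  have h4 := cocycle_comp h1 m
  have h5 := (supp_comp m _).trans h2
  have key : ∀ b, b ∈ Zc X → ev β (comp d b) = ev β b := fun b hb => by
    rw [ev_eq, ev_eq, ← Hc.comp_cls d hb, h.deg.comp]
  have e1 := comp_mul_right (isDeg_comp m (t - t')) (d - m) a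
  have e2 := comp_mul_left (isDeg_comp (d - m) a) m (t - t')
  rw [sub_add_cancel] at e1 e2
  rw [← key _ (Near.mul_Zc ha h4 h5), e1, ← e2, key _ (Near.mul_Zc (Near.comp ha _) h1 h2),
    h3 _ (Near.comp ha _)]

theorem exists_cap {k : ℤ} {γ : BM X} (hγ : BM.IsDeg k γ) :
    ∃ t, supp (δ t) = ∅ ∧ IsDeg (d - k) t ∧ cap (hcls t) β = γ := by
  obtain ⟨t, h1, -, h2, h3⟩ := h.exists_gys IsClosedEmbedding.id hγ
  exact ⟨t, h1, h2, by rw [← h3, gys_id_eq_cap h1]⟩

theorem eq_zero_of_lt {k : ℤ} {γ : BM X} (hγ : BM.IsDeg k γ) (hk : d < k) : γ = 0 := by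
  obtain ⟨t, -, h2, rfl⟩ := h.exists_cap hγ
  rw [h2.eq_zero (by omega), hcls_zero, ← pd_eq_cap, map_zero]

theorem top : Top X d := fun n hn c hc => (Module.forall_dual_apply_eq_zero_iff ℂ c).1 fun γ => by
  have := LinearMap.congr_fun (h.eq_zero_of_lt (BM.isDeg_comp n γ) hn) c
  rwa [LinearMap.dualMap_apply, Hc.comp_of_mem hc] at this

theorem H_eq_zero {k : ℤ} {c : H X} (hc : H.IsDeg k c) (hk : d < k) : c = 0 :=
  h.pd_bijective.1 (by
    rw [map_zero]
    refine LinearMap.ext fun b => ?_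
    rw [← (pd_deg h.deg hc).comp, Hc.eq_zero_of_neg (Hc.comp_mem _ b) (by omega), map_zero]
    rfl)

/-- classes of top degree are locally constant multiples of the orientation class -/
theorem exists_fn {γ : BM X} (hγ : BM.IsDeg d γ) :
    ∃ f, IsLocallyConstant f ∧ cap (hcls (fn f)) β = γ := by
  obtain ⟨t, h1, h2, h3⟩ := h.exists_cap hγ
  rw [sub_self] at h2
  rw [h2.eq_fn] at h1 h3
  exact ⟨_, cocycle_fn.1 h1, h3⟩

/-- **uniqueness**: a class of top degree is determined at a set of points which meets every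
connected component -/
theorem eq_cap_fn {γ : BM X} (hγ : BM.IsDeg d γ) {g : X → ℂ} (hg : IsLocallyConstant g) {D : Set X}
    (hD : ∀ S, IsClopen S → D ⊆ S → S = univ) (e : ∀ x ∈ D, ∃ a, supp (δ a) = ∅ ∧ supp a ⊆ {x} ∧
      ev β a ≠ 0 ∧ ev γ a = g x * ev β a) : γ = cap (hcls (fn g)) β := by
  obtain ⟨f, h1, rfl⟩ := h.exists_fn hγ
  have h2 := hD {x | f x - g x = 0} ((h1.sub hg).isClopen_fiber 0) fun x hx => by
    obtain ⟨a, h2, h3, h4, h5⟩ := e x hx
    rw [ev_cap_fn h1 β h2 h3] at h5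
    exact sub_eq_zero.2 (mul_right_cancel₀ h4 h5)
  rw [show f = g from funext fun x => sub_eq_zero.1 (eq_univ_iff_forall.1 h2 x)]

theorem eq_smul {γ : BM X} (hγ : BM.IsDeg d γ) {l : ℂ} {D : Set X}
    (hD : ∀ S, IsClopen S → D ⊆ S → S = univ) (e : ∀ x ∈ D, ∃ a, supp (δ a) = ∅ ∧ supp a ⊆ {x} ∧
      ev β a ≠ 0 ∧ ev γ a = l * ev β a) : γ = l • β := by
  rw [h.eq_cap_fn hγ (g := fun _ => l) (IsLocallyConstant.const l) hD e, fn_const,
    hcls_smul l cocycle_one, hcls_one, ← pd_eq_cap, map_smul, pd_one]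

omit h [Nice X] in
theorem _root_.Vale.Agent.P269.Orb.meets_of_dense {D : Set X} (hD : Dense D) (S : Set X)
    (hS : IsClopen S) (h : D ⊆ S) : S = univ := by
  rw [← hS.isClosed.closure_eq]; exact (hD.mono h).closure_eq

omit h [Nice X] in
theorem _root_.Vale.Agent.P269.Orb.meets_of_preconnected [PreconnectedSpace X] (x : X) (S : Set X)
    (hS : IsClopen S) (h : {x} ⊆ S) : S = univ := hS.eq_univ ⟨x, h rfl⟩

theorem eq_smul' {γ : BM X} (hγ : BM.IsDeg d γ) {l : ℂ} {D : Set X}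
    (hD : ∀ S, IsClopen S → D ⊆ S → S = univ) (e : ∀ x ∈ D, ∀ a, supp (δ a) = ∅ → supp a ⊆ {x} →
      IsDeg d a → ev γ a = l * ev β a) : γ = l • β :=
  h.eq_smul hγ hD fun x hx => let ⟨a, h1, h2⟩ := h.gen x
    ⟨a, h1.cyc, h1.pt, h2, e x hx a h1.cyc h1.pt h1.deg⟩

/-- a class of top degree is determined by its restriction to an open subset which meets every
connected component -/
theorem eq_of_res {γ γ' : BM X} (hγ : BM.IsDeg d γ) (hγ' : BM.IsDeg d γ') {j : U → X}
    (hj : IsOpenEmbedding j) (hD : ∀ S, IsClopen S → range j ⊆ S → S = univ)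
    (e : P291Z.res j γ = P291Z.res j γ') : γ = γ' := by
  rw [← sub_eq_zero, h.eq_smul' (isDeg_sub hγ hγ') (l := 0) hD, zero_smul]
  intro x hx a h1 h2 _
  have h3 := h2.trans (singleton_subset_iff.2 hx)
  rw [sub_ev, ← ev_res hj γ (Zc_of_pt h1 h2) h3, ← ev_res hj γ' (Zc_of_pt h1 h2) h3, e, sub_self,
    zero_mul]

end Ori

/-! ### extension across closed subsets of small dimension -/

section ext

variable [Nice X] {i : Z → X} (hi : IsClosedEmbedding i) {j : U → X} (hj : IsOpenEmbedding j)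
  (hc : range j = (range i)ᶜ)
include hi hj hc

theorem eq_of_res_of_top {k : ℤ} (hZ : Top Z (k - 1)) {γ γ' : BM X} (hγ : BM.IsDeg k γ)
    (hγ' : BM.IsDeg k γ') (e : res j γ = res j γ') : γ = γ' := LinearMap.ext fun c => by
  obtain ⟨c', -, h⟩ := hZ.push_surj hi hj hc (show k - 1 < k by omega) (Hc.comp_mem k c)
  rw [← hγ.comp, ← hγ'.comp, ← h, ← cext_eq hj, ← res_apply, ← res_apply, e]

theorem exists_res_of_top {k : ℤ} (hZ : Top Z (k - 2)) {γ : BM U} (hγ : BM.IsDeg k γ) :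
    ∃ γ' : BM X, BM.IsDeg k γ' ∧ res j γ' = γ := by
  have h1 : γ ∈ (LinearMap.ker (Hc.push hj)).dualAnnihilator :=
    (Submodule.mem_dualAnnihilator _).2 fun c h => by
      rw [← hγ.comp, hZ.push_inj hi hj hc (show k - 2 + 1 < k by omega) (Hc.comp_mem k c), map_zero]
      have := Hc.comp_map (f := Hc.push hj) (r := 0)
        (fun k c h => by rw [add_zero]; exact Hc.push_deg hj h) k c
      rw [← this, LinearMap.mem_ker.1 h, map_zero]
  rw [← LinearMap.range_dualMap_eq_dualAnnihilator_ker] at h1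
  obtain ⟨g, hg⟩ := h1
  refine ⟨(Hc.comp k).dualMap g, BM.isDeg_comp k g, LinearMap.ext fun c => ?_⟩
  have := Hc.comp_map (f := Hc.push hj) (r := 0)
    (fun k c h => by rw [add_zero]; exact Hc.push_deg hj h) k c
  rw [add_zero] at this
  rw [res_apply, cext_eq hj, LinearMap.dualMap_apply, this, ← hγ.comp, ← hg]
  rfl

end ext

theorem Top.eq_zero {a k : ℤ} (h : Top X a) {γ : BM X} (hγ : BM.IsDeg k γ) (hk : a < k) : γ = 0 :=
  LinearMap.ext fun c => by rw [← hγ.comp, h k hk _ (Hc.comp_mem k c), map_zero]; rfl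

end Vale.Agent.P269.Orb
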