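import Vale.Agent.P269.Orb.Vir2

set_option linter.all false

/-!
# Composition of virtual pull-backs; zero sets that are graphs
-/

namespace Vale.Agent.P269.Ch

open Set Topology Filter Module Vale.Agent.P291Z Vale.Agent.P269.Orb unitInterval

variable {Y'' Y' Y : Sp} {Z Z' : Type} [TopologicalSpace Z] [TopologicalSpace Z']

theorem Hom.exists_open_surj {E E' : VB Y} {A : Y.T → E.W →ₗ[ℂ] E'.W} (h : Hom (Mor.id Y) E E' A)
    {C : Set Y.T} (surj : ∀ t ∈ C, ∀ w ∈ E'.F t, ∃ w' ∈ E.F t, A t w' = w) :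
    ∃ U : SubMulAction Y.G Y.T, IsOpen (U : Set Y.T) ∧ C ⊆ U ∧
      ∀ t ∈ U, ∀ w ∈ E'.F t, ∃ w' ∈ E.F t, A t w' = w := by
  refine Sp.exists_open (fun g t ht w hw => ?_) fun t ht => ?_
  · obtain ⟨w, rfl⟩ : ∃ w', g • w' = w := ⟨_, smul_inv_smul _ w⟩
    obtain ⟨w', h1, rfl⟩ := ht w (E'.smul_mem_iff.1 hw)
    exact ⟨g • w', E.inv g t w' h1, h.eqv g t w' h1⟩
  · have hm : ∀ x w, h.clm x w ∈ E'.F x := fun x w => h.mem x _ (E.P_mem x w)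
    obtain ⟨S, hS⟩ := ((h.clm t).toLinearMap.codRestrict (E'.F t) (hm t)).exists_rightInverse_of_surjective
      (LinearMap.range_eq_top.2 fun w => by
        obtain ⟨w', h1, h2⟩ := surj t ht w.1 w.2
        exact ⟨w', Subtype.ext ((h.clm_eq h1).trans h2)⟩)
    let S' := LinearMap.toContinuousLinearMap (S ∘ₗ (E'.P t).toLinearMap.codRestrict (E'.F t) (E'.P_mem t))
    filter_upwards [eventually_inj E'.P_cont.continuousAt (h.continuous_clm.clm_comp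
      (continuous_const (y := S'))).continuousAt fun w hw e => hw.symm.trans
        ((congrArg Subtype.val (LinearMap.congr_fun hS ⟨_, E'.P_mem t w⟩)).symm.trans e)] with x hx w hw
    obtain ⟨v, -, hv⟩ := (Submodule.eq_of_le_of_finrank_eq
      (S₁ := (E'.F x).map (h.clm x ∘L S').toLinearMap) (S₂ := E'.F x)
      (by rintro _ ⟨v, -, rfl⟩; exact hm x _)
      (finrank_map_of_inj fun v hv e => hx v (E'.P_eq hv) e)).ge hw
    exact ⟨_, E.P_mem x _, hv⟩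

theorem Sp.exists_open_sub {U₀ : SubMulAction Y.G Y.T} (h₀ : IsOpen (U₀ : Set Y.T))
    {U : SubMulAction Y.G U₀} (h : IsOpen (U : Set U₀)) : ∃ U' : SubMulAction Y.G Y.T,
      IsOpen (U' : Set Y.T) ∧ ∀ t, t ∈ U' ↔ ∃ ht : t ∈ U₀, (⟨t, ht⟩ : U₀) ∈ U :=
  ⟨⟨Subtype.val '' (U : Set U₀), by rintro g _ ⟨t, ht, rfl⟩; exact ⟨g • t, U.smul_mem g ht, rfl⟩⟩,
    h₀.isOpenMap_subtype_val _ h, fun t => ⟨by rintro ⟨t, ht, rfl⟩; exact ⟨t.2, ht⟩,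
      fun ⟨h1, h2⟩ => ⟨_, h2, rfl⟩⟩⟩

namespace KP

section comp

variable {k : KP Y} {k₁ : KP Y'} {k₂ : KP Y''} {m : Mor Y Y'} {j : Mor Y'' Y}
  {A₁ : Y.T → k.P.W →ₗ[ℂ] k₁.P.W} {A₂ : Y''.T → k₂.P.W →ₗ[ℂ] k.P.W}

theorem Hom.exists_comp (h₁ : k.Hom k₁ m A₁) (h₂ : k₂.Hom k j A₂)
    (inj : ∀ t ∈ k₂.Zs, ∀ w ∈ k₂.obs t, A₂ t w ∈ k.van (j.f t) → w ∈ k₂.van t)
    (surj : ∀ t ∈ k₂.Zs, ∀ w ∈ k₁.obs (m.f (j.f t)), ∃ w' ∈ k.obs (j.f t),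
      A₁ (j.f t) w' - w ∈ k₁.van (m.f (j.f t)))
    (cmp : ∀ t ∈ k₂.Zs, ∀ w ∈ k₂.obs t, A₁ (j.f t) (A₂ t w) ∈ k₁.van (m.f (j.f t)))
    (hr : k.r = k₂.r + k₁.r) : ∃ (s : Coch Y.X) (B O : Set Y.X), LCo B s ∧ k₂.Z ⊆ j.map ⁻¹' B ∧
      Isol k₂.Z (j.map ⁻¹' B) ∧ LCoh k₂.Z k₂.eul (pull j.map s) ∧ IsOpen O ∧ k₂.Z ⊆ j.map ⁻¹' O ∧
      LCoh (k.Z ∩ O) k.eul (s * pull m.map k₁.eul) := by
  have o1 : IsOpen ((k.U ⊓ m.pre k₁.U : SubMulAction Y.G Y.T) : Set Y.T) :=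
    k.isExt.isOpen.inter (k₁.isExt.isOpen.preimage m.cf)
  have z1 : ∀ t ∈ k₂.Zs, j.f t ∈ k.Zs := fun t => h₂.mem_Zs
  have hM₀ := k.model (Y.subI _ o1.isLocallyClosed) fun t => t.2.1
  have hM₁₀ := k₁.model (m.comp (Y.subI _ o1.isLocallyClosed)) fun t => t.2.2
  have hA₀ := h₁.hom_comp hM₁₀.hom
  have hB₀ := Pre.hom_e hA₀ fun t => t.2.1
  obtain ⟨U₁, h1, h2, h3⟩ := hB₀.exists_open_surj (C := {t | t.1 ∈ j.f '' k₂.Zs}) (by
    rintro ⟨_, h0⟩ ⟨t, ht, rfl⟩ w hw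
    have h1 := h₁.mem_Zs (z1 t ht)
    obtain ⟨h2, h3⟩ := (mem_range_e h1).1 hw
    obtain ⟨w', h4, h5⟩ := surj t ht w h2
    refine ⟨_, hM₀.hom.mem ⟨_, h0⟩ w' (k.obs_le _ (z1 t ht) h4), ?_⟩
    refine (Pre.apply_Ms (m := Y.subI _ o1.isLocallyClosed) (t := ⟨_, h0⟩)
      (M := k₁.Ms (m.f (j.f t)) ∘ₗ A₁ (j.f t)) (z1 t ht)
      (fun u hu => hM₁₀.van ⟨_, h0⟩ _ (h₁.van _ u hu)) h4).trans ?_
    exact (sub_eq_zero.1 ((map_sub (k₁.Ms (m.f (j.f t))) _ _).symm.trans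
      (hM₁₀.van ⟨_, h0⟩ _ h5))).trans ((Ms_eq h1 h2).trans h3))
  obtain ⟨U, o2, hU⟩ := Sp.exists_open_sub o1 h1
  have u1 : ∀ t ∈ k₂.Zs, j.f t ∈ U := fun t ht => (hU _).2
    ⟨⟨k.isExt.sub (z1 t ht), k₁.isExt.sub (h₁.mem_Zs (z1 t ht))⟩, h2 ⟨t, ht, rfl⟩⟩
  have o3 : IsOpen (j.pre U : Set Y''.T) := o2.preimage j.cf
  let n := Y.subI U o2.isLocallyClosed
  let n₁ := Y''.subI _ o3.isLocallyClosed
  let j' := (j.comp n₁).cod U o2.isLocallyClosed fun t => t.2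
  have hn : ∀ t, n.f t ∈ k.U := fun t => ((hU _).1 t.2).1.1
  have hn₁ : ∀ t, (m.comp n).f t ∈ k₁.U := fun t => ((hU _).1 t.2).1.2
  have hM := k.model n hn
  have hM₁ := k₁.model _ hn₁
  have hA := h₁.hom_comp hM₁.hom
  have hv : ∀ t, ∀ w ∈ k.van (n.f t), k₁.Ms (m.f (n.f t)) (A₁ (n.f t) w) = 0 := fun t w hw =>
    hM₁.van t _ (h₁.van _ w hw)
  obtain ⟨K, R, hR, r0, r1⟩ : ∃ (K : VB _) (R : _ → k.P.W →ₗ[ℂ] K.W),
      Ch.Hom (Mor.id _) (k.isExt.vb n hn) K R ∧ K.r = k₂.r ∧ ∀ t, ∀ w ∈ (k.isExt.vb n hn).F t,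
        k₁.Ms (m.f (n.f t)) (A₁ (n.f t) (k.P.P (n.f t) w)) = 0 → R t w = 0 → w = 0 := by
    obtain ⟨hr', hex⟩ := (Pre.hom_e hA hn).exists_exact fun t => h3 _ ((hU _).1 t.2).2
    obtain ⟨R, -, hR, -, r1, -⟩ := hex.exists_split
    exact ⟨_, R, hR, show k.r - k₁.r = k₂.r by omega, fun t w hw e e' =>
      (r1 t w ⟨hw, e⟩).symm.trans e'⟩
  have hRM : Ch.Hom (Mor.id _) (k.P.pb n) K fun t => R t ∘ₗ k.Ms (n.f t) := hR.comp hM.hom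
  have v1 : ∀ t, ∀ w ∈ k.van (n.f t), R t (k.Ms (n.f t) w) = 0 := fun t w hw =>
    (congrArg (R t) (hM.van t w hw)).trans (map_zero _)
  have p : k.Model n (K.sum (k₁.isExt.vb _ hn₁)) fun t =>
      (R t ∘ₗ k.Ms (n.f t)).prod (k₁.Ms (m.f (n.f t)) ∘ₗ A₁ (n.f t)) :=
    ⟨⟨⟨fun t w hw => ⟨hRM.mem t w hw, hA.mem t w hw⟩, hRM.cont.prodMk hA.cont,
      fun g t w hw => Prod.ext (hRM.eqv g t w hw) (hA.eqv g t w hw)⟩,
      fun t w hw => Prod.ext (v1 t w hw) (hv t w hw), fun t ht w hw e => hM.ker t ht w hw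
        (r1 t _ (hM.hom.mem t w (k.obs_le _ ht hw)) ((Pre.apply_Ms (m := n)
          (M := k₁.Ms (m.f (n.f t)) ∘ₗ A₁ (n.f t)) ht (hv t) hw).trans (congrArg Prod.snd e))
          (congrArg Prod.fst e))⟩, show K.r + k₁.r = k.r by omega⟩
  have h4 := hRM.pb' j'
  have h5 : Ch.Hom (Mor.id _) (k.P.pb (j.comp n₁)) (K.pb j') fun t =>
    R (j'.f t) ∘ₗ k.Ms (n.f (j'.f t)) := ⟨h4.mem, h4.cont, h4.eqv⟩
  have p₂ : k₂.Model n₁ (K.pb j') fun t => (R (j'.f t) ∘ₗ k.Ms (n.f (j'.f t))) ∘ₗ A₂ (n₁.f t) :=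
    ⟨⟨h₂.hom_comp h5, fun t w hw => v1 (j'.f t) _ (h₂.van _ w hw), fun t ht w hw e =>
      inj _ ht w hw (p.ker (j'.f t) (z1 _ ht) _ (h₂.obs _ ht w hw)
        (Prod.ext e (hM₁.van (j'.f t) _ (cmp _ ht w hw))))⟩, r0⟩
  have hs := hRM.isSec (k.sec.pb n)
  have e1 : ∀ t, R (j'.f t) (k.Ms (n.f (j'.f t)) (A₂ (n₁.f t) (k₂.s (n₁.f t)))) =
      R (j'.f t) (k.Ms (n.f (j'.f t)) (k.s (n.f (j'.f t)))) := fun t => by
    have := v1 (j'.f t) _ (h₂.sec (n₁.f t))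
    rwa [map_sub, map_sub, sub_eq_zero] at this
  have o4 : IsOpenEmbedding n.map := Sp.isOpenEmbedding_subI o2
  obtain ⟨s, -, c2⟩ := exists_pull_deg o4.injective hs.isCo.deg
  have e2 : ∀ x, j.map (n₁.map x) = n.map (j'.map x) := fun x => by
    obtain ⟨t, rfl⟩ := Sp.surj _ x
    simp only [Mor.map_π]
    rfl
  have r2 : k₂.Z ⊆ range n₁.map := Sp.subset_range_subI _ fun t ht => u1 t (mem_Z.1 ht)
  refine ⟨s, n.map '' (Sp.π _ '' {t | R t (k.Ms (n.f t) (k.s (n.f t))) = 0}), range n.map,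
    LCo.of_open o4 (image_subset_range _ _) ?_, ?_, Isol.of_open (Sp.isOpenEmbedding_subI o3) r2
      (p₂.isol.mono fun x hx => ?_), lcoh_of_sub o3 (fun t ht => u1 t (mem_Z.1 ht)) ?_,
    o4.isOpen_range, fun x hx => ?_, LCoh.of_open o4 inter_subset_right ?_⟩
  · rw [preimage_image_eq _ o4.injective, c2]
    exact LCo.of_isCo hs.isCo
  · rintro _ ⟨t, ht, rfl⟩
    exact ⟨_, ⟨⟨_, u1 t ht⟩, v1 _ _ (z1 t ht), rfl⟩, (n.map_π _).trans (j.map_π t).symm⟩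
  · obtain ⟨t, rfl⟩ := Sp.surj _ x
    obtain ⟨y, h6, h7⟩ := hx
    obtain rfl := o4.injective (h7.trans (e2 _))
    exact ⟨t, (e1 t).trans (hs.mem_zeros.1 (j'.map_π t ▸ h6)), rfl⟩
  · rw [pull_pull, show j.map ∘ n₁.map = n.map ∘ j'.map from funext e2, ← pull_pull, c2]
    refine p₂.lcoh.trans (LCoh.of_cohom p₂.isol ?_)
    exact (iso_pb K j').cohom_eul p₂.isSec hs e1
  · obtain ⟨y, rfl⟩ := r2 hx
    exact ⟨_, (e2 y).symm⟩
  · have e3 : ∀ t, k₁.Ms (m.f (n.f t)) (A₁ (n.f t) (k.s (n.f t))) =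
      k₁.Ms (m.f (n.f t)) (k₁.s (m.f (n.f t))) := h₁.apply_s hM₁.toPre
    rw [preimage_inter, preimage_range, inter_univ, map_mul, c2, ← Mor.pull_comp]
    refine (p.lcoh.trans ((LCoh.of_eq (p.isSec.eul_congr (hs.sum hM₁.isSec) fun t =>
      Prod.ext rfl (e3 t))).trans (LCoh.of_cohom (p.isol.mono ?_) (cohom_eul_sum hs hM₁.isSec)))).trans
      ((hM₁.lcoh.symm.mul_left (LCo.of_isCo hs.isCo)).mono ?_ (p.isol.mono ?_))
    · rintro _ ⟨t, ht, rfl⟩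
      exact ⟨t, Prod.ext ht.1 ((e3 t).trans ht.2), rfl⟩
    · intro x hx
      obtain ⟨t, rfl⟩ := Sp.surj _ x
      exact ⟨⟨t, v1 _ _ (mem_pre.1 hx), rfl⟩, mem_pre.2 (h₁.mem_Zs (mem_pre.1 hx))⟩
    · rintro _ ⟨⟨t, ht, rfl⟩, h6⟩
      exact ⟨t, Prod.ext ht ((e3 t).trans (hM₁.van t _ (mem_pre.1 h6))), rfl⟩

/-- **V7**: composition of virtual pull-backs -/
theorem Hom.vir_comp {k₁ : KP Y} {A₁ : Y.T → k.P.W →ₗ[ℂ] k₁.P.W} (h₁ : k.Hom k₁ (Mor.id Y) A₁)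
    (h₂ : k₂.Hom k j A₂)
    (inj : ∀ t ∈ k₂.Zs, ∀ w ∈ k₂.obs t, A₂ t w ∈ k.van (j.f t) → w ∈ k₂.van t)
    (surj : ∀ t ∈ k₂.Zs, ∀ w ∈ k₁.obs (j.f t), ∃ w' ∈ k.obs (j.f t),
      A₁ (j.f t) w' - w ∈ k₁.van (j.f t))
    (cmp : ∀ t ∈ k₂.Zs, ∀ w ∈ k₂.obs t, A₁ (j.f t) (A₂ t w) ∈ k₁.van (j.f t))
    (hr : k.r = k₂.r + k₁.r) (hj : k₁.IsZ j.map) {i : Z → Y''.X} (hi : k₂.IsZ i) (β : BM Y.X) :
    k.IsZ (j.map ∘ i) ∧ k.vir (j.map ∘ i) β = k₂.vir i (k₁.vir j.map β) := by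
  obtain ⟨s, B, O, h1, h2, h3, h4, h5, h6, h7⟩ := h₁.exists_comp h₂ inj surj cmp hr
  have h8 : range (j.map ∘ i) ⊆ k.Z := by rintro _ ⟨z, rfl⟩; exact h₂.Z_subset (hi.mem z)
  have h9 : k.IsZ (j.map ∘ i) := ⟨hj.emb.comp hi.emb, h8, isol_comp hj.emb.isInducing
    (hj.isol.mono (Mor.preimage_id k₁.Z ▸ h₁.Z_subset)) (hi.isol.trans hi.sub (h₂.isol inj))⟩
  rw [Mor.pull_id] at h7
  refine ⟨h9, (h9.vir_mul hj.emb (fun _ => rfl) (h7.mono (subset_inter h8 ?_)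
    (h9.isol.mono inter_subset_left)) hj.lco h1 ?_ (hi.isol.trans hi.sub h3) β).trans ?_⟩
  · rintro _ ⟨z, rfl⟩; exact h6 (hi.mem z)
  · rintro _ ⟨z, rfl⟩; exact h2 (hi.mem z)
  · rw [hi.vir_eq h4, vir]

end comp

end KP

section tot

variable (V : VB Y)

/-- the tautological section -/
theorem VB.isSec_tau : (V.pb V.proj).IsSec fun x : V.V => x.1.2 :=
  ⟨fun x => x.2, (by fun_prop : Continuous fun x : V.V => x.1.2), fun _ _ => rfl⟩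

theorem VB.IsSec.sub {V : VB Y} {s s' : Y.T → V.W} (h : V.IsSec s) (h' : V.IsSec s') :
    V.IsSec fun t => s t - s' t :=
  ⟨fun t => sub_mem (h.mem t) (h'.mem t), h.cont.sub h'.cont, fun g t => by
    rw [h.eqv, h'.eqv, smul_sub]⟩

variable {V} {ζ : Y.T → V.W} (hζ : V.IsSec ζ)
include hζ

theorem VB.IsSec.isSec_sub : (V.pb V.proj).IsSec fun x : V.V => x.1.2 - ζ x.1.1 :=
  V.isSec_tau.sub (hζ.pb V.proj)

theorem VB.IsSec.isClosedEmbedding : IsClosedEmbedding hζ.mor.map :=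
  Function.LeftInverse.isClosedEmbedding hζ.proj_map V.proj.map.continuous hζ.mor.map.continuous

theorem VB.IsSec.range_mor :
    range hζ.mor.map = V.tot.π '' {x : V.V | x.1.2 - ζ x.1.1 = 0} := by
  refine Subset.antisymm ?_ ?_
  · rintro _ ⟨x, rfl⟩
    obtain ⟨t, rfl⟩ := Y.surj x
    exact ⟨_, sub_self _, (hζ.mor.map_π t).symm⟩
  · rintro _ ⟨x, hx, rfl⟩
    exact ⟨_, (hζ.mor.map_π x.1.1).trans (congrArg _ (Subtype.ext
      (Prod.ext rfl (sub_eq_zero.1 hx).symm)))⟩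

omit hζ in
theorem VB.range_zero : range V.zero.map = V.Z := Set.ext fun x => by
  obtain ⟨x, rfl⟩ := V.tot.surj x
  rw [VB.zero, V.isSec_zero.range_mor]
  exact V.isSec_zero.isSec_sub.mem_zeros.trans (sub_eq_zero.trans (VB.mk_mem_Z (y := x)).symm)

omit hζ in
theorem VB.cohom_taut {s : V.V → V.W} (hs : (V.pb V.proj).IsSec s) (e : ∀ x, s x = x.1.2) :
    Cohom V.Z V.th hs.eul := by
  have h1 := hs.cohom_pull ((iso_pb V V.proj).isThom V.isThom)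
  have h2 : (iso_pb V V.proj).mor.map ∘ hs.mor.map = id := funext fun x => by
    obtain ⟨x, rfl⟩ := V.tot.surj x
    rw [Function.comp_apply, Mor.map_π, Mor.map_π]
    exact congrArg _ (Subtype.ext (Prod.ext rfl (e x)))
  rw [pull_pull, h2, pull_id] at h1
  exact h1.mono (by rintro _ ⟨x, hx, rfl⟩; exact VB.mk_mem_Z.2 ((e x).symm.trans hx))

theorem VB.IsSec.scale : (V.pb (Y.extP I)).IsSec fun p : I × Y.T => ((p.1 : ℝ) : ℂ) • ζ p.2 :=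
  (hζ.pb (Y.extP I)).smul (f := fun p : I × Y.T => ((p.1 : ℝ) : ℂ)) (by fun_prop) fun _ _ => rfl

/-- the isotopy from the zero section to a section -/
noncomputable def VB.IsSec.morI : Mor (Y.ext I) (V.tot.ext I) :=
  ⟨MonoidHom.id _, fun p : I × Y.T =>
    (p.1, (⟨(p.2, ((p.1 : ℝ) : ℂ) • ζ p.2), hζ.scale.mem p⟩ : V.V)), continuous_id,
    continuous_fst.prodMk ((continuous_snd.prodMk hζ.scale.cont).subtype_mk _), fun g p =>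
      Prod.ext rfl (Subtype.ext (Prod.ext rfl (hζ.scale.eqv g p)))⟩

theorem VB.IsSec.morI_map (τ : I) (t : Y.T) : hζ.morI.map (τ, Y.π t) =
    (τ, V.tot.π (⟨(t, ((τ : ℝ) : ℂ) • ζ t), hζ.scale.mem (τ, t)⟩ : V.V)) := hζ.morI.map_π (τ, t)

theorem VB.IsSec.isClosedEmbedding_morI :
    IsClosedEmbedding (hζ.morI.map : I × Y.X → I × V.tot.X) :=
  Function.LeftInverse.isClosedEmbedding (X := (V.tot.ext I).X) (f := Prod.map id V.proj.map) (fun p => by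
    obtain ⟨τ, x⟩ := p
    obtain ⟨t, rfl⟩ := Y.surj x
    exact (congrArg _ (hζ.morI_map τ t)).trans (Prod.ext rfl (V.proj.map_π _)))
    (continuous_id.prodMap V.proj.map.continuous) hζ.morI.map.continuous

theorem VB.IsSec.isSec_subI : ((V.pb V.proj).pb (V.tot.extP I)).IsSec fun p : I × V.V =>
    p.2.1.2 - ((p.1 : ℝ) : ℂ) • ζ p.2.1.1 := 
  (V.isSec_tau.pb (V.tot.extP I)).sub (hζ.pb V.proj).scale

/-- the Gysin map of a section does not depend on the section -/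
theorem VB.IsSec.gys_move (β : BM V.tot.X) :
    gys hζ.mor.map hζ.isSec_sub.eul β = gys V.zero.map V.th β := by
  have hK := hζ.morI_map
  have h2 := hζ.isSec_subI
  have h3 := hζ.isClosedEmbedding_morI
  have h4 := lgys_isotopy h3 (fun p => by
    obtain ⟨τ, x⟩ := p
    obtain ⟨t, rfl⟩ := Y.surj x
    exact congrArg Prod.fst (hK τ t)) (LCo.of_supp h2.isCo.cocycle (h2.isCo.supp.trans (by
      rintro _ ⟨p, hp, rfl⟩
      exact ⟨(p.1, Y.π p.2.1.1), (hK _ _).trans (Prod.ext rfl (congrArg V.tot.π (Subtype.ext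
        (Prod.ext rfl (sub_eq_zero.1 hp).symm))))⟩))) (i₀ := V.zero.map) (i₁ := hζ.mor.map)
    (fun x => by
      obtain ⟨t, rfl⟩ := Y.surj x
      rw [hK, Mor.map_π]
      exact Prod.ext rfl (congrArg V.tot.π (Subtype.ext (Prod.ext rfl (zero_smul ℂ (ζ t))))))
    (fun x => by
      obtain ⟨t, rfl⟩ := Y.surj x
      rw [hK, Mor.map_π]
      exact Prod.ext rfl (congrArg V.tot.π (Subtype.ext (Prod.ext rfl (one_smul ℂ (ζ t)))))) β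
  have h5 : ∀ (τ : I) {s : Y.T → V.W} (hs : V.IsSec s), (∀ t, s t = ((τ : ℝ) : ℂ) • ζ t) →
      lgys hs.mor.map (pull (Prod.mk τ) h2.eul) = gys hs.mor.map hs.isSec_sub.eul := fun τ s hs e => by
    have h6 := (iso_extI (V.pb V.proj) τ).cohom_eul hs.isSec_sub h2 fun x =>
      congrArg (x.1.2 - ·) (e _)
    rw [← Sp.extI_map] at h6
    have h7 : supp hs.isSec_sub.eul ⊆ range hs.mor.map := hs.isSec_sub.isCo.supp.trans hs.range_mor.ge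
    exact ((LCoh.of_cohom (Isol.of_subset hs.range_mor.ge) h6).symm.lgys hs.isClosedEmbedding
      (LCo.of_supp hs.isSec_sub.isCo.cocycle h7)).trans
      (lgys_eq_gys hs.isClosedEmbedding hs.isSec_sub.isCo.cocycle h7)
  have h6 : supp V.th ⊆ range V.zero.map := V.th_supp.trans V.range_zero.ge
  have h7 := V.cohom_taut V.isSec_zero.isSec_sub fun x => sub_zero _
  have h8 : IsClosedEmbedding V.zero.map := V.isSec_zero.isClosedEmbedding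
  have h9 : supp V.isSec_zero.isSec_sub.eul ⊆ range V.zero.map :=
    V.isSec_zero.isSec_sub.isCo.supp.trans V.isSec_zero.range_mor.ge
  have h10 := (LCoh.of_cohom (Isol.of_subset V.range_zero.ge) h7).lgys h8
    (LCo.of_supp V.isSec_zero.isSec_sub.isCo.cocycle h9)
  rw [lgys_eq_gys h8 V.th_cocycle h6, lgys_eq_gys h8 V.isSec_zero.isSec_sub.isCo.cocycle h9] at h10
  rw [← h5 1 hζ fun t => by simp, ← h4, h10]
  exact DFunLike.congr_fun (h5 0 V.isSec_zero fun t => by simp) β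

end tot

namespace KP

variable {k' : KP Y'} {k : KP Y} {V : VB Y} {φ : Mor Y' V.tot}
  {A : Y'.T → k'.P.W →ₗ[ℂ] k.P.W} {ζ : Y.T → V.W} {D : Y'.T → V.W →ₗ[ℂ] k'.P.W}

/-- **V5, total spaces**: `Y'` is open in the total space of `V` and the zero set of `k'` lies in
the graph of a section `ζ` of `V` over the zero set of `k` -/
theorem Hom.vir_tot (h : k'.Hom k (V.proj.comp φ) A) (hφ : IsOpenEmbedding φ.map)
    (z1 : ContinuousOn ζ k.Zs) (z2 : ∀ g : Y.G, ∀ t ∈ k.Zs, ζ (g • t) = g • ζ t)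
    (z3 : ∀ t ∈ k.Zs, ζ t ∈ V.F t)
    (cone : ∀ t ∈ k'.Zs, ∀ v w, (t, v, w) ∈ closure {x : Y'.T × V.W × k'.P.W |
      (φ.f x.1).1.1 ∈ k.Zs ∧ ∃ c : ℂ, x.2.1 = c • ((φ.f x.1).1.2 - ζ (φ.f x.1).1.1) ∧
        x.2.2 - c • k'.s x.1 ∈ k'.van x.1} → w - D t v ∈ k'.van t)
    (hD : Ch.Hom (Mor.id Y') (V.pb (V.proj.comp φ)) k'.P D)
    (h0 : ∀ t ∈ k'.Zs, (φ.f t).1.2 = ζ (φ.f t).1.1)
    (inj : ∀ t ∈ k'.Zs, ∀ v ∈ V.F (φ.f t).1.1, D t v ∈ k'.van t → v = 0)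
    (ker : ∀ t ∈ k'.Zs, ∀ w ∈ k'.obs t, A t w ∈ k.van (φ.f t).1.1 →
      ∃ v ∈ V.F (φ.f t).1.1, w - D t v ∈ k'.van t)
    (hr : k'.r = V.r + k.r) {i : Z → Y.X} (hi : k.IsZ i) {i' : Z → Y'.X} (hi' : k'.IsZ i')
    (hsq : ∀ z, V.proj.map (φ.map (i' z)) = i z) (β : BM V.tot.X) :
    k'.vir i' (res φ.map β) = k.vir i (gys V.zero.map V.th β) := by
  obtain ⟨ζ', hζ, e⟩ := V.exists_ext_sec k.isClosed_Zs (fun g t => k.smul_mem_Zs g t) z1 z2 z3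
  have h1 := hζ.isSec_sub
  have h2 := h1.pb φ
  have hη : (V.pb (V.proj.comp φ)).IsSec fun t => (φ.f t).1.2 - ζ' (φ.f t).1.1 :=
    ⟨h2.mem, h2.cont, h2.eqv⟩
  have c1 : ∀ t ∈ k'.Zs, ∀ v w, (t, v, w) ∈ closure {x : Y'.T × V.W × k'.P.W |
      (φ.f x.1).1.1 ∈ k.Zs ∧ ∃ c : ℂ, x.2.1 = c • ((φ.f x.1).1.2 - ζ' (φ.f x.1).1.1) ∧
        x.2.2 - c • k'.s x.1 ∈ k'.van x.1} → w - D t v ∈ k'.van t := fun t ht v w hw => by
    refine cone t ht v w (closure_mono ?_ hw)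
    rintro x ⟨h3, c, h4, h5⟩
    exact ⟨h3, c, h4.trans (by rw [e _ h3]), h5⟩
  have z0 : ∀ t ∈ k'.Zs, (φ.f t).1.2 - ζ' (φ.f t).1.1 = 0 := fun t ht =>
    sub_eq_zero.2 ((h0 t ht).trans (e _ (h.mem_Zs ht)).symm)
  have h3 := h.lcoh_stab hη c1 hD z0 inj ker hr
  have h4 := Hom.isol_stab (m := V.proj.comp φ) (k := k) hη c1
  have h5 : k'.Z ⊆ Y'.π '' {t | (φ.f t).1.2 - ζ' (φ.f t).1.1 = 0} ∩ (V.proj.comp φ).map ⁻¹' k.Z :=
    subset_inter (image_mono z0) h.Z_subset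
  have h6 := k.lco.pull (V.proj.comp φ).map.continuous
  have h7 : Iso φ (V.pb (V.proj.comp φ)) (V.pb V.proj) fun _ => LinearMap.id :=
    ⟨⟨fun _ _ h => h, continuous_snd.comp continuous_subtype_val, fun _ _ _ _ => rfl⟩,
      fun _ _ _ h => h, fun _ w h => ⟨w, h, rfl⟩⟩
  have h8 := h3.trans ((LCoh.comm hη.isClosed_zeros (k.isClosed_Z.preimage
    (V.proj.comp φ).map.continuous) (LCo.of_isCo hη.isCo) h6 (d := k.r) (k.eul_deg.pull _)).mono h5 h4)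
  have h9 := h8.trans (((LCoh.of_cohom (Isol.refl _) (h7.cohom_eul hη h1 fun _ => rfl)).mul_left
    h6).mono (inter_comm _ _ ▸ h5) (inter_comm _ _ ▸ h4))
  rw [Mor.pull_comp, ← map_mul] at h9
  have e1 : ∀ z, φ.map (i' z) = (hζ.mor.map ∘ i) z := fun z => by
    obtain ⟨t, ht, e1⟩ := hi'.mem z
    rw [Function.comp_apply, ← hsq, ← e1, Mor.map_π, Mor.map_π, Mor.map_π]
    exact congrArg _ (Subtype.ext (Prod.ext rfl (sub_eq_zero.1 (z0 t ht))))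
  have e2 : V.proj.map ∘ hζ.mor.map = id := funext hζ.proj_map
  have h10 : supp h1.eul ⊆ range hζ.mor.map := hζ.range_mor ▸ h1.isCo.supp
  obtain ⟨h11, h12⟩ := lgys_lgys hζ.isClosedEmbedding (LCo.of_supp h1.isCo.cocycle h10) hi.emb
    (s := pull V.proj.map k.eul) (fun z => van_δ_pull V.proj.map.continuous.continuousAt
      ((hζ.proj_map _).symm ▸ hi.lco.cyc _ ⟨z, rfl⟩)) (hi.lco.isol.mono fun x hx =>
        hζ.proj_map x ▸ supp_pull V.proj.map.continuous _ hx) β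
  rw [pull_pull, e2, pull_id, lgys_eq_gys hζ.isClosedEmbedding h1.isCo.cocycle h10,
    hζ.gys_move] at h12
  rw [hi'.vir_eq h9, vir, h12, lgys_res (hζ.isClosedEmbedding.comp hi.emb) h11 hφ e1]

end KP

end Vale.Agent.P269.Ch
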