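import Vale.Agent.P269.Orb.Thom
import Vale.Agent.P269.Orb.Defs
import Vale.Agent.P269.Z.EulVB

set_option linter.all false

/-!
# Proper locally free actions: quotient maps, slices, uniformizing charts
-/

namespace Vale.Agent.P269.Orb

open Set Topology Filter Vale.Agent.P291Z MulAction

variable {G G' T T' X X' Γ U U' S : Type} [Group G] [TopologicalSpace G] [Group G']
  [TopologicalSpace G'] [TopologicalSpace T] [TopologicalSpace T'] [TopologicalSpace X]
  [TopologicalSpace X'] [Group Γ] [TopologicalSpace U] [TopologicalSpace U'] [TopologicalSpace S]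

/-- `π` is the quotient map of the action of `G` on `T` -/
structure IsQuo (G : Type) [Group G] [MulAction G T] (π : T → X) : Prop where
  oq : IsOpenQuotientMap π
  eq_iff : ∀ t t', π t = π t' ↔ ∃ g : G, g • t = t'

/-- a proper, locally free action on a nice space -/
structure Orb (G T : Type) [Group G] [TopologicalSpace G] [TopologicalSpace T] [MulAction G T] :
    Prop where
  grp : IsTopologicalGroup G
  proper : ProperSMul G T
  nice : Nice T
  loc : ∀ t : T, ∃ τ : T → G, (∀ᶠ x in 𝓝 t, ContinuousAt τ x) ∧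
    ∀ᶠ y in 𝓝 ((1 : G), t), τ (y.1 • y.2) = y.1 * τ y.2

variable [MulAction G T]

/-- a slice `φ` with an action `a` of `Γ` which is twisted by the cocycle `c` -/
structure IsTS (a : Γ → U → U) (φ : U → T) (c : Γ → U → G) : Prop where
  one : ∀ u, a 1 u = u
  mul : ∀ γ γ' u, a (γ * γ') u = a γ (a γ' u)
  cont_a : ∀ γ, Continuous (a γ)
  cont : Continuous φ
  cont_c : ∀ γ, Continuous (c γ)
  equiv : ∀ γ u, φ (a γ u) = c γ u • φ u
  cocycle : ∀ γ γ' u, c (γ * γ') u = c γ (a γ' u) * c γ' u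
  full : ∀ (g : G) u u', g • φ u = φ u' → ∃ γ, a γ u = u' ∧ c γ u = g
  inj : ∀ u γ γ', c γ u = c γ' u → γ = γ'
  isOpen : IsOpenMap fun x : G × U => x.1 • φ x.2

namespace IsQuo

variable {π : T → X} (h : IsQuo G π)
include h

theorem cont : Continuous π := h.oq.continuous

theorem surj : Function.Surjective π := h.oq.surjective

theorem isOpenMap : IsOpenMap π := h.oq.isOpenMap

theorem smul (g : G) (t : T) : π (g • t) = π t := ((h.eq_iff t _).2 ⟨g, rfl⟩).symm

theorem preimage_image {A : Set T} (hA : ∀ g : G, ∀ t ∈ A, g • t ∈ A) : π ⁻¹' (π '' A) = A := by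
  refine Subset.antisymm ?_ (subset_preimage_image π A)
  rintro t ⟨t', h1, h2⟩
  obtain ⟨g, rfl⟩ := (h.eq_iff _ _).1 h2
  exact hA g t' h1

theorem mem_image {A : Set T} (hA : ∀ g : G, ∀ t ∈ A, g • t ∈ A) {t : T} :
    π t ∈ π '' A ↔ t ∈ A := by
  rw [← mem_preimage, h.preimage_image hA]

theorem isClosed_image {A : Set T} (hA : ∀ g : G, ∀ t ∈ A, g • t ∈ A) (hc : IsClosed A) :
    IsClosed (π '' A) := by
  rwa [← h.oq.isQuotientMap.isClosed_preimage, h.preimage_image hA]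

theorem t2Space [ProperSMul G T] : T2Space X := by
  rw [t2_iff_isClosed_diagonal, ← (h.oq.prodMap h.oq).isQuotientMap.isClosed_preimage]
  convert (ProperSMul.isProperMap_smul_pair (G := G) (X := T)).isClosedMap.isClosed_range
  ext ⟨x₁, x₂⟩
  simp only [mem_preimage, Prod.map_apply, mem_diagonal_iff, mem_range, Prod.mk.injEq, Prod.exists,
    exists_eq_right]
  rw [eq_comm, h.eq_iff]

theorem nice (ho : Orb G T) : Nice X :=
  haveI := ho.proper
  haveI := ho.nice
  ⟨h.t2Space, h.oq.locallyCompactSpace, h.oq.isQuotientMap.secondCountableTopology h.isOpenMap⟩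

/-- an invariant map descends -/
theorem exists_lift {Y : Type} (f : T → Y) (hf : ∀ (g : G) t, f (g • t) = f t) :
    ∃ f' : X → Y, ∀ t, f' (π t) = f t :=
  ⟨fun x => f (h.surj x).choose, fun t => by
    obtain ⟨g, hg⟩ := (h.eq_iff _ _).1 (h.surj (π t)).choose_spec
    show f _ = f t
    conv_rhs => rw [← hg, hf]⟩

theorem continuous_lift {Y : Type} [TopologicalSpace Y] {f : T → Y} {f' : X → Y}
    (hf : Continuous f) (e : ∀ t, f' (π t) = f t) : Continuous f' := by
  rw [← h.oq.continuous_comp_iff, show f' ∘ π = f from funext e]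
  exact hf

section map

variable [MulAction G' T'] {π' : T' → X'} (h' : IsQuo G' π') {f : T → T'} {F : X → X'}
  (e : ∀ t, F (π t) = π' (f t))
include h' e

theorem continuous_map (hf : Continuous f) : Continuous F := h.continuous_lift (h'.cont.comp hf) e

theorem range_map : range F = π' '' range f := by
  rw [← h.surj.range_comp, show F ∘ π = π' ∘ f from funext e, range_comp]

theorem isOpenMap_map (hf : IsOpenMap f) : IsOpenMap F := by
  rw [h.oq.isOpenMap_iff, show F ∘ π = π' ∘ f from funext e]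
  exact h'.isOpenMap.comp hf

variable (hs : ∀ (g' : G') t, ∃ g : G, f (g • t) = g' • f t)
include hs

theorem preimage_image_map (C : Set X) : π' ⁻¹' (F '' C) = f '' (π ⁻¹' C) := by
  ext y
  constructor
  · rintro ⟨x, h1, h2⟩
    obtain ⟨t, rfl⟩ := h.surj x
    obtain ⟨g', rfl⟩ := (h'.eq_iff _ _).1 ((e t).symm.trans h2)
    obtain ⟨g, hg⟩ := hs g' t
    exact ⟨g • t, by rwa [mem_preimage, h.smul], hg⟩
  · rintro ⟨t, h1, rfl⟩
    exact ⟨π t, h1, e t⟩

theorem injective_map (hf : Function.Injective f) : Function.Injective F := fun x x' hx => by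
  obtain ⟨t, rfl⟩ := h.surj x
  obtain ⟨t', rfl⟩ := h.surj x'
  rw [e, e] at hx
  obtain ⟨g', hg'⟩ := (h'.eq_iff _ _).1 hx
  obtain ⟨g, hg⟩ := hs g' t
  exact (h.eq_iff _ _).2 ⟨g, hf (hg.trans hg')⟩

theorem isClosedMap_map (hf : IsClosedMap f) : IsClosedMap F := fun C hC => by
  rw [← h'.oq.isQuotientMap.isClosed_preimage, h.preimage_image_map h' e hs]
  exact hf _ (hC.preimage h.cont)

theorem isClosedEmbedding_map (hf : IsClosedEmbedding f) : IsClosedEmbedding F :=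
  .of_continuous_injective_isClosedMap (h.continuous_map h' e hf.continuous)
    (h.injective_map h' e hs hf.injective) (h.isClosedMap_map h' e hs hf.isClosedMap)

theorem isOpenEmbedding_map (hf : IsOpenEmbedding f) : IsOpenEmbedding F :=
  .of_continuous_injective_isOpenMap (h.continuous_map h' e hf.continuous)
    (h.injective_map h' e hs hf.injective) (h.isOpenMap_map h' e hf.isOpenMap)

theorem isEmbedding_map (hf : IsEmbedding f) : IsEmbedding F := by
  refine ⟨⟨le_antisymm (h.continuous_map h' e hf.continuous).le_induced fun V hV => ?_⟩,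
    h.injective_map h' e hs hf.injective⟩
  obtain ⟨V', hV', e'⟩ := hf.isInducing.isOpen_iff.1 (hV.preimage h.cont)
  refine ⟨π' '' V', h'.isOpenMap _ hV', ?_⟩
  ext x
  obtain ⟨t, rfl⟩ := h.surj x
  constructor
  · rintro ⟨y, h1, h2⟩
    obtain ⟨g', rfl⟩ := (h'.eq_iff _ _).1 ((e t).symm.trans h2.symm)
    obtain ⟨g, hg⟩ := hs g' t
    have : g • t ∈ π ⁻¹' V := by rw [← e', mem_preimage, hg]; exact h1
    rwa [mem_preimage, h.smul] at this
  · intro ht
    have : t ∈ f ⁻¹' V' := by rw [e']; exact ht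
    exact ⟨f t, this, (e t).symm⟩

theorem isHomeomorph_map (hf : IsHomeomorph f) : IsHomeomorph F :=
  ⟨h.continuous_map h' e hf.continuous, h.isOpenMap_map h' e hf.isOpenMap,
    h.injective_map h' e hs hf.injective, by
      rw [← range_eq_univ, h.range_map h' e, hf.surjective.range_eq, image_univ, h'.surj.range_eq]⟩

theorem isPr_map [LocallyCompactSpace T'] [T2Space X'] (hf : IsPr f) : IsPr F := by
  refine ⟨h.continuous_map h' e hf.cont, fun K hK => ?_⟩
  obtain ⟨L, h1, h2⟩ := exists_isCompact_lift h'.oq hK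
  refine ((hf.pre L h1).image h.cont).of_isClosed_subset
    (hK.isClosed.preimage (h.continuous_map h' e hf.cont)) fun x hx => ?_
  obtain ⟨t, rfl⟩ := h.surj x
  obtain ⟨y, h3, h4⟩ := h2 hx
  obtain ⟨g', rfl⟩ := (h'.eq_iff _ _).1 ((e t).symm.trans h4.symm)
  obtain ⟨g, hg⟩ := hs g' t
  exact ⟨g • t, by rwa [mem_preimage, hg], h.smul g t⟩

end map

end IsQuo

theorem isQuo_mk [ContinuousConstSMul G T] : IsQuo G (Q.mk G : T → Q G T) :=
  ⟨MulAction.isOpenQuotientMap_quotientMk, fun t t' => by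
    rw [eq_comm]
    exact Quotient.eq''.trans MulAction.mem_orbit_iff⟩

theorem Q.map_mk [MulAction G' T'] (ρ : G →* G') (f : T → T') (hf : ∀ g t, f (g • t) = ρ g • f t)
    (t : T) : Q.map ρ f hf (Q.mk G t) = Q.mk G' (f t) := rfl

theorem properSMul_of_map [MulAction G T'] [ProperSMul G T] [ContinuousSMul G T'] [T2Space T']
    {f : T' → T} (hf : Continuous f) (he : ∀ (g : G) t, f (g • t) = g • f t) : ProperSMul G T' := by
  refine properSMul_iff_continuousSMul_ultrafilter_tendsto_t2.2 ⟨inferInstance, fun 𝒰 x₁ x₂ h => ?_⟩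
  obtain ⟨g, -, hg⟩ := (properSMul_iff_continuousSMul_ultrafilter_tendsto.1
    (inferInstance : ProperSMul G T)).2 (𝒰.map (Prod.map id f)) (f x₁) (f x₂) (by
      have := ((hf.prodMap hf).tendsto (x₁, x₂)).comp h
      rw [Ultrafilter.coe_map, tendsto_map'_iff]
      refine Tendsto.congr (fun y => ?_) this
      simp [he])
  exact ⟨g, hg⟩

/-- a proper locally free action pulls back along any equivariant map -/
theorem Orb.of_map [MulAction G T'] (h : Orb G T) [Nice T'] [ContinuousSMul G T'] {f : T' → T}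
    (hf : Continuous f) (he : ∀ (g : G) t, f (g • t) = g • f t) : Orb G T' := by
  haveI := h.proper
  refine ⟨h.grp, properSMul_of_map hf he, inferInstance, fun t => ?_⟩
  obtain ⟨τ, h1, h2⟩ := h.loc (f t)
  refine ⟨τ ∘ f, (hf.continuousAt.eventually h1).mono fun x hx => hx.comp hf.continuousAt, ?_⟩
  have := ((continuous_id.prodMap hf).tendsto ((1 : G), t)).eventually h2
  exact this.mono fun y hy => by simpa [he] using hy

theorem Orb.contSMul (h : Orb G T) : ContinuousSMul G T :=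
  haveI := h.proper
  inferInstance

theorem Orb.sub (h : Orb G T) (Z : SubMulAction G T) (hZ : IsLocallyClosed (Z : Set T)) :
    Orb G Z :=
  haveI := h.nice
  haveI := h.contSMul
  haveI : Nice Z := Nice.of_isLocallyClosed hZ
  haveI : ContinuousSMul G Z := IsInducing.subtypeVal.continuousSMul continuous_id rfl
  h.of_map continuous_subtype_val fun _ _ => rfl

theorem Orb.niceQ (h : Orb G T) : Nice (Q G T) :=
  haveI := h.contSMul
  isQuo_mk.nice h

namespace IsTS

variable {a : Γ → U → U} {φ : U → T} {c : Γ → U → G} (h : IsTS a φ c)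
include h

theorem isUC {π : T → X} (hπ : IsQuo G π) : IsUC a (π ∘ φ) where
  one := h.one
  mul := h.mul
  cont_a := h.cont_a
  cont := hπ.cont.comp h.cont
  isOpen V hV := by
    have : (π ∘ φ) '' V = π '' ((fun x : G × U => x.1 • φ x.2) '' (univ ×ˢ V)) := by
      ext x
      constructor
      · rintro ⟨u, hu, rfl⟩
        exact ⟨_, ⟨(1, u), ⟨trivial, hu⟩, rfl⟩, hπ.smul _ _⟩
      · rintro ⟨_, ⟨y, hy, rfl⟩, rfl⟩
        exact ⟨y.2, hy.2, (hπ.smul _ _).symm⟩
    rw [this]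
    exact hπ.isOpenMap _ (h.isOpen _ (isOpen_univ.prod hV))
  fib u u' := (hπ.eq_iff _ _).trans ⟨fun ⟨g, hg⟩ => (h.full g u u' hg).imp fun _ h => h.1,
    fun ⟨γ, hγ⟩ => ⟨c γ u, by rw [← hγ, h.equiv]⟩⟩

theorem c_one (u : U) : c 1 u = 1 := by
  have := h.cocycle 1 1 u
  rw [mul_one, h.one] at this
  exact mul_eq_left.1 this.symm

theorem card_stab (u : U) : Nat.card {γ // a γ u = u} = Nat.card (stabilizer G (φ u)) := by
  refine Nat.card_congr (Equiv.ofBijective (fun γ => ⟨c γ.1 u, ?_⟩) ⟨fun γ γ' e => ?_, fun g => ?_⟩)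
  · rw [mem_stabilizer_iff, ← h.equiv, γ.2]
  · exact Subtype.ext (h.inj u _ _ (congrArg Subtype.val e))
  · obtain ⟨γ, h1, h2⟩ := h.full g u u g.2
    exact ⟨⟨γ, h1⟩, Subtype.ext h2⟩

/-- base change along an equivariant map -/
theorem pullback [IsTopologicalGroup G] [MulAction G T'] [ContinuousSMul G T'] {f : T' → T}
    (hf : Continuous f) (he : ∀ (g : G) t, f (g • t) = g • f t) {k : U' → U} {φ' : U' → T'}
    (hk : IsEmbedding fun x => (k x, φ' x)) (h1 : ∀ x, φ (k x) = f (φ' x))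
    (h2 : ∀ u t, φ u = f t → ∃ x, k x = u ∧ φ' x = t) :
    ∃ a' : Γ → U' → U', IsTS a' φ' (fun γ x => c γ (k x)) ∧ ∀ γ x, k (a' γ x) = a γ (k x) := by
  have hk1 : Continuous k := continuous_fst.comp hk.continuous
  have hk2 : Continuous φ' := continuous_snd.comp hk.continuous
  have ext : ∀ x x', k x = k x' → φ' x = φ' x' → x = x' := fun x x' e e' =>
    hk.injective (Prod.ext e e')
  choose a' ha ha' using fun γ x => h2 (a γ (k x)) (c γ (k x) • φ' x) (by rw [h.equiv, he, h1])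
  refine ⟨a', ⟨fun x => ext _ _ (by rw [ha, h.one]) (by rw [ha', h.c_one, one_smul]),
    fun γ γ' x => ext _ _ (by rw [ha, ha, ha, h.mul])
      (by rw [ha', ha', ha', ha, h.cocycle, mul_smul]), fun γ => ?_, hk2,
    fun γ => (h.cont_c γ).comp hk1, ha', fun γ γ' x => by rw [ha, h.cocycle],
    fun g x x' e => ?_, fun x => h.inj _, ?_⟩, ha⟩
  · rw [hk.continuous_iff]
    refine Continuous.congr (f := fun x => (a γ (k x), c γ (k x) • φ' x))
      (((h.cont_a γ).comp hk1).prodMk (((h.cont_c γ).comp hk1).smul hk2)) fun x => ?_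
    exact Prod.ext (ha γ x).symm (ha' γ x).symm
  · obtain ⟨γ, h3, h4⟩ := h.full g (k x) (k x') (by rw [h1, h1, ← he, e])
    exact ⟨γ, ext _ _ (by rw [ha, h3]) (by rw [ha', h4, e]), h4⟩
  · refine IsOpenMap.of_nhds_le ?_
    rintro ⟨g, x⟩ V hV
    have hk' : IsInducing (Prod.map id fun x => (k x, φ' x) : G × U' → G × U × T') :=
      IsInducing.id.prodMap hk.isInducing
    rw [mem_map, hk'.nhds_eq_comap, mem_comap] at hV
    obtain ⟨W, hW, hWV⟩ := hV
    have h3 : Continuous fun y : (G × U) × T' => (y.1.1, y.1.2, y.1.1⁻¹ • y.2) := by fun_prop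
    have h4 : (fun y : (G × U) × T' => (y.1.1, y.1.2, y.1.1⁻¹ • y.2)) ⁻¹' W ∈
        𝓝 ((g, k x), g • φ' x) := h3.continuousAt.preimage_mem_nhds (by
      simpa using hW)
    obtain ⟨W₁, h5, W₂, h6, h7⟩ := mem_nhds_prod_iff.1 h4
    have h8 : f ⁻¹' ((fun y : G × U => y.1 • φ y.2) '' W₁) ∈ 𝓝 (g • φ' x) :=
      hf.continuousAt.preimage_mem_nhds (by
        rw [he, ← h1]; exact h.isOpen.image_mem_nhds h5)
    filter_upwards [h6, h8]
    rintro t h9 ⟨⟨g', u⟩, h10, h11⟩
    obtain ⟨x', rfl, h12⟩ := h2 u (g'⁻¹ • t) (by rw [he, ← h11, inv_smul_smul])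
    have : (g', x') ∈ (fun y : G × U' => y.1 • φ' y.2) ⁻¹' V := hWV (by
      have := h7 (mk_mem_prod h10 h9)
      rwa [mem_preimage, ← h12] at this)
    rwa [mem_preimage, h12, smul_inv_smul] at this

end IsTS

theorem isCompact_stabilizer [ProperSMul G T] (t : T) :
    IsCompact (stabilizer G t : Set G) := by
  convert ((ProperSMul.isProperMap_smul_pair (G := G) (X := T)).isCompact_preimage
    (isCompact_singleton (x := (t, t)))).image continuous_fst
  ext g
  simp [mem_stabilizer_iff]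

theorem exists_nhds_of_proper [ProperSMul G T] {t : T} {A : Set G} (hA : IsOpen A)
    (h : (stabilizer G t : Set G) ⊆ A) :
    ∃ M ∈ 𝓝 t, ∀ x ∈ M, ∀ g : G, g • x ∈ M → g ∈ A := by
  have h1 := (ProperSMul.isProperMap_smul_pair (G := G) (X := T)).isClosedMap _
    (hA.isClosed_compl.prod isClosed_univ)
  have h2 : (t, t) ∉ (fun gx : G × T => (gx.1 • gx.2, gx.2)) '' (Aᶜ ×ˢ univ) := by
    rintro ⟨⟨g, x⟩, h3, h4⟩
    obtain ⟨h5, rfl⟩ := Prod.mk.inj h4
    exact h3.1 (h h5)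
  obtain ⟨M₁, h3, M₂, h4, h5⟩ := mem_nhds_prod_iff.1 (h1.isOpen_compl.mem_nhds h2)
  exact ⟨M₁ ∩ M₂, inter_mem h3 h4, fun x hx g hg => by_contra fun h6 =>
    h5 (mk_mem_prod hg.1 hx.2) ⟨(g, x), ⟨h6, trivial⟩, rfl⟩⟩

/-- **Local structure of a proper action near an etale slice.** -/
theorem exists_ts [IsTopologicalGroup G] [ProperSMul G T] {φ : S → T} {s₀ : S}
    (h : IsLocalHomeomorphOn (fun x : G × S => x.1 • φ x.2) {(1, s₀)}) {N : Set S}
    (hN : N ∈ 𝓝 s₀) : Finite (stabilizer G (φ s₀)) ∧ ∃ (U : Set S)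
      (a : stabilizer G (φ s₀) → U → U) (c : stabilizer G (φ s₀) → U → G), IsOpen U ∧ s₀ ∈ U ∧
      U ⊆ N ∧ IsTS a (fun u : U => φ u) c := by
  obtain ⟨e, he, hΦ⟩ := h (1, s₀) rfl
  have hΦ' : ∀ x : G × S, e x = x.1 • φ x.2 := fun x => (congrFun hΦ x).symm
  let τ : T → G := fun x => (e.symm x).1
  let w : T → S := fun x => (e.symm x).2
  have F1 : ∀ x ∈ e.target, τ x • φ (w x) = x := fun x hx => (hΦ' _).symm.trans (e.right_inv hx)
  have F2 : ∀ g s, (g, s) ∈ e.source → τ (g • φ s) = g ∧ w (g • φ s) = s := fun g s hs => by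
    have := e.left_inv hs
    rw [hΦ'] at this
    exact ⟨congrArg Prod.fst this, congrArg Prod.snd this⟩
  have F3 : ∀ s, (1, s) ∈ e.source → ContinuousAt φ s := fun s hs => by
    have := (e.continuousAt hs).comp (f := Prod.mk (1 : G)) (by fun_prop)
    refine this.congr (Eventually.of_forall fun s' => ?_)
    show e (1, s') = φ s'
    rw [hΦ', one_smul]
  have F4 : ∀ x ∈ e.target, ContinuousAt τ x ∧ ContinuousAt w x := fun x hx =>
    ⟨continuousAt_fst.comp (e.continuousAt_symm hx), continuousAt_snd.comp (e.continuousAt_symm hx)⟩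
  obtain ⟨A, B, hA, hA1, hB, hB1, hAB⟩ := mem_nhds_prod_iff'.1 (e.open_source.mem_nhds he)
  have ht : φ s₀ ∈ e.target := by
    have := e.map_source he
    rwa [hΦ', one_smul] at this
  have hτ : τ (φ s₀) = 1 ∧ w (φ s₀) = s₀ := by
    have := F2 1 s₀ he
    rwa [one_smul] at this
  have hAΓ : ∀ g ∈ A, g • φ s₀ = φ s₀ → g = 1 := fun g hg e' => by
    rw [← (F2 g s₀ (hAB (mk_mem_prod hg hB1))).1, e', hτ.1]
  have hfin : Finite (stabilizer G (φ s₀)) := by
    obtain ⟨F, h1, h2⟩ := (isCompact_stabilizer (G := G) (φ s₀)).elim_nhds_subcover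
      (fun γ => {g | γ⁻¹ * g ∈ A}) fun γ _ => (hA.preimage (by fun_prop)).mem_nhds (by
        show γ⁻¹ * γ ∈ A
        rwa [inv_mul_cancel])
    refine Set.Finite.subset F.finite_toSet fun g hg => ?_
    obtain ⟨γ, h3, h4⟩ := mem_iUnion₂.1 (h2 hg)
    rw [← inv_mul_eq_one.1 (hAΓ _ h4 ((stabilizer G _).mul_mem ((stabilizer G _).inv_mem (h1 γ h3))
      hg))]
    exact h3
  refine ⟨hfin, ?_⟩
  set Γ := stabilizer G (φ s₀)
  let a₀ : Γ → S → S := fun γ s => w (γ.1 • φ s)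
  let c₀ : Γ → S → G := fun γ s => (τ (γ.1 • φ s))⁻¹ * γ
  have T1 : ∀ γ : Γ, Tendsto (fun s => γ.1 • φ s) (𝓝 s₀) (𝓝 (φ s₀)) := fun γ => by
    have := (F3 s₀ he).tendsto.const_smul γ.1
    rwa [show γ.1 • φ s₀ = φ s₀ from γ.2] at this
  have T2 : ∀ γ : Γ, Tendsto (fun s => τ (γ.1 • φ s)) (𝓝 s₀) (𝓝 1) := fun γ => by
    have := (F4 _ ht).1.tendsto.comp (T1 γ)
    rwa [hτ.1] at this
  have T3 : ∀ γ : Γ, Tendsto (a₀ γ) (𝓝 s₀) (𝓝 s₀) := fun γ => by
    have := (F4 _ ht).2.tendsto.comp (T1 γ)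
    rwa [hτ.2] at this
  obtain ⟨M, hM, hM'⟩ := exists_nhds_of_proper (t := φ s₀) (A := ⋃ γ : Γ, {g | γ.1 * g⁻¹ ∈ A})
    (isOpen_iUnion fun γ => hA.preimage (by fun_prop)) fun g hg => mem_iUnion.2 ⟨⟨g, hg⟩, by
      show g * g⁻¹ ∈ A
      rwa [mul_inv_cancel]⟩
  have hP : ∀ᶠ s in 𝓝 s₀, s ∈ N ∧ s ∈ B ∧ φ s ∈ M ∧ (∀ γ : Γ, γ.1 • φ s ∈ e.target) ∧
      (∀ γ γ' : Γ, (γ'.1 * τ (γ.1 • φ s) * γ'.1⁻¹ * τ (γ'.1 • φ (a₀ γ s)), a₀ γ' (a₀ γ s)) ∈
        e.source) ∧ ∀ γ γ' : Γ, τ (γ'.1 • φ s) * (τ (γ.1 • φ s))⁻¹ ∈ A := by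
    refine Eventually.and hN (Eventually.and (hB.mem_nhds hB1) (Eventually.and (F3 s₀ he hM)
      (Eventually.and (eventually_all.2 fun γ => T1 γ (e.open_target.mem_nhds ht))
      (Eventually.and (eventually_all.2 fun γ => eventually_all.2 fun γ' => ?_)
        (eventually_all.2 fun γ => eventually_all.2 fun γ' => ?_)))))
    · have := ((((T2 γ).const_mul γ'.1).mul_const γ'.1⁻¹).mul ((T2 γ').comp (T3 γ))).prodMk_nhds
        ((T3 γ').comp (T3 γ))
      rw [mul_one, mul_one, mul_inv_cancel] at this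
      exact this (e.open_source.mem_nhds he)
    · have := (T2 γ').mul (T2 γ).inv
      rw [inv_one, mul_one] at this
      exact this (hA.mem_nhds hA1)
  obtain ⟨U₀, hU₀, hU₀o, hU₀s⟩ := mem_nhds_iff.1 hP
  have S1 : ∀ s ∈ U₀, (1, s) ∈ e.source := fun s hs => hAB (mk_mem_prod hA1 (hU₀ hs).2.1)
  have C0 : ∀ s ∈ U₀, ∀ γ : Γ, ContinuousAt (fun s => γ.1 • φ s) s := fun s hs γ =>
    (F3 s (S1 s hs)).const_smul γ.1
  have C1 : ∀ s ∈ U₀, ∀ γ, ContinuousAt (a₀ γ) s := fun s hs γ =>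
    ContinuousAt.comp (g := w) (F4 _ ((hU₀ hs).2.2.2.1 γ)).2 (C0 s hs γ)
  have C2 : ∀ s ∈ U₀, ∀ γ, ContinuousAt (c₀ γ) s := fun s hs γ =>
    (ContinuousAt.comp (g := τ) (f := fun s => γ.1 • φ s) (F4 _ ((hU₀ hs).2.2.2.1 γ)).1
      (C0 s hs γ)).inv.mul continuousAt_const
  have E1 : ∀ s ∈ U₀, ∀ γ, φ (a₀ γ s) = c₀ γ s • φ s := fun s hs γ => by
    rw [mul_smul, eq_inv_smul_iff]
    exact F1 _ ((hU₀ hs).2.2.2.1 γ)
  have E2 : ∀ s ∈ U₀, ∀ γ γ', a₀ γ s ∈ U₀ → a₀ (γ' * γ) s = a₀ γ' (a₀ γ s) ∧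
      c₀ (γ' * γ) s = c₀ γ' (a₀ γ s) * c₀ γ s := fun s hs γ γ' hs' => by
    have h1 := F2 _ _ ((hU₀ hs).2.2.2.2.1 γ γ')
    have h2 : (γ'.1 * τ (γ.1 • φ s) * γ'.1⁻¹ * τ (γ'.1 • φ (a₀ γ s))) • φ (a₀ γ' (a₀ γ s)) =
        (γ' * γ).1 • φ s := by
      rw [mul_smul, F1 _ ((hU₀ hs').2.2.2.1 γ'), mul_smul, inv_smul_smul, mul_smul,
        F1 _ ((hU₀ hs).2.2.2.1 γ), Subgroup.coe_mul, mul_smul]
    rw [h2] at h1
    refine ⟨h1.2, ?_⟩
    simp only [c₀]
    rw [h1.1, Subgroup.coe_mul]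
    group
  let U : Set S := {s | s ∈ U₀ ∧ ∀ γ, a₀ γ s ∈ U₀}
  have hUo : IsOpen U := isOpen_iff_mem_nhds.2 fun s hs => Eventually.and (hU₀o.mem_nhds hs.1)
    (eventually_all.2 fun γ => C1 s hs.1 γ (hU₀o.mem_nhds (hs.2 γ)))
  refine ⟨U, fun γ u => ⟨a₀ γ u, u.2.2 γ, fun γ' => by
      rw [← (E2 u u.2.1 γ γ' (u.2.2 γ)).1]; exact u.2.2 _⟩, fun γ u => c₀ γ u, hUo,
    ⟨hU₀s, fun γ => by
      show w (γ.1 • φ s₀) ∈ U₀
      rwa [show γ.1 • φ s₀ = φ s₀ from γ.2, hτ.2]⟩, fun s hs => (hU₀ hs.1).1,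
    fun u => Subtype.ext (F2 1 u (S1 u u.2.1)).2,
    fun γ γ' u => Subtype.ext (E2 u u.2.1 γ' γ (u.2.2 γ')).1,
    fun γ => Continuous.subtype_mk (f := fun u : U => a₀ γ u)
      (continuous_iff_continuousAt.2 fun u : U =>
      (C1 u u.2.1 γ).comp continuous_subtype_val.continuousAt) _,
    continuous_iff_continuousAt.2 fun u =>
      (F3 u (S1 u u.2.1)).comp continuous_subtype_val.continuousAt,
    fun γ => continuous_iff_continuousAt.2 fun u =>
      (C2 u u.2.1 γ).comp continuous_subtype_val.continuousAt,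
    fun γ u => E1 u u.2.1 γ, fun γ γ' u => (E2 u u.2.1 γ' γ (u.2.2 γ')).2,
    fun g u u' e' => ?_, fun u γ γ' e' => ?_, IsOpenMap.of_nhds_le ?_⟩
  · obtain ⟨γ, hγ⟩ := mem_iUnion.1 (hM' _ (hU₀ u.2.1).2.2.1 g (e' ▸ (hU₀ u'.2.1).2.2.1))
    have h1 := F2 _ _ (hAB (mk_mem_prod hγ (hU₀ u'.2.1).2.1))
    rw [← e', mul_smul, inv_smul_smul] at h1
    refine ⟨γ, Subtype.ext h1.2, ?_⟩
    simp only [c₀]
    rw [h1.1]
    group
  · have h1 : γ'.1 * γ.1⁻¹ = τ (γ'.1 • φ u) * (τ (γ.1 • φ u))⁻¹ := by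
      have : (τ (γ.1 • φ u))⁻¹ * γ = (τ (γ'.1 • φ u))⁻¹ * γ' := e'
      rw [← mul_right_inj (τ (γ'.1 • φ u))⁻¹, ← mul_assoc, ← this]
      group
    have h2 := hAΓ (γ'.1 * γ.1⁻¹) (by rw [h1]; exact (hU₀ u.2.1).2.2.2.2.2 γ γ') (γ' * γ⁻¹).2
    exact Subtype.ext (mul_inv_eq_one.1 h2).symm
  · rintro ⟨g, u⟩
    have h1 : IsOpenEmbedding (Prod.map (fun g' => g⁻¹ * g') Subtype.val : G × U → G × S) :=
      (Homeomorph.mulLeft g⁻¹).isOpenEmbedding.prodMap hUo.isOpenEmbedding_subtypeVal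
    have h2 := h1.map_nhds_eq (g, u)
    rw [Prod.map_apply, inv_mul_cancel] at h2
    have h3 := (Homeomorph.smul g).map_nhds_eq (e (1, u))
    rw [← e.map_nhds_eq (S1 u u.2.1), ← h2, map_map, map_map] at h3
    refine le_of_eq ?_
    convert h3.symm using 2
    · simp [hΦ']
    · funext y
      simp [hΦ', smul_smul]

/-- every point of a proper locally free action has arbitrarily small slices -/
theorem Orb.exists_ts (h : Orb G T) (t : T) {N : Set T} (hN : N ∈ 𝓝 t) :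
    ∃ (Γ U : Type) (_ : Group Γ) (_ : Fintype Γ) (_ : TopologicalSpace U) (_ : Nice U)
      (a : Γ → U → U) (φ : U → T) (c : Γ → U → G), IsTS a φ c ∧ t ∈ range φ ∧ range φ ⊆ N := by
  haveI := h.grp
  haveI := h.proper
  haveI := h.nice
  obtain ⟨τ₀, h1, h2⟩ := h.loc t
  let τ : T → G := fun x => τ₀ x * (τ₀ t)⁻¹
  have h3 : τ t = 1 := mul_inv_cancel _
  obtain ⟨A, B, hA, hA1, hB, hB1, hAB⟩ := mem_nhds_prod_iff'.1 h2
  obtain ⟨O, hO, hOo, hOt⟩ := mem_nhds_iff.1 (inter_mem h1 (hB.mem_nhds hB1))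
  have h4 : ∀ x ∈ O, ContinuousAt τ x := fun x hx => (hO hx).1.mul continuousAt_const
  have h5 : ∀ g ∈ A, ∀ x ∈ O, τ (g • x) = g * τ x := fun g hg x hx => by
    simp only [τ]
    rw [show τ₀ (g • x) = g * τ₀ x from hAB (mk_mem_prod hg (hO hx).2), mul_assoc]
  haveI : T2Space G := by
    obtain ⟨V, hV, hVc, hVs⟩ := exists_mem_nhds_isClosed_subset (hA.mem_nhds hA1)
    haveI : T1Space G := IsTopologicalGroup.t1Space G (by
      have : ({1} : Set G) = V ∩ {g | g • t = t} := by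
        refine Subset.antisymm (by
          rintro _ rfl; exact ⟨mem_of_mem_nhds hV, one_smul _ _⟩) fun g hg => ?_
        have := h5 g (hVs hg.1) t hOt
        rw [show g • t = t from hg.2, h3, mul_one] at this
        exact this.symm
      rw [this]
      exact hVc.inter (isClosed_eq (by fun_prop) continuous_const))
    infer_instance
  let S : Set T := {x | x ∈ O ∧ τ x = 1}
  have hS : IsLocallyClosed S := by
    have : S = Subtype.val '' {x : O | τ x = 1} := by
      ext x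
      simp [S, and_comm]
    rw [this]
    exact (isClosed_eq (continuous_iff_continuousAt.2 fun x : O =>
      (h4 x x.2).comp continuous_subtype_val.continuousAt) continuous_const).isLocallyClosed.image
      IsInducing.subtypeVal (by rw [Subtype.range_val]; exact hOo.isLocallyClosed)
  haveI : Nice S := Nice.of_isLocallyClosed hS
  let O' : Set T := {x | x ∈ O ∧ τ x ∈ A ∧ (τ x)⁻¹ ∈ A ∧ (τ x)⁻¹ • x ∈ O}
  have hO' : IsOpen O' := isOpen_iff_mem_nhds.2 fun x hx => Eventually.and (hOo.mem_nhds hx.1)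
    (Eventually.and (h4 x hx.1 (hA.mem_nhds hx.2.1)) (Eventually.and
      ((h4 x hx.1).inv (hA.mem_nhds hx.2.2.1))
      (((h4 x hx.1).inv.smul continuousAt_id) (hOo.mem_nhds hx.2.2.2))))
  have key : IsLocalHomeomorphOn (fun x : G × S => x.1 • x.2.1) {(1, ⟨t, hOt, h3⟩)} := by
    classical
    refine IsLocalHomeomorphOn.mk _ _ ?_
    rintro _ rfl
    let inv : T → G × S := fun x => if hx : x ∈ O' then (τ x, ⟨(τ x)⁻¹ • x, hx.2.2.2, by
      rw [h5 _ hx.2.2.1 x hx.1, inv_mul_cancel]⟩) else (1, ⟨t, hOt, h3⟩)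
    have h6 : ∀ y : G × S, y.1 ∈ A → τ (y.1 • y.2.1) = y.1 := fun y hy => by
      rw [h5 _ hy _ y.2.2.1, y.2.2.2, mul_one]
    refine ⟨{ toFun := fun x => x.1 • x.2.1
              invFun := inv
              source := {y | y.1 ∈ A ∧ y.1⁻¹ ∈ A ∧ y.1 • y.2.1 ∈ O}
              target := O'
              map_source' := fun y hy => ⟨hy.2.2, by rw [h6 y hy.1]; exact hy.1,
                by rw [h6 y hy.1]; exact hy.2.1, by rw [h6 y hy.1, inv_smul_smul]; exact y.2.2.1⟩
              map_target' := fun x hx => by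
                simp only [inv, dif_pos hx, mem_setOf_eq, smul_inv_smul]
                exact ⟨hx.2.1, hx.2.2.1, hx.1⟩
              left_inv' := fun y hy => ?_
              right_inv' := fun x hx => by simp only [inv, dif_pos hx, smul_inv_smul]
              open_source := (hA.preimage continuous_fst).inter
                ((hA.preimage (by fun_prop)).inter (hOo.preimage (by fun_prop)))
              open_target := hO'
              continuousOn_toFun := by fun_prop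
              continuousOn_invFun := ?_ }, ⟨hA1, by rwa [inv_one], by rwa [one_smul]⟩,
      fun _ _ => rfl⟩
    · have hy' : y.1 • y.2.1 ∈ O' := ⟨hy.2.2, by rw [h6 y hy.1]; exact hy.1,
        by rw [h6 y hy.1]; exact hy.2.1, by rw [h6 y hy.1, inv_smul_smul]; exact y.2.2.1⟩
      simp only [inv, dif_pos hy']
      exact Prod.ext (h6 y hy.1) (Subtype.ext (by simp only [h6 y hy.1, inv_smul_smul]))
    · rw [continuousOn_iff_continuous_restrict]
      have hτ : Continuous fun x : O' => τ x := continuous_iff_continuousAt.2 fun x =>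
        (h4 x x.2.1).comp continuous_subtype_val.continuousAt
      refine Continuous.congr (f := fun x : O' => (τ x, (⟨(τ x)⁻¹ • x.1, x.2.2.2.2, by
        rw [h5 _ x.2.2.2.1 x x.2.1, inv_mul_cancel]⟩ : S)))
        (hτ.prodMk ((hτ.inv.smul continuous_subtype_val).subtype_mk _)) fun x => ?_
      simp only [restrict_apply, inv, dif_pos x.2]
  obtain ⟨hfin, U, a, c, h6, h7, h8, h9⟩ := Vale.Agent.P269.Orb.exists_ts key
    (N := Subtype.val ⁻¹' N) (continuous_subtype_val.continuousAt hN)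
  exact ⟨_, U, inferInstance, Fintype.ofFinite _, inferInstance,
    Nice.of_isLocallyClosed h6.isLocallyClosed, a, _, c, h9, ⟨⟨_, h7⟩, rfl⟩, by
      rintro _ ⟨u, rfl⟩; exact h8 u.2⟩

/-- an action with etale slices is locally free -/
theorem orb_of_slices [IsTopologicalGroup G] [ProperSMul G T] [Nice T]
    (h : ∀ t : T, ∃ (S : Type) (_ : TopologicalSpace S) (φ : S → T) (s : S), φ s = t ∧
      IsLocalHomeomorphOn (fun x : G × S => x.1 • φ x.2) {(1, s)}) : Orb G T := by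
  refine ⟨inferInstance, inferInstance, inferInstance, fun t => ?_⟩
  obtain ⟨S, _, φ, s, rfl, h1⟩ := h t
  obtain ⟨e, he, hΦ⟩ := h1 (1, s) rfl
  have hΦ' : ∀ x : G × S, e x = x.1 • φ x.2 := fun x => (congrFun hΦ x).symm
  have ht : φ s ∈ e.target := by
    have := e.map_source he
    rwa [hΦ', one_smul] at this
  have h2 : e.symm (φ s) = (1, s) := by
    have := e.left_inv he
    rwa [hΦ', one_smul] at this
  refine ⟨fun x => (e.symm x).1, Eventually.mono (e.open_target.mem_nhds ht) fun x hx =>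
    continuousAt_fst.comp (e.continuousAt_symm hx), ?_⟩
  have h3 : ContinuousAt (fun y : G × T => e.symm y.2) (1, φ s) :=
    ContinuousAt.comp (g := e.symm) (e.continuousAt_symm ht) continuousAt_snd
  have h4 : ContinuousAt (fun y : G × T => (y.1 * (e.symm y.2).1, (e.symm y.2).2)) (1, φ s) :=
    (continuousAt_fst.mul h3.fst).prodMk h3.snd
  filter_upwards [h4 (e.open_source.mem_nhds (by simpa [h2] using he)),
    continuousAt_snd (e.open_target.mem_nhds ht)] with y h5 h6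
  have h7 := e.left_inv h5
  rw [hΦ', mul_smul, ← hΦ', e.right_inv h6] at h7
  exact congrArg Prod.fst h7

theorem Orb.finite_stabilizer (h : Orb G T) (t : T) : Finite (stabilizer G t) := by
  obtain ⟨Γ, U, _, _, _, _, a, φ, c, h1, ⟨u, rfl⟩, -⟩ := h.exists_ts t univ_mem
  refine Finite.of_surjective (fun γ : {γ // a γ u = u} => (⟨c γ.1 u, by
    rw [mem_stabilizer_iff, ← h1.equiv, γ.2]⟩ : stabilizer G (φ u))) fun g => ?_
  obtain ⟨γ, h2, h3⟩ := h1.full g u u g.2
  exact ⟨⟨γ, h2⟩, Subtype.ext h3⟩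

/-- **The quotient of an equivariant vector bundle is an orbifold vector bundle.** -/
theorem IsOVB.of_equivariant {E E' : Type} [TopologicalSpace E] [TopologicalSpace E']
    [MulAction G E] [ContinuousSMul G E] (ho : Orb G T) {r : ℕ} {p : E → T} {Z : Set E}
    {chart : (r : ℕ) → ((Fin r → ℂ) → E) → Prop} (h : IsVB r p Z chart)
    (hp : ∀ (g : G) e, p (g • e) = g • p e)
    (hc : ∀ (g : G) φ, chart r φ → chart r fun v => g • φ v) {πE : E → E'} {πT : T → X}
    (hE : IsQuo G πE) (hT : IsQuo G πT) {p' : E' → X} (hp' : ∀ e, p' (πE e) = πT (p e)) :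
    IsOVB r p' (πE '' Z) fun r ψ => ∃ φ, chart r φ ∧ ψ = πE ∘ φ := by
  haveI := ho.grp
  haveI := ho.nice
  have hZ : ∀ g : G, ∀ e ∈ Z, g • e ∈ Z := fun g e he => by
    obtain ⟨φ, v, h1, rfl⟩ := h.exists_chart_mem e
    exact (h.chart_zero (hc g φ h1) v).2 ((h.chart_zero h1 v).1 he)
  refine ⟨hE.continuous_map hT hp' h.cont, fun x => ?_, ?_, ?_⟩
  · obtain ⟨t, rfl⟩ := hT.surj x
    obtain ⟨N, Φ, h1, h2, h3⟩ := h.triv t
    obtain ⟨Γ, U, _, _, _, _, a, φ, c, h4, ⟨u₀, rfl⟩, h5⟩ := ho.exists_ts t (h2.isOpen.mem_nhds h1)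
    let φN : U → N := fun u => ⟨φ u, h5 ⟨u, rfl⟩⟩
    have hφN : Continuous φN := h4.cont.subtype_mk _
    let φ' : U × (Fin r → ℂ) → E := fun w => Φ (φN w.1, w.2)
    obtain ⟨ρ, hρ⟩ := (Taut.of_isOpenEmbedding h2.emb).retr.resolve_left
      (not_isEmpty_iff.2 ⟨(φN u₀, 0)⟩)
    have hφ' : Continuous φ' := h2.emb.continuous.comp ((hφN.comp continuous_fst).prodMk
      continuous_snd)
    obtain ⟨a', h6, h7⟩ := h4.pullback h.cont hp (k := Prod.fst) (φ' := φ')
      (Eul.isEmbedding_of_left (Ψ := fun y : U × E => (y.1, (ρ y.2).2)) IsEmbedding.id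
        (continuous_fst.prodMk hφ') (fun w => continuousAt_fst.prodMk
          (ContinuousAt.comp (g := fun e => (ρ e).2) (hρ.cont _).snd continuousAt_snd))
        fun w => by simp [φ', hρ.left])
      (fun w => (h2.proj (φN w.1, w.2)).symm) fun u e he => by
        obtain ⟨v, hv⟩ := h2.exists_eq (show p e ∈ N from he ▸ h5 ⟨u, rfl⟩)
        exact ⟨(u, v), rfl, by
          rw [← hv]; exact congrArg Φ (Prod.ext (Subtype.ext he) rfl)⟩
    refine ⟨Γ, U, inferInstance, inferInstance, inferInstance, inferInstance, a, πT ∘ φ, a',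
      πE ∘ φ', ⟨u₀, rfl⟩, ⟨h4.isUC hT, h6.isUC hE, fun γ u => ?_, ?_, fun w => ?_, fun w => ?_⟩,
      fun u => ⟨_, h3 (φN u), rfl⟩⟩
    · obtain ⟨g, hg⟩ := h.trans _ _ (hc (c γ u) _ (h3 (φN u))) (h3 (φN (a γ u))) (by
        rw [hp, h2.proj, h2.proj]; exact (h4.equiv γ u).symm)
      refine ⟨g, fun v => Prod.ext (h7 γ (u, v)) ?_⟩
      have h8 : φ' (a' γ (u, v)) = Φ (φN (a γ u), g v) := (h6.equiv γ (u, v)).trans (congrFun hg v)
      have h9 := congrArg Prod.snd (h2.emb.injective h8)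
      exact h9
    · ext x
      obtain ⟨e, rfl⟩ := hE.surj x
      constructor
      · rintro ⟨w, hw⟩
        exact ⟨w.1, by rw [← hw, Function.comp_apply, Function.comp_apply, hp', h2.proj]⟩
      · rintro ⟨u, hu⟩
        rw [hp'] at hu
        obtain ⟨g, hg⟩ := (hT.eq_iff _ _).1 hu.symm
        rw [← hp] at hg
        obtain ⟨v, hv⟩ := h2.exists_eq (show p (g • e) ∈ N from hg ▸ h5 ⟨u, rfl⟩)
        refine ⟨(u, v), ?_⟩
        rw [← hE.smul g e, ← hv]
        exact congrArg πE (congrArg Φ (Prod.ext (Subtype.ext hg.symm) rfl))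
    · rw [Function.comp_apply, hp', h2.proj]
      rfl
    · rw [Function.comp_apply, hE.mem_image hZ]
      exact h2.zero _
  · rintro r' _ ⟨φ, h1, rfl⟩
    exact h.rank r' φ h1
  · rintro _ _ ⟨φ, h1, rfl⟩ ⟨φ', h2, rfl⟩ e
    rw [Function.comp_apply, Function.comp_apply, hp', hp'] at e
    obtain ⟨g, hg⟩ := (hT.eq_iff _ _).1 e
    obtain ⟨k, hk⟩ := h.trans _ _ (hc g φ h1) h2 (by rw [hp, hg])
    refine ⟨k, funext fun v => ?_⟩
    rw [Function.comp_apply, ← hE.smul g, congrFun hk v]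
    rfl

end Vale.Agent.P269.Orb
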