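import Vale.Agent.P269.Orb.Calc

set_option linter.all false

/-!
# Local degrees: products, powers, conservation of number, positivity
-/

namespace Vale.Agent.P269.Orb

open Set Topology Filter Vale.Agent.P291Z unitInterval

section wind

variable {X : Type} [TopologicalSpace X]

theorem pull_tau_one (f : X → ℂ) : pull (fun x (_ : Fin 1) => f x) (tau 1) = pull f (δ wind) := by
  rw [tau, List.ofFn_succ, List.ofFn_zero, List.prod_cons, List.prod_nil, mul_one, pull_pull]
  rfl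

theorem wind_mul {f g : X → ℂ} {x : X} (hf : ContinuousAt f x) (hg : ContinuousAt g x)
    (h1 : f x ≠ 0) (h2 : g x ≠ 0) :
    pull (fun x => f x * g x) wind - (pull f wind + pull g wind) ∈ Van x := by
  have key : ∀ {f : X → ℂ}, ContinuousAt f x → f x ≠ 0 →
      ∀ᶠ w in 𝓝 x ×ˢ 𝓝 x, 0 < (f w.2 / f w.1).re := fun {f} hf h1 => by
    have h3 : Tendsto (fun w : X × X => (f w.2 / f w.1).re) (𝓝 x ×ˢ 𝓝 x) (𝓝 (f x / f x).re) :=
      (Complex.continuous_re.tendsto _).comp
        ((hf.tendsto.comp tendsto_snd).div (hf.tendsto.comp tendsto_fst) h1)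
    exact h3.eventually (lt_mem_nhds (by simp [div_self h1]))
  obtain ⟨U, hU, h3⟩ := mem_prod_self_iff.1 ((key hf h1).and (key hg h2))
  refine IsDeg.van_one ((isDeg_wind.pull _).sub ((isDeg_wind.pull _).add (isDeg_wind.pull _))) hU
    fun y hy z hz => ?_
  obtain ⟨h4, h5⟩ : 0 < (f z / f y).re ∧ 0 < (g z / g y).re := h3 (mk_mem_prod hy hz)
  have h6 := abs_lt.1 (Complex.abs_arg_lt_pi_div_two_iff.2 (Or.inl h4))
  have h7 := abs_lt.1 (Complex.abs_arg_lt_pi_div_two_iff.2 (Or.inl h5))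
  have e := (Complex.log_mul_eq_add_log_iff (x := f z / f y) (y := g z / g y)
    (fun h => by simp [h] at h4) fun h => by simp [h] at h5).2 ⟨by linarith, by linarith⟩
  change Complex.log (f z * g z / (f y * g y)) / _ -
    (Complex.log (f z / f y) / _ + Complex.log (g z / g y) / _) = 0
  rw [mul_div_mul_comm, e]
  ring

theorem wind_prod {ι : Type*} (s : Finset ι) {f : ι → X → ℂ} {x : X}
    (hf : ∀ i ∈ s, ContinuousAt (f i) x) (h1 : ∀ i ∈ s, f i x ≠ 0) :
    pull (fun x => ∏ i ∈ s, f i x) wind - ∑ i ∈ s, pull (f i) wind ∈ Van x := by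
  classical
  induction s using Finset.induction_on with
  | empty =>
    rw [Finset.sum_empty, sub_zero]
    refine IsDeg.van_one (isDeg_wind.pull _) univ_mem fun y _ z _ => ?_
    change Complex.log (_ / _) / _ = 0
    simp
  | insert i s hi ih =>
    have h2 := fun j hj => hf j (Finset.mem_insert_of_mem hj)
    have h3 := fun j hj => h1 j (Finset.mem_insert_of_mem hj)
    have := (Van x).add_mem (wind_mul (hf i (Finset.mem_insert_self _ _))
      (tendsto_finsetProd s h2 : ContinuousAt (fun x => ∏ j ∈ s, f j x) x)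
      (h1 i (Finset.mem_insert_self _ _)) (Finset.prod_ne_zero_iff.2 h3)) (ih h2 h3)
    simp only [Finset.prod_insert hi, Finset.sum_insert hi]
    convert this using 1
    abel

theorem cohom_tau_mul {f g : X → ℂ} (hf : Continuous f) (hg : Continuous g) :
    Cohom (f ⁻¹' {0} ∪ g ⁻¹' {0}) (pull (fun x => f x * g x) (δ wind))
      (pull f (δ wind) + pull g (δ wind)) :=
  ⟨_, fun x hx => by_contra fun h => wind_mul hf.continuousAt hg.continuousAt
    (fun h1 => h (Or.inl h1)) (fun h1 => h (Or.inr h1)) hx, by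
      rw [map_sub, map_add, δ_pull, δ_pull, δ_pull, sub_self, supp_zero]⟩

theorem cohom_tau_prod {ι : Type*} (s : Finset ι) {f : ι → X → ℂ}
    (hf : ∀ i ∈ s, Continuous (f i)) :
    Cohom (⋃ i ∈ s, f i ⁻¹' {0}) (pull (fun x => ∏ i ∈ s, f i x) (δ wind))
      (∑ i ∈ s, pull (f i) (δ wind)) :=
  ⟨_, fun x hx => by_contra fun h => wind_prod s (fun i hi => (hf i hi).continuousAt)
    (fun i hi h1 => h (mem_iUnion₂.2 ⟨i, hi, h1⟩)) hx, by
      simp only [map_sub, map_sum, δ_pull, sub_self, supp_zero]⟩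

theorem cohom_tau_pow {f : X → ℂ} (hf : Continuous f) (m : ℕ) :
    Cohom (f ⁻¹' {0}) (pull (fun x => f x ^ m) (δ wind)) ((m : ℂ) • pull f (δ wind)) := by
  obtain ⟨c, h1, h2⟩ := cohom_tau_prod (Finset.range m) (f := fun _ => f) fun _ _ => hf
  simp only [Finset.prod_const, Finset.sum_const, Finset.card_range] at h2
  exact ⟨c, h1.trans (iUnion₂_subset fun _ _ => subset_rfl), by rwa [Nat.cast_smul_eq_nsmul]⟩

end wind

variable {n : ℕ}

theorem locCo_mul_fun {f g : (Fin 1 → ℂ) → ℂ} {c d : ℂ}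
    (hf : ∀ᶠ z in 𝓝 (0 : Fin 1 → ℂ), ContinuousAt f z ∧ (z ≠ 0 → f z ≠ 0))
    (hg : ∀ᶠ z in 𝓝 (0 : Fin 1 → ℂ), ContinuousAt g z ∧ (z ≠ 0 → g z ≠ 0))
    (h1 : LocCo (pull (fun z (_ : Fin 1) => f z) (tau 1)) c)
    (h2 : LocCo (pull (fun z (_ : Fin 1) => g z) (tau 1)) d) :
    LocCo (pull (fun z (_ : Fin 1) => f z * g z) (tau 1)) (c + d) := by
  refine (h1.add h2).of_cohom (b := pull (fun x => f x * g x) wind - (pull f wind + pull g wind))
    ((hf.and hg).mono fun z hz => ⟨?_, fun h0 => wind_mul hz.1.1 hz.2.1 (hz.1.2 h0) (hz.2.2 h0)⟩)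
  rw [pull_tau_one, pull_tau_one, pull_tau_one, map_sub, map_add, δ_pull, δ_pull, δ_pull, sub_self]
  exact Submodule.zero_mem _

theorem locCo_unit {f : (Fin 1 → ℂ) → ℂ} (hf : ContinuousAt f 0) (h0 : f 0 ≠ 0) :
    LocCo (pull (fun z (_ : Fin 1) => f z) (tau 1)) 0 := by
  rw [pull_tau_one]
  exact locCo_zero_of_van (Van.pull hf fun h => h0 (supp_δ_wind h))

theorem ne_zero_fin_one {z : Fin 1 → ℂ} (h : z ≠ 0) : z 0 ≠ 0 := fun h0 =>
  h (funext fun i => by rwa [Subsingleton.elim i 0])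

theorem locCo_pow (m : ℕ) :
    LocCo (pull (fun (z : Fin 1 → ℂ) (_ : Fin 1) => z 0 ^ m) (tau 1)) m := by
  induction m with
  | zero => simpa using locCo_unit (f := fun _ => 1) continuousAt_const one_ne_zero
  | succ m ih =>
    have h1 : LocCo (pull (fun (z : Fin 1 → ℂ) (_ : Fin 1) => z 0) (tau 1)) 1 :=
      posGerm_id.co.pull_congr (Eventually.of_forall fun z => funext fun i => by
        rw [Subsingleton.elim i 0]; rfl)
    have := locCo_mul_fun (f := fun z => z 0 ^ m) (Eventually.of_forall fun z =>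
      ⟨((continuous_apply 0).pow m).continuousAt, fun h => pow_ne_zero m (ne_zero_fin_one h)⟩)
      (Eventually.of_forall fun z => ⟨(continuous_apply 0).continuousAt, ne_zero_fin_one⟩) ih h1
    simpa only [pow_succ, Nat.cast_succ] using this

theorem locCo_analytic {f : ℂ → ℂ} (hf : AnalyticAt ℂ f 0) {m : ℕ}
    (hm : analyticOrderAt f 0 = m) :
    LocCo (pull (fun (z : Fin 1 → ℂ) (_ : Fin 1) => f (z 0)) (tau 1)) m := by
  obtain ⟨g, h1, h2, h3⟩ := hf.analyticOrderAt_eq_natCast.1 hm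
  have hc : Continuous fun z : Fin 1 → ℂ => z 0 := continuous_apply 0
  have ht : Tendsto (fun z : Fin 1 → ℂ => z 0) (𝓝 0) (𝓝 0) := hc.tendsto' _ _ rfl
  have := locCo_mul_fun (f := fun z => z 0 ^ m) (g := fun z => g (z 0)) (Eventually.of_forall
    fun z => ⟨(hc.pow m).continuousAt, fun h => pow_ne_zero m (ne_zero_fin_one h)⟩)
    ((ht.eventually (h1.eventually_analyticAt.and (h1.continuousAt.eventually_ne h2))).mono
      fun z hz => ⟨ContinuousAt.comp (g := g) hz.1.continuousAt hc.continuousAt, fun _ => hz.2⟩)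
    (locCo_pow m) (locCo_unit (ContinuousAt.comp (g := g) h1.continuousAt hc.continuousAt) h2)
  rw [add_zero] at this
  exact this.pull_congr ((ht.eventually h3).mono fun z hz => funext fun _ => by
    rw [hz, sub_zero, smul_eq_mul])

theorem locCo_diag' {n : ℕ} (m : Fin n → ℕ) :
    LocCo (pull (fun (z : Fin n → ℂ) i => z i ^ m i) (tau n)) (∏ i, (m i : ℂ)) := by
  induction n with
  | zero =>
    have := locCo_tau (n := 0)
    rw [tau_zero] at this
    rwa [tau_zero, map_one, Finset.univ_eq_empty, Finset.prod_empty]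
  | succ n ih =>
    have := (ih fun i => m i.castSucc).cross (locCo_pow (m (Fin.last n))) ((tau_deg 1).pull _)
    rw [pull_pull, pull_pull] at this
    have e : (fun (z : Fin (n + 1) → ℂ) (i : Fin 1) => z (Fin.natAdd n i)) ∘
        (fun (z : Fin (n + 1) → ℂ) i => z i ^ m i) = (fun (z : Fin 1 → ℂ) (_ : Fin 1) =>
          z 0 ^ m (Fin.last n)) ∘ fun z (i : Fin 1) => z (Fin.natAdd n i) := by
      funext z i
      rw [Subsingleton.elim i 0]
      rfl
    rw [Fin.prod_univ_castSucc, tau_add, map_mul, pull_pull, pull_pull, e]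
    exact this

theorem locCo_diag {n : ℕ} (m : Fin n → ℕ) (hm : ∀ i, m i ≠ 0) :
    LocCo (pull (fun (z : Fin n → ℂ) i => z i ^ m i) (tau n)) (∏ i, (m i : ℂ)) := locCo_diag' m

/-- the radial retraction onto a closed ball -/
theorem exists_retr_ball {r : ℝ} (hr : 0 < r) : ∃ ρ : (Fin n → ℂ) → Fin n → ℂ, Continuous ρ ∧
    (∀ z, ‖z‖ ≤ r → ρ z = z) ∧ ∀ z, r ≤ ‖z‖ → ‖ρ z‖ = r :=
  ⟨fun z => (r / max r ‖z‖) • z, (continuous_const.div (by fun_prop)
    fun z => (lt_max_of_lt_left hr).ne').smul continuous_id, fun z hz => by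
      simp only [max_eq_left hz, div_self hr.ne', one_smul], fun z hz => by
      simp only [max_eq_right hz]
      rw [norm_smul, Real.norm_of_nonneg (div_nonneg hr.le (norm_nonneg _)),
        div_mul_cancel₀ _ (hr.trans_le hz).ne']⟩

/-- **conservation of number** -/
theorem locCo_sum {n : ℕ} {θ : ℝ × (Fin n → ℂ) → Fin n → ℂ} {r : ℝ} (hr : 0 < r)
    (hc : ContinuousOn θ (Icc 0 1 ×ˢ Metric.closedBall 0 r))
    (hs : ∀ l ∈ Icc (0 : ℝ) 1, ∀ z, ‖z‖ = r → θ (l, z) ≠ 0) {F F' : Finset (Fin n → ℂ)}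
    {d d' : (Fin n → ℂ) → ℂ} (h0 : ∀ z, ‖z‖ ≤ r → (θ (0, z) = 0 → z ∈ F))
    (h1 : ∀ z, ‖z‖ ≤ r → (θ (1, z) = 0 → z ∈ F'))
    (hF : (F : Set (Fin n → ℂ)) ⊆ Metric.ball 0 r) (hF' : (F' : Set (Fin n → ℂ)) ⊆ Metric.ball 0 r)
    (hd : ∀ u ∈ F, LocCo (pull (fun z => θ (0, z + u)) (tau n)) (d u))
    (hd' : ∀ u ∈ F', LocCo (pull (fun z => θ (1, z + u)) (tau n)) (d' u)) :
    ∑ u ∈ F, d u = ∑ u ∈ F', d' u := by
  obtain ⟨ρ, hρ, e1, e2⟩ := exists_retr_ball (n := n) hr
  obtain ⟨o, -, ho⟩ := exists_fund_pi n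
  let H : I × (Fin n → ℂ) → Fin n → ℂ := fun w => θ (w.1, ρ w.2)
  have hH : Continuous H := hc.comp_continuous (by fun_prop) fun w =>
    ⟨w.1.2, mem_closedBall_zero_iff.2 ((le_total ‖w.2‖ r).elim (fun h => by rwa [e1 _ h])
      fun h => (e2 _ h).le)⟩
  have hz : ∀ w, H w = 0 → ‖w.2‖ ≤ r := fun w hw => by_contra fun h =>
    hs _ w.1.2 _ (e2 _ (not_le.1 h).le) hw
  have key : ∀ (l : I) (F : Finset (Fin n → ℂ)) (d : (Fin n → ℂ) → ℂ),
      (∀ z, ‖z‖ ≤ r → (θ (l, z) = 0 → z ∈ F)) → (F : Set (Fin n → ℂ)) ⊆ Metric.ball 0 r →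
      (∀ u ∈ F, LocCo (pull (fun z => θ (l, z + u)) (tau n)) (d u)) →
      o (cls (pull (fun z => H (l, z)) (tau n))) = ∑ u ∈ F, d u := by
    intro l F d h0 hF hd
    have h2 : Continuous fun z => H (l, z) := hH.comp (by fun_prop)
    rw [← ev_eq]
    refine ev_finite o d F (cocycle_pull h2 (tau_cocycle n)) (fun z h => ?_) fun y hy a h3 h4 h5 => ?_
    · have h3 : H (l, z) = 0 := supp_tau n (supp_pull h2 _ h)
      exact h0 z (hz _ h3) (by rwa [← e1 z (hz _ h3)])
    · have h6 : Continuous fun z : Fin n → ℂ => z + y := by fun_prop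
      rw [← one_mul (ev o a)]
      refine ho y a _ h3 (by simpa only [zero_add] using h4) (LocCo.of_van h6.continuousAt
        (b := pull (fun z => H (l, z)) (tau n)) ?_ ?_)
      · rw [pull_pull]
        refine (hd y hy).pull_congr ((h6.continuousAt.eventually (Metric.isOpen_ball.mem_nhds
          (by simpa only [zero_add] using hF hy))).mono fun z h => ?_)
        change θ (l, ρ (z + y)) = _
        rw [e1 _ (mem_ball_zero_iff.1 h).le]
      · rw [zero_add, ← neg_sub]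
        exact (Van _).neg_mem h5
  rw [← key 0 F d h0 hF hd, ← key 1 F' d' h1 hF' hd',
    cls_pull_eq_of_homotopy hH (tau_cocycle n) (((isCompact_univ.prod
      (isCompact_closedBall 0 r)).of_isClosed_subset ((isClosed_supp _).preimage hH) fun w hw =>
        ⟨trivial, mem_closedBall_zero_iff.2 (hz w (supp_tau n hw))⟩)) (fun _ => rfl) fun _ => rfl]

/-- **the local degree of a holomorphic germ is a positive integer** -/
theorem locCo_pos {n : ℕ} {θ : (Fin n → ℂ) → Fin n → ℂ} (h : AnalyticAt ℂ θ 0) (h0 : Germ0 θ) :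
    ∃ d : ℕ, d ≠ 0 ∧ LocCo (pull θ (tau n)) d := by
  obtain ⟨c, hc⟩ := (locCo_tau.isLoc.pull h0).exists_locCo
  obtain ⟨r, hr, h1⟩ := exists_radius (h.eventually_analyticAt.and h0.ev)
  obtain ⟨m, hm, h2⟩ := (isCompact_sphere (0 : Fin n → ℂ) r).exists_forall_le' (f := fun z => ‖θ z‖)
    (fun z hz => (h1 z (mem_sphere_zero_iff_norm.1 hz).le).2.1.norm.continuousWithinAt) (a := 0)
    fun z hz => norm_pos_iff.2 fun h3 => by
      have h4 := mem_sphere_zero_iff_norm.1 hz
      rw [(h1 z h4.le).2.2 h3, norm_zero] at h4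
      exact hr.ne h4
  obtain ⟨μ, h3, h4⟩ := (infinite_of_mem_nhds (0 : ℂ) (Metric.ball_mem_nhds 0
    (show 0 < m / 2 / r by positivity))).exists_notMem_finite
    (Module.End.finite_hasEigenvalue (fderiv ℂ θ 0).toLinearMap)
  let g : (Fin n → ℂ) → Fin n → ℂ := fun z => θ z - μ • z
  have hg : ∀ z, ‖z‖ ≤ r → AnalyticAt ℂ g z := fun z hz =>
    (h1 z hz).1.sub (analyticAt_id.const_smul (c := μ))
  have h5 : Function.Injective (fderiv ℂ g 0).toLinearMap := by
    have a1 : HasFDerivAt g _ 0 :=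
      h.differentiableAt.hasFDerivAt.sub ((hasFDerivAt_id _).const_smul μ)
    rw [a1.fderiv, injective_iff_map_eq_zero]
    exact fun v hv => by_contra fun h6 => h4 (Module.End.hasEigenvalue_of_hasEigenvector
      ⟨Module.End.mem_eigenspace_iff.2 (sub_eq_zero.1 hv), h6⟩)
  have h6 := (hg 0 (by rw [norm_zero]; exact hr.le)).hasStrictFDerivAt.map_nhds_eq_of_surj
    (LinearMap.range_eq_top.2 (LinearMap.injective_iff_surjective.1 h5))
  rw [show g 0 = 0 by simp [g, h0.zero]] at h6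
  have h7 : MeasureTheory.volume (g '' {z | ‖z‖ ≤ r ∧ ¬Function.Injective (fderiv ℂ g z)}) = 0 :=
    MeasureTheory.addHaar_image_eq_zero_of_det_fderivWithin_eq_zero _
      (f' := fun z => (fderiv ℂ g z).restrictScalars ℝ)
      (fun z hz => ((hg z hz.1).differentiableAt.hasFDerivAt.restrictScalars ℝ).hasFDerivWithinAt)
      fun z hz => LinearMap.det_eq_zero_iff_ker_ne_bot.2 fun h8 => hz.2 (LinearMap.ker_eq_bot.1 h8 :)
  obtain ⟨w, ⟨⟨z₀, h8, h9⟩, h10⟩, h11⟩ : ∃ w ∈ g '' Metric.ball 0 r ∩ Metric.ball 0 (m / 2),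
      w ∉ g '' {z | ‖z‖ ≤ r ∧ ¬Function.Injective (fderiv ℂ g z)} :=
    not_subset.1 fun hs => (MeasureTheory.Measure.measure_pos_of_mem_nhds MeasureTheory.volume
      (inter_mem (h6 ▸ image_mem_map (Metric.ball_mem_nhds 0 hr))
        (Metric.ball_mem_nhds 0 (half_pos hm)))).ne' (MeasureTheory.measure_mono_null hs h7)
  have h12 : ∀ u, ‖u‖ ≤ r → g u = w → PosGerm fun z => g (z + u) - w := fun u hu e => by
    have a1 : AnalyticAt ℂ (fun z => g (z + u) - w) 0 :=
      (AnalyticAt.comp (g := g) (by rw [zero_add]; exact hg u hu) (by fun_prop)).sub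
        analyticAt_const
    refine posGerm_of_hasFDerivAt (A := fderiv ℂ g u) (by rw [zero_add, e, sub_self])
      (a1.eventually_analyticAt.mono fun _ h => h.continuousAt) (HasFDerivAt.sub_const _
        ((hasFDerivAt_comp_add_right u).2 ?_)) (by_contra fun a2 => h11 ⟨u, ⟨hu, a2⟩, e⟩)
    rw [zero_add]
    exact (hg u hu).differentiableAt.hasFDerivAt
  have hgc : ContinuousOn g (Metric.closedBall 0 r) := fun z hz =>
    (hg z (mem_closedBall_zero_iff.1 hz)).continuousAt.continuousWithinAt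
  obtain ⟨F, h13, h14⟩ := ((isCompact_closedBall (0 : Fin n → ℂ) r).of_isClosed_subset
    (hgc.preimage_isClosed_of_isClosed Metric.isClosed_closedBall (isClosed_singleton (x := w)))
    inter_subset_left).elim_nhds_subcover (fun u => {y | g y = w → y = u}) fun u hu => by
      have a1 : Tendsto (fun y : Fin n → ℂ => y - u) (𝓝 u) (𝓝 0) :=
        (continuous_sub_right u).tendsto' _ _ (sub_self u)
      exact (a1.eventually (h12 u (mem_closedBall_zero_iff.1 hu.1) hu.2).germ.ev).mono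
        fun y hy e => sub_eq_zero.1 (hy.2 (by rw [sub_add_cancel, e, sub_self]))
  have h15 : ∀ z, ‖z‖ ≤ r → g z = w → z ∈ F := fun z hz e => by
    obtain ⟨u, hu, a1⟩ := mem_iUnion₂.1 (h14 ⟨mem_closedBall_zero_iff.2 hz, e⟩)
    rwa [show z = u from a1 e]
  have h16 : ∀ l ∈ Icc (0 : ℝ) 1, ∀ z, ‖z‖ = r → θ z - l • (μ • z + w) ≠ 0 := fun l hl z hz e => by
    have a1 := h2 z (mem_sphere_zero_iff_norm.2 hz)
    have a2 := norm_add_le (μ • z) w
    rw [norm_smul, hz] at a2
    simp only [sub_eq_zero.1 e, norm_smul, Real.norm_of_nonneg hl.1] at a1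
    linarith [(lt_div_iff₀ hr).1 (mem_ball_zero_iff.1 h3), mem_ball_zero_iff.1 h10,
      mul_le_of_le_one_left (norm_nonneg (μ • z + w)) hl.2]
  have e1 : ∀ z, θ z - (1 : ℝ) • (μ • z + w) = g z - w := fun z => by rw [one_smul, ← sub_sub]
  have h17 := locCo_sum (θ := fun x => θ x.2 - x.1 • (μ • x.2 + w)) hr
    (ContinuousOn.sub (fun x hx => (ContinuousAt.comp (g := θ)
      (h1 _ (mem_closedBall_zero_iff.1 hx.2)).2.1 continuousAt_snd).continuousWithinAt)
      (by fun_prop)) h16 (F := {0}) (F' := F) (d := fun _ => c) (d' := fun _ => 1)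
    (fun z hz e => Finset.mem_singleton.2 ((h1 z hz).2.2 (by simpa using e)))
    (fun z hz e => h15 z hz (sub_eq_zero.1 ((e1 z).symm.trans e)))
    (by simpa using hr) (fun u hu => mem_ball_zero_iff.2
      ((mem_closedBall_zero_iff.1 (h13 u hu).1).lt_of_ne fun e =>
        h16 1 ⟨zero_le_one, le_rfl⟩ u e ((e1 u).trans (sub_eq_zero.2 (h13 u hu).2))))
    (fun u hu => hc.pull_congr (Eventually.of_forall fun z => by
      simp [Finset.mem_singleton.1 hu]))
    fun u hu => (h12 u (mem_closedBall_zero_iff.1 (h13 u hu).1) (h13 u hu).2).co.pull_congr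
      (Eventually.of_forall fun z => e1 _)
  rw [Finset.sum_singleton, Finset.sum_const, nsmul_one] at h17
  exact ⟨F.card, Finset.card_ne_zero_of_mem (h15 z₀ (mem_ball_zero_iff.1 h8).le h9), h17 ▸ hc⟩

end Vale.Agent.P269.Orb
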