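import Vale.Agent.P269.Orb.Hol

set_option linter.all false

/-!
# Cohomological dimension: minimal carriers, the sum theorem, images, quotients
-/

namespace Vale.Agent.P269.Orb

open Set Topology Filter Vale.Agent.P291Z

variable {X Y Z U : Type} [TopologicalSpace X] [TopologicalSpace Y] [TopologicalSpace Z]
  [TopologicalSpace U] {k l : ℤ} {A B : Set X}

/-- the locally closed subsets of `A` have no cohomology with compact supports above degree `k` -/
def CD (k : ℤ) (A : Set X) : Prop := ∀ V ⊆ A, IsLocallyClosed V → Top V k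

theorem CD.mono (h : CD k B) (e : A ⊆ B) : CD k A := fun V hV => h V (hV.trans e)

theorem CD.le (h : CD k A) (e : k ≤ l) : CD l A := fun V hV hl => (h V hV hl).mono e

theorem cd_empty : CD k (∅ : Set X) := fun V hV _ => by
  rw [subset_empty_iff.1 hV]
  exact Top.of_isEmpty k

namespace Dim

theorem lc_range [T2Space X] [LocallyCompactSpace Z] {i : Z → X} (hi : IsEmbedding i) :
    IsLocallyClosed (range i) := by
  refine ((isLocallyClosed_tfae _).out 3 0).1 ?_
  rintro _ ⟨z, rfl⟩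
  obtain ⟨K, hK, hz⟩ := exists_compact_mem_nhds z
  rw [hi.nhds_eq_comap] at hz
  obtain ⟨W, hW, hWK⟩ := hz
  refine ⟨interior W, mem_interior_iff_mem_nhds.2 hW, isOpen_interior,
    isOpen_interior.inter_closure.trans ((closure_minimal ?_
      (hK.image hi.continuous).isClosed).trans (image_subset_range i K))⟩
  rintro _ ⟨h1, y, rfl⟩
  exact ⟨y, hWK (interior_subset (s := W) h1), rfl⟩

theorem top_of_range {i : Z → X} (hi : IsEmbedding i) (h : Top Z k) {V : Set X}
    (e : range i = V) : Top V k := e ▸ h.of_homeomorph hi.toHomeomorph.symm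

theorem top_pt [Subsingleton X] : Top X 0 := by
  cases isEmpty_or_nonempty X
  · exact Top.of_isEmpty 0
  · exact (isGen_one acyc_of_subsingleton).top

theorem nice_closed [Nice X] (h : IsClosed A) : Nice A := Nice.of_isLocallyClosed h.isLocallyClosed

theorem nice_open [Nice X] (h : IsOpen A) : Nice A := Nice.of_isLocallyClosed h.isLocallyClosed

theorem range_compl (A : Set X) :
    range (Subtype.val : (Aᶜ : Set X) → X) = (range (Subtype.val : A → X))ᶜ := by
  rw [Subtype.range_val, Subtype.range_val]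

theorem dies_iff [Nice X] (hA : IsClosed A) {c : Hc X} :
    cpull (Subtype.val : A → X) c = 0 ↔ ∃ a ∈ Zc X, cls a = c ∧ Disjoint (supp a) A := by
  have hi := hA.isClosedEmbedding_subtypeVal
  have hj := hA.isOpen_compl.isOpenEmbedding_subtypeVal
  rw [cpull_eq (IsPr.of_isClosedEmbedding hi)]
  constructor
  · intro h
    obtain ⟨c', rfl⟩ := (Hc.exact_push_pull hi hj (range_compl A) c).1 h
    obtain ⟨b, h1, h2, rfl⟩ := cls_surj_open' hj c'
    refine ⟨b, h1, (Hc.push_cls hj h1 h2).symm, ?_⟩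
    rw [Subtype.range_val] at h2
    exact subset_compl_iff_disjoint_right.1 h2
  · rintro ⟨a, h1, rfl, h2⟩
    rw [Hc.pull_cls _ h1]
    exact cls_of_mem_Bc (mem_Bc_of_null fun x =>
      Van.pull continuous_subtype_val.continuousAt (disjoint_right.1 h2 x.2))

theorem top_closed [Nice X] (h : Top X k) (hA : IsClosed A) (h' : Top (Aᶜ : Set X) k) :
    Top A k := fun n hn c hc => by
  have hi := hA.isClosedEmbedding_subtypeVal
  have hj := hA.isOpen_compl.isOpenEmbedding_subtypeVal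
  obtain ⟨c', h1, rfl⟩ := Hc.exists_pull_deg hi hj (range_compl A) hc
    (h' _ (by omega) _ (Hc.conn_deg hi hj (range_compl A) hc))
  rw [h n hn c' h1, map_zero]

theorem eq_zero_of_open [Nice X] {W : Set X} (hW : IsOpen W) (h : Top W k) {n : ℤ} (hn : k < n)
    {c : Hc X} (hc : c ∈ Hc.deg X n) (e : cpull (Subtype.val : (Wᶜ : Set X) → X) c = 0) :
    c = 0 := by
  have hi := hW.isClosed_compl.isClosedEmbedding_subtypeVal
  rw [cpull_eq (IsPr.of_isClosedEmbedding hi)] at e
  obtain ⟨c', h1, rfl⟩ := Hc.exists_push_deg hi hW.isOpenEmbedding_subtypeVal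
    (by rw [Subtype.range_val, Subtype.range_val, compl_compl]) hc e
  rw [h n hn c' h1, map_zero]

/-- Mayer-Vietoris for two closed sets -/
theorem eq_zero_of_two [Nice X] (hA : IsClosed A) (hB : IsClosed B) (hAB : Bᶜ ⊆ A)
    (h : Top (A ∩ B : Set X) k) {n : ℤ} (hn : k + 1 < n) {c : Hc X} (hc : c ∈ Hc.deg X n)
    (eA : cpull (Subtype.val : A → X) c = 0) (eB : cpull (Subtype.val : B → X) c = 0) :
    c = 0 := by
  haveI := nice_closed hA
  have hi := hB.isClosedEmbedding_subtypeVal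
  have hj := hB.isOpen_compl.isOpenEmbedding_subtypeVal
  rw [cpull_eq (IsPr.of_isClosedEmbedding hi)] at eB
  obtain ⟨c', h1, rfl⟩ := Hc.exists_push_deg hi hj (range_compl B) hc eB
  have hj' : IsOpenEmbedding (inclusion hAB) :=
    .inclusion hAB (hB.isOpen_compl.preimage continuous_subtype_val)
  have hi' : IsClosedEmbedding (inclusion (inter_subset_left : A ∩ B ⊆ A)) :=
    .inclusion _ ((hA.inter hB).preimage continuous_subtype_val)
  rw [cpull_eq (IsPr.of_isClosedEmbedding hA.isClosedEmbedding_subtypeVal),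
    Hc.pull_push hj hj' _ IsPr.id (fun _ => rfl) (fun x hx => by
      rw [mem_preimage, Subtype.range_val] at hx
      exact ⟨⟨x, hx⟩, rfl⟩), Hc.pull_id _ fun _ => rfl] at eA
  rw [Top.push_inj hi' hj' (by
    ext x
    simp [range_inclusion, x.2]) h hn h1 eA, map_zero]

theorem baire [Nice X] [Nonempty X] {ι : Type} [Countable ι] {A : ι → Set X}
    (hA : ∀ i, IsLocallyClosed (A i)) (h : ⋃ i, A i = univ) :
    ∃ i, ∃ W ⊆ A i, IsOpen W ∧ W.Nonempty := by
  obtain ⟨i, hi⟩ := nonempty_interior_of_iUnion_of_closed (f := fun i => closure (A i))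
    (fun _ => isClosed_closure)
    (eq_univ_of_subset (iUnion_mono fun _ => subset_closure) h)
  exact ⟨i, interior (closure (A i)) ∩ coborder (A i),
    (inter_subset_inter_left _ interior_subset).trans closure_inter_coborder.le,
    isOpen_interior.inter (hA i).isOpen_coborder, dense_coborder.inter_open_nonempty _
      isOpen_interior hi⟩

end Dim

open Dim

theorem CD.top [Nice X] (h : CD k A) {i : Z → X} (hi : IsEmbedding i)
    (hl : IsLocallyClosed (range i)) (e : range i ⊆ A) : Top Z k :=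
  (h _ e hl).of_homeomorph hi.toHomeomorph

theorem CD.top' [Nice X] [Nice Z] (h : CD k A) {i : Z → X} (hi : IsEmbedding i)
    (e : range i ⊆ A) : Top Z k := h.top hi (lc_range hi) e

theorem CD.preimage [Nice X] [Nice Y] {i : Y → X} (hi : IsEmbedding i) (h : CD k A) :
    CD k (i ⁻¹' A) := fun V hV hl =>
  haveI := Nice.of_isLocallyClosed hl
  h.top' (hi.comp IsEmbedding.subtypeVal) (range_subset_iff.2 fun x => hV x.2)

theorem CD.image_emb {i : Y → X} (hi : IsEmbedding i) {B : Set Y} (h : CD k B) :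
    CD k (i '' B) := fun V hV hl =>
  top_of_range (hi.comp IsEmbedding.subtypeVal) (h (i ⁻¹' V)
    ((preimage_mono hV).trans (hi.injective.preimage_image B).le) (hl.preimage hi.continuous)) (by
      rw [range_comp, Subtype.range_val, image_preimage_eq_of_subset
        (hV.trans (image_subset_range _ _))])

theorem CD.range_emb {i : Y → X} (hi : IsEmbedding i) (h : CD k (univ : Set Y)) :
    CD k (range i) := image_univ (f := i) ▸ h.image_emb hi

theorem CD.univ_sub [Nice X] (h : CD k A) (hA : IsLocallyClosed A) : CD k (univ : Set A) :=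
  haveI := Nice.of_isLocallyClosed hA
  (h.preimage IsEmbedding.subtypeVal).mono fun x _ => x.2

theorem exists_minimal [Nice X] {c : Hc X} (hc : c ≠ 0) : ∃ A : Set X, IsClosed A ∧
    cpull (Subtype.val : A → X) c ≠ 0 ∧
      ∀ B, IsClosed B → B ⊂ A → cpull (Subtype.val : B → X) c = 0 := by
  obtain ⟨A, -, hA⟩ := zorn_superset_nonempty
    {A : Set X | IsClosed A ∧ cpull (Subtype.val : A → X) c ≠ 0} (fun C hC hch hne => by
      have h1 : IsClosed (⋂ s : C, s.1) := isClosed_iInter fun s => (hC s.2).1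
      refine ⟨⋂ s : C, s.1, ⟨h1, fun h => ?_⟩, fun s hs => iInter_subset (fun s : C => s.1) ⟨s, hs⟩⟩
      obtain ⟨a, h2, h3, h4⟩ := (dies_iff h1).1 h
      haveI := hne.to_subtype
      obtain ⟨s, hs⟩ := h2.1.elim_directed_family_closed (fun s : C => s.1) (fun s => (hC s.2).1)
        (disjoint_iff_inter_eq_empty.1 h4) fun s t => (hch.total s.2 t.2).elim
          (fun e => ⟨s, Subset.rfl, e⟩) fun e => ⟨t, e, Subset.rfl⟩
      exact (hC s.2).2 ((dies_iff (hC s.2).1).2 ⟨a, h2, h3, disjoint_iff_inter_eq_empty.2 hs⟩))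
    univ ⟨isClosed_univ, fun h => by
      obtain ⟨a, -, rfl, h4⟩ := (dies_iff isClosed_univ).1 h
      exact hc (cls_of_mem_Bc (mem_Bc_of_null fun x => disjoint_right.1 h4 (mem_univ x)))⟩
  exact ⟨A, hA.1.1, hA.1.2, fun B h1 h2 => by_contra fun h3 => h2.2 (hA.2 ⟨h1, h3⟩ h2.1)⟩

/-- it suffices to kill the classes which die on all proper closed subsets -/
theorem cd_of_min [Nice X] (h : ∀ (M : Type) [TopologicalSpace M] [Nice M] (i : M → X),
    IsEmbedding i → range i ⊆ A → ∀ n, k < n → ∀ c ∈ Hc.deg M n,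
      (∀ B : Set M, IsClosed B → B ≠ univ → cpull (Subtype.val : B → M) c = 0) → c = 0) :
    CD k A := fun V hV hl n hn c hc => by
  haveI := Nice.of_isLocallyClosed hl
  by_contra h0
  obtain ⟨M, h1, h2, h3⟩ := exists_minimal h0
  haveI := nice_closed h1
  have hi := h1.isClosedEmbedding_subtypeVal
  refine h2 (h M _ (IsEmbedding.subtypeVal.comp IsEmbedding.subtypeVal)
    (range_subset_iff.2 fun x => hV x.1.2) n hn _ (cpull_deg _ hc) fun B h4 h5 => ?_)
  have h6 := hi.isClosedMap B h4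
  obtain ⟨a, h7, rfl, h8⟩ := (dies_iff h6).1 (h3 _ h6 ⟨Subtype.coe_image_subset _ _, fun e =>
    h5 (eq_univ_of_forall fun x => Subtype.val_injective.mem_set_image.1 (e x.2))⟩)
  have hp := IsPr.of_isClosedEmbedding hi
  refine (dies_iff h4).2 ⟨_, hp.pull_Zc h7, by rw [cpull_eq hp, Hc.pull_cls hp h7],
    disjoint_left.2 fun x hx hx' => disjoint_left.1 h8 (supp_pull hp.cont a hx) ⟨x, hx', rfl⟩⟩

/-- it suffices to find open pieces -/
theorem cd_of_open [Nice X] (h : ∀ (M : Type) [TopologicalSpace M] [Nice M] [Nonempty M]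
    (i : M → X), IsEmbedding i → range i ⊆ A → ∃ W : Set M, IsOpen W ∧ W.Nonempty ∧ Top W k) :
    CD k A := cd_of_min fun M _ _ i hi hr n hn c hc e => by
  cases isEmpty_or_nonempty M
  · exact Top.of_isEmpty k n hn c hc
  · obtain ⟨W, h1, h2, h3⟩ := h M i hi hr
    exact eq_zero_of_open h1 h3 hn hc (e _ h1.isClosed_compl (compl_ne_univ.2 h2))

theorem cd_finite [Nice X] (h : A.Finite) : CD 0 A := cd_of_open fun M _ _ hM i hi hr => by
  haveI : Finite M := (finite_range_iff hi.injective).1 (h.subset hr)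
  obtain ⟨m⟩ := hM
  exact ⟨{m}, isOpen_discrete _, singleton_nonempty m, top_pt⟩

theorem CD.iUnion [Nice X] {ι : Type} [Countable ι] {A : ι → Set X}
    (hA : ∀ i, IsLocallyClosed (A i)) (h : ∀ i, CD k (A i)) : CD k (⋃ i, A i) :=
  cd_of_open fun M _ _ _ i hi hr => by
    obtain ⟨j, W, h1, h2, h3⟩ := baire (A := fun j => i ⁻¹' A j)
      (fun j => (hA j).preimage hi.continuous) (by
        rw [← preimage_iUnion]; exact preimage_eq_univ_iff.2 hr)
    haveI := nice_open h2
    exact ⟨W, h2, h3, (h j).top' (hi.comp IsEmbedding.subtypeVal)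
      (range_subset_iff.2 fun x => h1 x.2)⟩

theorem CD.biUnion [Nice X] {ι : Type} {s : Set ι} (hs : s.Countable) {A : ι → Set X}
    (hA : ∀ i ∈ s, IsLocallyClosed (A i)) (h : ∀ i ∈ s, CD k (A i)) : CD k (⋃ i ∈ s, A i) := by
  haveI := hs.to_subtype
  rw [biUnion_eq_iUnion]
  exact CD.iUnion (fun i : s => hA i i.2) fun i => h i i.2

theorem CD.union [Nice X] (hA : IsLocallyClosed A) (hB : IsLocallyClosed B) (h : CD k A)
    (h' : CD k B) : CD k (A ∪ B) := by
  rw [union_eq_iUnion]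
  exact CD.iUnion (fun b => by cases b <;> assumption) fun b => by cases b <;> assumption

theorem CD.of_locally [Nice X] (h : ∀ x ∈ A, ∃ U ∈ 𝓝 x, CD k (A ∩ U)) : CD k A :=
  cd_of_open fun M _ _ hM i hi hr => by
    obtain ⟨m⟩ := hM
    obtain ⟨U, h1, h2⟩ := h _ (hr (mem_range_self m))
    have h3 : IsOpen (i ⁻¹' interior U) := isOpen_interior.preimage hi.continuous
    haveI := nice_open h3
    exact ⟨_, h3, ⟨m, mem_interior_iff_mem_nhds.2 h1⟩, h2.top' (hi.comp IsEmbedding.subtypeVal)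
      (range_subset_iff.2 fun x => ⟨hr (mem_range_self _), interior_subset x.2⟩)⟩

theorem cd_countable [Nice X] (h : A.Countable) : CD 0 A := by
  rw [← biUnion_of_singleton A]
  exact CD.biUnion h (fun _ _ => isClosed_singleton.isLocallyClosed)
    fun x _ => cd_finite (finite_singleton x)

/-- `A` is covered by countably many locally closed sets of dimension at most `k` -/
def SCD (k : ℤ) (A : Set X) : Prop :=
  ∃ s : Set (Set X), s.Countable ∧ (∀ K ∈ s, IsLocallyClosed K ∧ CD k K) ∧ A ⊆ ⋃₀ s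

theorem SCD.cd [Nice X] (h : SCD k A) : CD k A := by
  obtain ⟨s, h1, h2, h3⟩ := h
  rw [sUnion_eq_biUnion] at h3
  exact (CD.biUnion h1 (fun K hK => (h2 K hK).1) fun K hK => (h2 K hK).2).mono h3

theorem CD.scd (h : CD k A) (hA : IsLocallyClosed A) : SCD k A :=
  ⟨{A}, countable_singleton A, by rintro _ rfl; exact ⟨hA, h⟩, (sUnion_singleton A).ge⟩

theorem SCD.mono (h : SCD k B) (e : A ⊆ B) : SCD k A :=
  let ⟨s, h1, h2, h3⟩ := h; ⟨s, h1, h2, e.trans h3⟩

theorem SCD.le (h : SCD k A) (e : k ≤ l) : SCD l A :=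
  let ⟨s, h1, h2, h3⟩ := h; ⟨s, h1, fun K hK => ⟨(h2 K hK).1, (h2 K hK).2.le e⟩, h3⟩

theorem SCD.iUnion {ι : Type} [Countable ι] {A : ι → Set X} (h : ∀ i, SCD k (A i)) :
    SCD k (⋃ i, A i) := by
  choose s h1 h2 h3 using h
  refine ⟨⋃ i, s i, countable_iUnion h1, fun K hK => ?_, iUnion_subset fun i =>
    (h3 i).trans (sUnion_mono (subset_iUnion s i))⟩
  obtain ⟨i, hi⟩ := mem_iUnion.1 hK
  exact h2 i K hi

theorem SCD.union (h : SCD k A) (h' : SCD k B) : SCD k (A ∪ B) := by
  rw [union_eq_iUnion]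
  exact SCD.iUnion fun b => by cases b <;> assumption

theorem scd_range [Nice X] [Nice Y] {f : Y → X}
    (hf : ∀ y, ∃ U ∈ 𝓝 y, ContinuousOn f U ∧ InjOn f U) (h : CD k (univ : Set Y)) :
    SCD k (range f) := by
  have ex : ∀ y, ∃ K ∈ 𝓝 y, IsLocallyClosed (f '' K) ∧ CD k (f '' K) := fun y => by
    obtain ⟨U, h1, h2, h3⟩ := hf y
    obtain ⟨K, h4, h5, h6⟩ := local_compact_nhds h1
    haveI := isCompact_iff_compactSpace.1 h6
    have h7 := (h2.mono h5).domRestrict.isClosedEmbedding (h3.mono h5).injective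
    refine ⟨K, h4, ?_⟩
    rw [← range_domRestrict]
    exact ⟨h7.isClosed_range.isLocallyClosed,
      ((h.mono (subset_univ K)).univ_sub h6.isClosed.isLocallyClosed).range_emb h7.isEmbedding⟩
  choose K h1 h2 using ex
  obtain ⟨s, h3, h4⟩ := TopologicalSpace.countable_cover_nhds h1
  refine ⟨(fun y => f '' K y) '' s, h3.image _, by rintro _ ⟨y, -, rfl⟩; exact h2 y, ?_⟩
  rintro _ ⟨y, rfl⟩
  obtain ⟨z, hz, hy⟩ := mem_iUnion₂.1 (h4.ge (mem_univ y))
  exact ⟨_, ⟨z, hz, rfl⟩, y, hy, rfl⟩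

theorem CD.scd_image [Nice X] [Nice Y] {f : Y → X} {B : Set Y} (hB : IsLocallyClosed B)
    (hf : ∀ y ∈ B, ∃ U ∈ 𝓝[B] y, ContinuousOn f U ∧ InjOn f U) (h : CD k B) :
    SCD k (f '' B) := by
  haveI := Nice.of_isLocallyClosed hB
  rw [← range_domRestrict]
  refine scd_range (fun y => ?_) (h.univ_sub hB)
  obtain ⟨U, h1, h2, h3⟩ := hf y y.2
  exact ⟨Subtype.val ⁻¹' U, preimage_coe_mem_nhds_subtype.2 h1,
    h2.comp continuous_subtype_val.continuousOn fun _ h => h,
    h3.comp Subtype.val_injective.injOn fun _ h => h⟩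

theorem CD.image [Nice X] [Nice Y] {f : Y → X} {B : Set Y} (hB : IsLocallyClosed B)
    (hf : ∀ y ∈ B, ∃ U ∈ 𝓝[B] y, ContinuousOn f U ∧ InjOn f U) (h : CD k B) : CD k (f '' B) :=
  (h.scd_image hB hf).cd

theorem CD.of_cover [Nice X] {ι : Type} [Countable ι] {Y : ι → Type} [∀ i, TopologicalSpace (Y i)]
    [∀ i, Nice (Y i)] {f : ∀ i, Y i → X} (hf : ∀ i, Continuous (f i))
    (hi : ∀ i y, ∃ U ∈ 𝓝 y, InjOn (f i) U) (h : ∀ i, CD k (univ : Set (Y i))) :
    CD k (⋃ i, range (f i)) :=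
  (SCD.iUnion fun i => scd_range (fun y => let ⟨U, h1, h2⟩ := hi i y
    ⟨U, h1, (hf i).continuousOn, h2⟩) (h i)).cd

theorem cd_of_top_open [Nice X] (h : ∀ U : Set X, IsOpen U → Top U k) :
    CD k (univ : Set X) := fun V _ hl => by
  have h1 := hl.isOpen_coborder
  haveI := nice_open h1
  have h2 := isClosed_preimage_val_coborder (s := V)
  have h3 := h1.isOpenEmbedding_subtypeVal.comp h2.isOpen_compl.isOpenEmbedding_subtypeVal
  refine top_of_range (IsEmbedding.subtypeVal.comp IsEmbedding.subtypeVal)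
    (top_closed (h _ h1) h2 ((h _ h3.isOpen_range).of_homeomorph h3.isEmbedding.toHomeomorph)) ?_
  rw [range_comp, Subtype.range_val, Subtype.image_preimage_coe, inter_eq_right.2 subset_coborder]

theorem Ori.cd [Nice X] {d : ℤ} {β : BM X} (h : Ori d β) : CD d (univ : Set X) :=
  cd_of_top_open fun U hU =>
    haveI := nice_open hU
    (h.res hU.isOpenEmbedding_subtypeVal).top

theorem IsUC.cd {Γ : Type} [Group Γ] {a : Γ → U → U} {q : U → X} [Nice X] [Nice U] [Fintype Γ]
    (h : IsUC a q) {A : Set X} (hA : A ⊆ range q) (hc : CD k (q ⁻¹' A)) : CD k A :=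
  fun V hV hl n hn c hd => by
    haveI := Nice.of_isLocallyClosed hl
    have h1 := hl.preimage h.cont
    haveI := Nice.of_isLocallyClosed h1
    have h2 : Function.Surjective (V.restrictPreimage q) := fun x => by
      obtain ⟨u, hu⟩ := hA (hV x.2)
      exact ⟨⟨u, by rw [mem_preimage, hu]; exact x.2⟩, Subtype.ext hu⟩
    have h3 := (h.restrict V).isPr h2
    exact (h.restrict V).pull_injective h2 h3
      ((hc _ (preimage_mono hV) h1 n hn _ (Hc.pull_deg h3 hd)).trans (map_zero _).symm)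

namespace HolOrb

variable {G T E : Type} [Group G] [TopologicalSpace G] [TopologicalSpace T] [MulAction G T]
  [NormedAddCommGroup E] [NormedSpace ℂ E] {n : ℕ} {ι : T → E} {π : T → X}

theorem cd (h : HolOrb G ι n) (hπ : IsQuo G π) : CD (2 * n) (univ : Set X) :=
  haveI := h.niceX hπ
  (h.ori hπ).cd

theorem cd_of_slices (h : HolOrb G ι n) (hπ : IsQuo G π) {A : Set X}
    (e : ∀ t, π t ∈ A → ∃ φ : (Fin n → ℂ) → T, IsSlice G ι φ ∧ φ 0 = t ∧
      ∃ U ∈ 𝓝 (0 : Fin n → ℂ), CD k (U ∩ (π ∘ φ) ⁻¹' A)) : CD k A := by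
  haveI := h.niceX hπ
  haveI := h.grp
  haveI := h.proper
  refine CD.of_locally fun x hx => ?_
  obtain ⟨t, rfl⟩ := hπ.surj x
  obtain ⟨φ, h1, rfl, U, h2, h3⟩ := e t hx
  obtain ⟨hf, W, a, c, h4, h5, h6, h7⟩ := exists_ts h1.1 h2
  haveI := Fintype.ofFinite (MulAction.stabilizer G (φ 0))
  haveI := nice_open h4
  have h8 := h7.isUC hπ
  exact ⟨_, h8.isOpen_range.mem_nhds ⟨⟨0, h5⟩, rfl⟩, h8.cd inter_subset_right
    ((h3.preimage IsEmbedding.subtypeVal).mono fun u hu => ⟨h6 u.2, hu.1⟩)⟩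

end HolOrb

end Vale.Agent.P269.Orb
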