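import Vale.Agent.P269.Orb.LG

set_option linter.all false

/-!
# Local cohomologies, homotopy invariance, commutation of localised Gysin maps
-/

namespace Vale.Agent.P269.Orb

open Set Topology Filter Vale.Agent.P291Z unitInterval

variable {X Y Z X' Y' Z' : Type} [TopologicalSpace X] [TopologicalSpace Y] [TopologicalSpace Z]
  [TopologicalSpace X'] [TopologicalSpace Y'] [TopologicalSpace Z'] {A A' B B' C : Set X}
  {a a' b b' t t' t'' : Coch X}

theorem Isol.refl (A : Set X) : Isol A A := Isol.of_subset Subset.rfl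

theorem Isol.inter (h : Isol A A') (h' : Isol B B') : Isol (A ∩ B) (A' ∩ B') :=
  fun x hx => ((h x hx.1).and (h' x hx.2)).mono fun _ h1 h2 => ⟨h1.1 h2.1, h1.2 h2.2⟩

theorem Isol.trans (h : Isol A B) (e : A ⊆ B) (h' : Isol B C) : Isol A C :=
  fun x hx => ((h x hx).and (h' x (e hx))).mono fun _ h1 h2 => h1.1 (h1.2 h2)

theorem Isol.of_open {j : X' → X} (hj : IsOpenEmbedding j) (hA : A ⊆ range j)
    (h : Isol (j ⁻¹' A) (j ⁻¹' B)) : Isol A B := fun x hx => by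
  obtain ⟨y, rfl⟩ := hA hx
  rw [← hj.map_nhds_eq]
  exact h y hx

theorem Isol.image {i : Y → X} (hi : IsInducing i) {S : Set Y} (h : Isol S (i ⁻¹' B)) :
    Isol (i '' S) (range i ∩ B) := by
  rintro _ ⟨y, hy, rfl⟩
  have := h y hy
  rw [hi.nhds_eq_comap, eventually_comap] at this
  exact this.mono (by rintro _ h1 ⟨⟨w, rfl⟩, h2⟩; exact ⟨w, h1 w rfl h2, rfl⟩)

theorem Isol.of_isOpen {O : Set X} (hO : IsOpen O) (h : A ⊆ O) (e : O ∩ B ⊆ A) : Isol A B :=
  fun _ hx => mem_of_superset (hO.mem_nhds (h hx)) fun _ h1 h2 => e ⟨h1, h2⟩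

theorem Isol.exists_isOpen (h : Isol A B) : ∃ O, IsOpen O ∧ A ⊆ O ∧ O ∩ B ⊆ A :=
  let ⟨O, h1, h2, h3⟩ := exists_open_of_eventually h
  ⟨O, h1, h2, fun y hy => h3 y hy.1 hy.2⟩

theorem LCo.mono (h : LCo A t) (e : B ⊆ A) (e' : Isol B A) : LCo B t :=
  ⟨fun x hx => h.cyc x (e hx), e'.trans e h.isol⟩

theorem LCo.mul (ha : LCo A a) (hb : LCo B b) : LCo (A ∩ B) (a * b) :=
  ⟨fun x hx => van_δ_mul (ha.cyc x hx.1) (hb.cyc x hx.2), (ha.isol.inter hb.isol).mono (supp_mul _ _)⟩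

theorem LCo.univ (h : supp (δ t) = ∅) : LCo univ t := LCo.of_supp h (subset_univ _)

theorem LCo.of_isCo {d : ℕ} (h : IsCo A d t) : LCo A t := LCo.of_supp h.cocycle h.supp

theorem LCo.of_isCo' {d : ℕ} (h : IsCo B d t) (e : Isol A B) : LCo A t :=
  LCo.of_cocycle h.cocycle (e.mono h.supp)

theorem LCo.of_open {j : X' → X} (hj : IsOpenEmbedding j) (hA : A ⊆ range j)
    (h : LCo (j ⁻¹' A) (P291Z.pull j t)) : LCo A t :=
  ⟨fun x hx => by
    obtain ⟨y, rfl⟩ := hA hx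
    exact van_of_pull hj (by rw [← δ_pull]; exact h.cyc y hx),
  Isol.of_open hj hA (h.isol.mono fun y hy => by_contra fun h1 => van_of_pull hj h1 hy)⟩

theorem LCo.isCo [Nice X] (hA : IsClosed A) (h : LCo A t) {d : ℕ} (hd : IsDeg (2 * d) t) :
    IsCo A d (Orb.loc A t) ∧ ∀ x ∈ A, t - Orb.loc A t ∈ Van x :=
  have h1 := loc_spec hA h.isol
  ⟨⟨cocycle_of_supp h.cyc h1.1 h1.2, loc_deg _ hd, h1.1⟩, h1.2⟩

/-- `t` and `t'` are cohomologous near `A` through a cochain supported in `A` near `A` -/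
def LCoh (A : Set X) (t t' : Coch X) : Prop :=
  ∃ c, Isol A (supp c) ∧ ∀ x ∈ A, t - t' - δ c ∈ Van x

namespace LCoh

theorem of_van (h : ∀ x ∈ A, t - t' ∈ Van x) : LCoh A t t' :=
  ⟨0, Isol.of_subset (by rw [supp_zero]; exact empty_subset _), by rwa [map_zero, sub_zero]⟩

theorem refl (A : Set X) (t : Coch X) : LCoh A t t := of_van fun x _ => van_refl x t

theorem of_eq (h : t = t') : LCoh A t t' := h ▸ refl A t

theorem symm (h : LCoh A t t') : LCoh A t' t := by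
  obtain ⟨c, h1, h2⟩ := h
  refine ⟨-c, by rwa [supp_neg], fun x hx => ?_⟩
  have := (Van x).neg_mem (h2 x hx)
  rw [map_neg]
  convert this using 1
  abel

theorem trans (h : LCoh A t t') (h' : LCoh A t' t'') : LCoh A t t'' := by
  obtain ⟨c, h1, h2⟩ := h
  obtain ⟨c', h3, h4⟩ := h'
  refine ⟨c + c', (h1.union h3).mono (supp_add _ _), fun x hx => ?_⟩
  have := (Van x).add_mem (h2 x hx) (h4 x hx)
  rw [map_add]
  convert this using 1
  abel

theorem add (h : LCoh A a a') (h' : LCoh A b b') : LCoh A (a + b) (a' + b') := by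
  obtain ⟨c, h1, h2⟩ := h
  obtain ⟨c', h3, h4⟩ := h'
  refine ⟨c + c', (h1.union h3).mono (supp_add _ _), fun x hx => ?_⟩
  have := (Van x).add_mem (h2 x hx) (h4 x hx)
  rw [map_add]
  convert this using 1
  abel

theorem smul (h : LCoh A a a') (z : ℂ) : LCoh A (z • a) (z • a') := by
  obtain ⟨c, h1, h2⟩ := h
  exact ⟨z • c, h1.mono (supp_smul _ _), fun x hx => by
    rw [map_smul, ← smul_sub, ← smul_sub]; exact (Van x).smul_mem z (h2 x hx)⟩

theorem of_cohom (e : Isol A B) (h : Cohom B t t') : LCoh A t t' :=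
  let ⟨c, h1, h2⟩ := h
  ⟨c, e.mono h1, fun x _ => supp_eq_empty.1 h2 x⟩

theorem mono (h : LCoh A t t') (e : B ⊆ A) (e' : Isol B A) : LCoh B t t' :=
  let ⟨c, h1, h2⟩ := h
  ⟨c, e'.trans e h1, fun x hx => h2 x (e hx)⟩

theorem lco (h : LCoh A t t') (h' : LCo A t') : LCo A t := by
  obtain ⟨c, h1, h2⟩ := h
  refine LCo.congr (t := t' + δ c) ⟨fun x hx => ?_, (h'.isol.union (h1.mono (supp_δ c))).mono
    (supp_add _ _)⟩ fun x hx => ?_
  · rw [map_add, δ_δ, add_zero]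
    exact h'.cyc x hx
  · rw [← sub_sub]
    exact h2 x hx

theorem pull (h : LCoh A t t') {f : Y → X} (hf : Continuous f) :
    LCoh (f ⁻¹' A) (P291Z.pull f t) (P291Z.pull f t') :=
  let ⟨c, h1, h2⟩ := h
  ⟨P291Z.pull f c, (h1.preimage hf).mono (supp_pull hf c), fun x hx => by
    rw [δ_pull, ← map_sub, ← map_sub]
    exact Van.pull hf.continuousAt (h2 _ hx)⟩

theorem mul_right (h : LCoh A a a') (hb : LCo B b) : LCoh (A ∩ B) (a * b) (a' * b) := by
  obtain ⟨c, h1, h2⟩ := h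
  refine ⟨c * b, (h1.inter hb.isol).mono (supp_mul _ _), fun x hx => ?_⟩
  rw [show a * b - a' * b - δ (c * b) = (a - a' - δ c) * b - par c * δ b by
    rw [δ_mul]; noncomm_ring]
  exact (Van x).sub_mem (Van.mul_right (h2 x hx.1) _) (Van.mul_left (hb.cyc x hx.2) _)

theorem mul_left (h : LCoh B b b') (ha : LCo A a) : LCoh (A ∩ B) (a * b) (a * b') := by
  obtain ⟨c, h1, h2⟩ := h
  refine ⟨par a * c, (ha.isol.inter h1).mono ((supp_mul _ _).trans
    (inter_subset_inter_left _ (supp_par a))), fun x hx => ?_⟩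
  rw [show a * b - a * b' - δ (par a * c) = a * (b - b' - δ c) + par (δ a) * c by
    rw [δ_mul, par_par, δ_par]; noncomm_ring]
  exact (Van x).add_mem (Van.mul_left (h2 x hx.2) _) (Van.mul_right (Van.par (ha.cyc x hx.1)) _)

theorem mul (h : LCoh A a a') (h' : LCoh B b b') (ha : LCo A a') (hb : LCo B b') :
    LCoh (A ∩ B) (a * b) (a' * b') := (h.mul_right (h'.lco hb)).trans (h'.mul_left ha)

theorem of_open {j : X' → X} (hj : IsOpenEmbedding j) (hA : A ⊆ range j)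
    (h : LCoh (j ⁻¹' A) (P291Z.pull j t) (P291Z.pull j t')) : LCoh A t t' := by
  rcases isEmpty_or_nonempty X' with h0 | h0
  · exact of_van fun x hx => let ⟨y, _⟩ := hA hx; isEmptyElim y
  obtain ⟨c, h1, h2⟩ := h
  obtain ⟨c, rfl⟩ := exists_pull_eq hj.injective c
  refine ⟨c, Isol.of_open hj hA (h1.mono fun y hy => by_contra fun h3 => van_of_pull hj h3 hy),
    fun x hx => ?_⟩
  obtain ⟨y, rfl⟩ := hA hx
  refine van_of_pull hj ?_
  rw [map_sub, map_sub, ← δ_pull]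
  exact h2 y hx

theorem of_hcls (h : supp (δ t) = ∅) (h' : supp (δ t') = ∅) (e : hcls t = hcls t') :
    LCoh univ t t' :=
  let ⟨c, hc⟩ := (hcls_eq_iff h h').1 e
  ⟨c, Isol.of_subset (subset_univ _), fun x _ => supp_eq_empty.1 hc x⟩

theorem hcls_pull (h : LCoh A t t') {f : Y → X} (hf : Continuous f) (e : ∀ y, f y ∈ A)
    (h' : ∀ x ∈ A, δ t' ∈ Van x) : hcls (P291Z.pull f t) = hcls (P291Z.pull f t') :=
  let ⟨_, _, h2⟩ := h.pull hf
  hcls_eq_of_cohom (supp_eq_empty.2 fun y => van_δ_pull hf.continuousAt (h' _ (e y)))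
    (supp_eq_empty.2 fun y => h2 y (e y))

variable [Nice X]

theorem cohom (h : LCoh A t t') (hA : IsClosed A) (hs : supp t ⊆ A) (hs' : supp t' ⊆ A) :
    Cohom A t t' := by
  obtain ⟨c, h1, h2⟩ := h
  obtain ⟨h3, h4⟩ := loc_spec hA h1
  refine ⟨_, h3, supp_eq_empty.2 (van_of_supp ((supp_sub _ _).trans (union_subset hs hs'))
    ((supp_δ _).trans h3) fun x hx => ?_)⟩
  have := (Van x).add_mem (h2 x hx) (Van.δ (h4 x hx))
  rwa [map_sub, sub_add_sub_cancel] at this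

theorem comm (hA : IsClosed A) (hB : IsClosed B) (ha : LCo A a) (hb : LCo B b) {d : ℤ}
    (hd : IsDeg (2 * d) b) : LCoh (A ∩ B) (a * b) (b * a) := by
  obtain ⟨h1, h2⟩ := loc_spec hA ha.isol
  obtain ⟨h3, h4⟩ := loc_spec hB hb.isol
  exact ((of_van fun x hx => van_mul_congr (h2 x hx.1) (h4 x hx.2)).trans (of_cohom
    (Isol.of_subset (inter_subset_inter h1 h3)) (cohom_comm_even (cocycle_of_supp ha.cyc h1 h2)
      (cocycle_of_supp hb.cyc h3 h4) (loc_deg _ hd)))).trans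
    (of_van fun x hx => van_symm (van_mul_congr (h4 x hx.2) (h2 x hx.1)))

theorem lgys {i : Z → X} (h : LCoh (range i) t t') (hi : IsClosedEmbedding i)
    (ht : LCo (range i) t') : Orb.lgys i t = Orb.lgys i t' :=
  let ⟨_, h1, h2⟩ := id h
  lgys_congr hi (h.lco ht) ht h1 fun z => h2 _ ⟨z, rfl⟩

end LCoh

instance : Nice I := ⟨inferInstance, inferInstance, inferInstance⟩

theorem map_snd_bijective (X : Type) [TopologicalSpace X] [Nice X] :
    Function.Bijective (H.map (ContinuousMap.snd : C(I × X, X))) :=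
  H.map_bijective_of_acyc isPr_snd (fun x => isFib_snd x) (fun _ => inferInstance)
    fun _ => acyc_unitInterval

/-- **homotopy invariance** of cohomology with supports -/
theorem LCoh.homotopy [Nice X] (hA : IsClosed A) {c : Coch (I × X)} (hc : LCo (Prod.snd ⁻¹' A) c) :
    LCoh A (P291Z.pull (Prod.mk 0) c) (P291Z.pull (Prod.mk 1) c) := by
  have hm : ∀ s : I, Continuous (Prod.mk s : X → I × X) := Continuous.prodMk_right
  obtain ⟨h1, h2⟩ := loc_spec (hA.preimage continuous_snd) hc.isol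
  have h3 := cocycle_of_supp hc.cyc h1 h2
  generalize Orb.loc _ c = c' at h1 h2 h3
  obtain ⟨b, hb⟩ := (map_snd_bijective X).2 (hcls c')
  obtain ⟨b, h4, rfl⟩ := hcls_surj b
  rw [H.map_hcls _ h4] at hb
  obtain ⟨e, he⟩ := (hcls_eq_iff h3 (cocycle_pull continuous_snd h4)).1 hb.symm
  suffices ∃ b' e', supp e' ⊆ Prod.snd ⁻¹' A ∧ ∀ x, c' - P291Z.pull Prod.snd b' - δ e' ∈ Van x by
    obtain ⟨b', e', h5, h6⟩ := this
    have h7 : ∀ s : I, LCoh A (P291Z.pull (Prod.mk s) c) b' := fun s =>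
      (LCoh.of_van fun x hx => van_pull_sub (hm s).continuousAt (h2 _ hx)).trans
        ⟨P291Z.pull (Prod.mk s) e', Isol.of_subset fun x hx => h5 (supp_pull (hm s) _ hx),
          fun x _ => by
            have := Van.pull (hm s).continuousAt (h6 (s, x))
            rwa [map_sub, map_sub, pull_pull, ← δ_pull,
              show Prod.snd ∘ Prod.mk s = id from rfl, pull_id] at this⟩
    exact (h7 0).trans (h7 1).symm
  rcases isEmpty_or_nonempty (Aᶜ : Set X) with h0 | h0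
  · exact ⟨b, e, fun x _ => by_contra fun h => h0.false ⟨_, h⟩, supp_eq_empty.1 he⟩
  haveI : Nice (Aᶜ : Set X) := Nice.of_isLocallyClosed hA.isOpen_compl.isLocallyClosed
  have hj := hA.isOpen_compl.isOpenEmbedding_subtypeVal
  have hJ : IsOpenEmbedding (Prod.map id Subtype.val : I × (Aᶜ : Set X) → I × X) :=
    IsOpenEmbedding.id.prodMap hj
  have e1 : ∀ u : Coch X, P291Z.pull (Prod.map id Subtype.val : I × (Aᶜ : Set X) → I × X)
      (P291Z.pull Prod.snd u) = P291Z.pull Prod.snd (P291Z.pull Subtype.val u) := fun u => by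
    rw [pull_pull, pull_pull]; rfl
  have e2 : ∀ x, P291Z.pull Prod.snd (P291Z.pull (Subtype.val : (Aᶜ : Set X) → X) b) +
      δ (P291Z.pull (Prod.map id Subtype.val : I × (Aᶜ : Set X) → I × X) e) ∈ Van x := fun x => by
    have := (Van x).sub_mem (Van.pull hJ.continuous.continuousAt (fun h => x.2.2 (h1 h) : c' ∈ Van _))
      (Van.pull hJ.continuous.continuousAt (supp_eq_empty.1 he _))
    rwa [map_sub, map_sub, sub_sub, sub_sub_cancel, e1, ← δ_pull] at this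
  have h5 := cocycle_pull hj.continuous h4
  obtain ⟨f, hf⟩ := (hcls_eq_zero h5).1 ((map_snd_bijective _).1 (by
    rw [H.map_hcls _ h5, map_zero]
    exact (hcls_eq_zero (cocycle_pull continuous_snd h5)).2 ⟨-_, supp_eq_empty.2 fun x => by
      rw [map_neg, sub_neg_eq_add]; exact e2 x⟩))
  obtain ⟨f, rfl⟩ := exists_pull_eq hj.injective f
  have h6 : supp (δ (P291Z.pull (Prod.map id Subtype.val : I × (Aᶜ : Set X) → I × X)
      (e + P291Z.pull Prod.snd f))) = ∅ := supp_eq_empty.2 fun x => by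
    have := (Van x).sub_mem (e2 x) (Van.pull continuous_snd.continuousAt (supp_eq_empty.1 hf x.2))
    rw [map_sub, ← δ_pull] at this
    rw [map_add, map_add, e1]
    convert this using 1
    abel
  obtain ⟨g, hg⟩ := (map_snd_bijective _).2 (hcls (P291Z.pull
    (Prod.map id Subtype.val : I × (Aᶜ : Set X) → I × X) (e + P291Z.pull Prod.snd f)))
  obtain ⟨g, h7, rfl⟩ := hcls_surj g
  rw [H.map_hcls _ h7] at hg
  obtain ⟨u, hu⟩ := (hcls_eq_iff h6 (cocycle_pull continuous_snd h7)).1 hg.symm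
  obtain ⟨g, rfl⟩ := exists_pull_eq hj.injective g
  obtain ⟨u, rfl⟩ := exists_pull_eq hJ.injective u
  refine ⟨b - δ f + δ g, e + P291Z.pull Prod.snd f - P291Z.pull Prod.snd g - δ u,
    fun x hx => by_contra fun h => ?_, fun x => ?_⟩
  · refine van_of_pull hJ (x := (x.1, ⟨x.2, h⟩)) ?_ hx
    rw [map_sub, map_sub, e1, ← δ_pull]
    exact supp_eq_empty.1 hu _
  · have := supp_eq_empty.1 he x
    rw [map_sub, map_sub, map_add, map_add, map_sub, δ_δ, δ_pull, δ_pull]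
    convert this using 1
    abel

section gys

variable [Nice X] [Nice Y] [Nice Y']

/-- **commutation** of localised Gysin maps -/
theorem lgys_comm {i : Y → X} (hi : IsClosedEmbedding i) {j : Y' → X} (hj : IsClosedEmbedding j)
    {i' : Z → Y'} (hi' : IsClosedEmbedding i') {j' : Z → Y} (hj' : IsClosedEmbedding j')
    (hsq : ∀ z, i (j' z) = j (i' z)) (hr : Isol (range j') (i ⁻¹' range j)) {s t : Coch X}
    (ht : LCo (range i) t) (hs : LCo (range j) s) {d : ℤ} (hd : IsDeg (2 * d) t) (β : BM X) :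
    lgys j' (pull i s) (lgys i t β) = lgys i' (pull j t) (lgys j s β) := by
  have e : i ∘ j' = j ∘ i' := funext hsq
  have h1 : Isol (range (i ∘ j')) (range i ∩ range j) := by
    rw [range_comp]; exact hr.image hi.isInducing
  have h2 : range (i ∘ j') ⊆ range i ∩ range j := by
    rintro _ ⟨z, rfl⟩; exact ⟨⟨_, rfl⟩, _, (hsq z).symm⟩
  have h3 : Isol (range i') (j ⁻¹' range i) := by
    have := h1.preimage hj.continuous
    rw [e, range_comp, preimage_image_eq _ hj.injective] at this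
    exact this.mono fun y hy => ⟨hy, y, rfl⟩
  obtain ⟨h4, h5⟩ := lgys_lgys hi ht hj' (s := s) (fun z => hs.cyc _ ⟨_, (hsq z).symm⟩)
    (hr.trans (by rintro _ ⟨z, rfl⟩; exact ⟨_, (hsq z).symm⟩) (hs.isol.preimage hi.continuous)) β
  rw [h5, (lgys_lgys hj hs hi' (s := t) (fun z => ht.cyc _ ⟨_, hsq z⟩)
    (h3.trans (by rintro _ ⟨z, rfl⟩; exact ⟨_, hsq z⟩) (ht.isol.preimage hj.continuous)) β).2, ← e,
    ((LCoh.comm hj.isClosed_range hi.isClosed_range hs ht hd).mono (inter_comm _ _ ▸ h2)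
      (inter_comm _ _ ▸ h1)).symm.lgys (hi.comp hj') h4]

theorem push_mk (β : BM X) : push (Prod.mk (0 : I)) β = push (Prod.mk (1 : I)) β :=
  LinearMap.ext fun c => by
    rw [push_apply, push_apply, cpull_eq (isPr_mk 0), cpull_eq (isPr_mk 1),
      Hc.pull_eq_of_homotopy (h := id) IsPr.id (isPr_mk 0) (isPr_mk 1) (fun _ => rfl) fun _ => rfl]

/-- **isotopies** of the support -/
theorem lgys_isotopy [Nice Z] {k : I × Z → I × X} (hk : IsClosedEmbedding k)
    (e : ∀ p, (k p).1 = p.1) {c : Coch (I × X)} (hc : LCo (range k) c) {i₀ i₁ : Z → X}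
    (h0 : ∀ z, k (0, z) = (0, i₀ z)) (h1 : ∀ z, k (1, z) = (1, i₁ z)) (β : BM X) :
    lgys i₀ (pull (Prod.mk 0) c) β = lgys i₁ (pull (Prod.mk 1) c) β := by
  have h2 : ∀ (s : I) (i : Z → X), (∀ z, k (s, z) = (s, i z)) →
      lgys i (pull (Prod.mk s) c) β = push Prod.snd (lgys k c (push (Prod.mk s) β)) := fun s i h => by
    have h3 : IsClosedEmbedding (Prod.mk s ∘ i) := by
      rw [show Prod.mk s ∘ i = k ∘ Prod.mk s from funext fun z => (h z).symm]
      exact hk.comp (isFib_fst s).emb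
    rw [lgys_push hk hc (IsClosedEmbedding.of_comp (isFib_fst s).emb.isEmbedding h3) (isPr_mk s)
      (isPr_mk s) (fun z => (h z).symm) ?_, push_push (isPr_mk s) isPr_snd]
    · exact (push_id' _).symm
    · rintro x ⟨⟨s', z⟩, hz⟩
      obtain rfl : s = s' := (congrArg Prod.fst hz).symm.trans (e _)
      exact ⟨z, congrArg Prod.snd ((h z).symm.trans hz)⟩
  rw [h2 0 i₀ h0, h2 1 i₁ h1, push_mk]

theorem range_cross {X₁ X₂ X₁' X₂' : Type} [TopologicalSpace X₁] [TopologicalSpace X₂]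
    [TopologicalSpace X₁'] [TopologicalSpace X₂'] {p₁ : X → X₁} {p₂ : X → X₂}
    (hp : IsHomeomorph fun x => (p₁ x, p₂ x)) {q₁ : Y → X₁'} {q₂ : Y → X₂'}
    (hq : IsHomeomorph fun x => (q₁ x, q₂ x)) {f : Y → X} {f₁ : X₁' → X₁} {f₂ : X₂' → X₂}
    (h₁ : ∀ x, p₁ (f x) = f₁ (q₁ x)) (h₂ : ∀ x, p₂ (f x) = f₂ (q₂ x)) :
    range f = p₁ ⁻¹' range f₁ ∩ p₂ ⁻¹' range f₂ := by
  refine Subset.antisymm (by rintro _ ⟨y, rfl⟩; exact ⟨⟨_, (h₁ y).symm⟩, _, (h₂ y).symm⟩) ?_
  rintro x ⟨⟨u, hu⟩, v, hv⟩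
  obtain ⟨y, hy⟩ := hq.surjective (u, v)
  obtain ⟨rfl, rfl⟩ := Prod.ext_iff.1 hy
  exact ⟨y, hp.injective (Prod.ext ((h₁ y).trans hu) ((h₂ y).trans hv))⟩

/-- **products** -/
theorem lgys_cross {X₁ X₂ X₁' X₂' : Type} [TopologicalSpace X₁] [TopologicalSpace X₂]
    [TopologicalSpace X₁'] [TopologicalSpace X₂'] [Nice X₁] [Nice X₂] [Nice X₁'] [Nice X₂']
    {p₁ : X → X₁} {p₂ : X → X₂} (hp : IsHomeomorph fun x => (p₁ x, p₂ x)) {q₁ : Y → X₁'}
    {q₂ : Y → X₂'} (hq : IsHomeomorph fun x => (q₁ x, q₂ x)) {f : Y → X} {f₁ : X₁' → X₁}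
    {f₂ : X₂' → X₂} (h₁ : ∀ x, p₁ (f x) = f₁ (q₁ x)) (h₂ : ∀ x, p₂ (f x) = f₂ (q₂ x))
    (e₁ : IsClosedEmbedding f₁) (e₂ : IsClosedEmbedding f₂) {d e : ℕ} {t₁ : Coch X₁} {t₂ : Coch X₂}
    (ht₁ : LCo (range f₁) t₁) (ht₂ : LCo (range f₂) t₂) (hd₁ : IsDeg (2 * d) t₁)
    (hd₂ : IsDeg (2 * e) t₂) (β₁ : BM X₁) (β₂ : BM X₂) :
    lgys f (pull p₁ t₁ * pull p₂ t₂) (cross p₁ p₂ β₁ β₂) =
      cross q₁ q₂ (lgys f₁ t₁ β₁) (lgys f₂ t₂ β₂) := by
  have c₁ : Continuous p₁ := continuous_fst.comp hp.continuous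
  have c₂ : Continuous p₂ := continuous_snd.comp hp.continuous
  have hf := isClosedEmbedding_cross hp hq h₁ h₂ e₁ e₂
  obtain ⟨h1, h2⟩ := ht₁.isCo e₁.isClosed_range hd₁
  obtain ⟨h3, h4⟩ := ht₂.isCo e₂.isClosed_range hd₂
  have h5 := cocycle_mul (cocycle_pull c₁ h1.cocycle) (cocycle_pull c₂ h3.cocycle)
  have h6 : supp (pull p₁ (loc (range f₁) t₁) * pull p₂ (loc (range f₂) t₂)) ⊆ range f := by
    rw [range_cross hp hq h₁ h₂]
    exact fun x hx => ⟨h1.supp (supp_pull c₁ _ (supp_mul _ _ hx).1),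
      h3.supp (supp_pull c₂ _ (supp_mul _ _ hx).2)⟩
  rw [lgys_congr_van hf (LCo.of_supp h5 h6) fun z => van_mul_congr
    (van_pull_sub c₁.continuousAt (h2 _ ⟨_, (h₁ z).symm⟩))
    (van_pull_sub c₂.continuousAt (h4 _ ⟨_, (h₂ z).symm⟩)), lgys_eq_gys hf h5 h6,
    gys_cross hp hq h₁ h₂ e₁ e₂ h1 h3]
  rfl

/-- clopen parts of the support -/
theorem res_lgys_part [Nice Z] {i : Z → X} (hi : IsClosedEmbedding i) (ht : LCo (range i) t)
    {g : Z' → Z} (hg : IsOpenEmbedding g) (hg' : IsClosed (range g)) (β : BM X) :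
    res g (lgys i t β) = lgys (i ∘ g) t β := by
  rw [res_lgys hi ht (hi.comp ⟨hg.isEmbedding, hg'⟩) IsOpenEmbedding.id hg (fun _ => rfl), pull_id,
    ← push_id' (res id β), push_res_homeo IsHomeomorph.id]

theorem push_lgys {k : Z → Y} (hk : IsClosedEmbedding k) {j : Y → X} (hj : IsClosedEmbedding j)
    (ht : supp (δ t) = ∅) (hs : supp t ⊆ range (j ∘ k)) (β : BM X) :
    haveI := Nice.of_isEmbedding hk.isEmbedding hk.isClosed_range.isLocallyClosed
    push k (lgys (j ∘ k) t β) = lgys j t β := by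
  haveI := Nice.of_isEmbedding hk.isEmbedding hk.isClosed_range.isLocallyClosed
  rw [lgys_eq_gys (hj.comp hk) ht hs, lgys_eq_gys hj ht (hs.trans (range_comp_subset_range _ _)),
    push_gys hk hj ht hs]

end gys

end Vale.Agent.P269.Orb
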