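import Vale.Agent.P269.Orb.Vir

set_option linter.all false

/-!
# Virtual classes of Kuranishi presentations
-/

namespace Vale.Agent.P269.Ch

open Set Topology Filter Module Vale.Agent.P291Z Vale.Agent.P269.Orb

variable {Y'' Y' Y : Sp} {Z Z' : Type} [TopologicalSpace Z] [TopologicalSpace Z']

section top

variable {X X' : Type} [TopologicalSpace X] [TopologicalSpace X']

theorem isClosedEmbedding_of_comp {i : Z → X} {i' : Z → X'} {j : X' → X} (hj : IsEmbedding j)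
    (hsq : ∀ z, j (i' z) = i z) (hi : IsClosedEmbedding i) : IsClosedEmbedding i' := by
  obtain rfl : i = j ∘ i' := funext fun z => (hsq z).symm
  refine ⟨hj.of_comp_iff.1 hi.isEmbedding, ?_⟩
  rw [← preimage_image_eq (range i') hj.injective, ← range_comp]
  exact hi.isClosed_range.preimage hj.continuous

theorem isPr_of_comp {i : Z → X} {u : Z' → X} {g : Z' → Z} (hi : IsEmbedding i)
    (hsq : ∀ z, u z = i (g z)) (hu : IsPr u) : IsPr g := by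
  obtain rfl : u = i ∘ g := funext hsq
  refine ⟨hi.continuous_iff.2 hu.cont, fun K hK => ?_⟩
  have := hu.pre _ (hK.image hi.continuous)
  rwa [preimage_comp, preimage_image_eq _ hi.injective] at this

theorem isol_range {A : Set X} {i : Z → X} (hi : IsEmbedding i) (hA : range i ⊆ A) {i' : Z' → X'}
    {f : X' → X} (hf : IsInducing f) (h : Isol (range i') (f ⁻¹' A)) {g : Z' → Z}
    (hsq : ∀ z, f (i' z) = i (g z)) : Isol (range g) (i ⁻¹' range f) := by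
  obtain ⟨O, h1, h2, h3⟩ := h.exists_isOpen
  obtain ⟨O, h4, rfl⟩ := hf.isOpen_iff.1 h1
  refine Isol.of_isOpen (h4.preimage hi.continuous) ?_ ?_
  · rintro _ ⟨z, rfl⟩
    exact show i (g z) ∈ O from hsq z ▸ h2 ⟨z, rfl⟩
  · rintro z ⟨h5, x, hx⟩
    obtain ⟨z', rfl⟩ := h3 ⟨show f x ∈ O from hx ▸ h5, show f x ∈ A from hx ▸ hA ⟨z, rfl⟩⟩
    exact ⟨z', hi.injective ((hsq z').symm.trans hx)⟩

theorem isOpen_of_isol {A B : Set X} (h : Isol A B) (hB : IsOpen B) (e : A ⊆ B) : IsOpen A :=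
  isOpen_iff_mem_nhds.2 fun x hx => ((h x hx).and (hB.mem_nhds (e hx))).mono fun _ h => h.1 h.2

theorem isol_comp {A : Set X} {j : X' → X} (hj : IsInducing j) (h : Isol (range j) A) {i : Z → X'}
    (h' : Isol (range i) (j ⁻¹' A)) : Isol (range (j ∘ i)) A := by
  rw [range_comp]
  exact fun x hx => ((h'.image hj x hx).and (h x (image_subset_range _ _ hx))).mono
    fun y h1 h2 => h1.1 ⟨h1.2 h2, h2⟩

end top

namespace KP

/-- `i` is a closed embedding onto an open and closed part of the zero set -/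
structure IsZ (k : KP Y) (i : Z → Y.X) : Prop where
  emb : IsClosedEmbedding i
  sub : range i ⊆ k.Z
  isol : Isol (range i) k.Z

/-- the virtual pull-back -/
noncomputable def vir (k : KP Y) (i : Z → Y.X) : BM Y.X →ₗ[ℂ] BM Z := lgys i k.eul

variable {k'' : KP Y''} {k' : KP Y'} {k : KP Y} {i : Z → Y.X} {i' : Z' → Y'.X}

theorem vir_deg {d : ℤ} {β : BM Y.X} (h : BM.IsDeg d β) (k : KP Y) (i : Z → Y.X) :
    BM.IsDeg (d - 2 * k.r) (k.vir i β) := lgys_deg h i k.eul_deg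

theorem IsZ.of_range (hi : IsEmbedding i) (h : range i = k.Z) : k.IsZ i :=
  ⟨⟨hi, h ▸ k.isClosed_Z⟩, h.le, Isol.of_subset h.ge⟩

theorem isZ_val (k : KP Y) : k.IsZ (Subtype.val : k.Z → Y.X) :=
  IsZ.of_range IsEmbedding.subtypeVal Subtype.range_coe

theorem isZ_subI (k : KP Y) : k.IsZ (Y.subI k.ZS k.isClosed_Zs.isLocallyClosed).map :=
  IsZ.of_range (Sp.isEmbedding_subI _) (Sp.range_subI _)

namespace IsZ

variable (hi : k.IsZ i)
include hi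

theorem lco : LCo (range i) k.eul := k.lco.mono hi.sub hi.isol

theorem nice : Nice Z := Nice.of_isEmbedding hi.emb.isEmbedding hi.emb.isClosed_range.isLocallyClosed

theorem mem (z : Z) : i z ∈ k.Z := hi.sub ⟨z, rfl⟩

theorem lcoh {a b : Coch Y.X} (h : LCoh k.Z a b) : LCoh (range i) a b := h.mono hi.sub hi.isol

theorem lco' {t : Coch Y.X} (h : LCoh k.Z k.eul t) : LCo (range i) t := (hi.lcoh h).symm.lco hi.lco

theorem vir_eq {t : Coch Y.X} (h : LCoh k.Z k.eul t) : k.vir i = lgys i t :=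
  (hi.lcoh h).lgys hi.emb (hi.lco' h)

theorem comp {g : Z' → Z} (hg : IsClosedEmbedding g) (h : IsOpen (range g)) : k.IsZ (i ∘ g) :=
  ⟨hi.emb.comp hg, (range_comp_subset_range _ _).trans hi.sub,
    isol_comp hi.emb.isInducing hi.isol (Isol.of_isOpen h Subset.rfl inter_subset_left)⟩

/-- open and closed parts of the zero set -/
theorem res_part [Nice Z] {g : Z' → Z} (hg : IsOpenEmbedding g) (h : IsClosed (range g)) (β : BM Y.X) :
    res g (k.vir i β) = k.vir (i ∘ g) β :=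
  res_lgys_part hi.emb hi.lco hg h β

theorem res_homeo [Nice Z] {g : Z' → Z} (hg : IsHomeomorph g) (β : BM Y.X) :
    res g (k.vir i β) = k.vir (i ∘ g) β :=
  hi.res_part hg.isOpenEmbedding (hg.surjective.range_eq ▸ isClosed_univ) β

theorem vir_cap' {c : Coch Y.X} (hc : supp (δ c) = ∅) (β : BM Y.X) :
    k.vir i (cap (hcls c) β) = cap (hcls (pull i c)) (k.vir i β) :=
  lgys_cap hi.emb hi.lco (d := k.r) k.eul_deg hc β

theorem vir_cap (c : H Y.X) (β : BM Y.X) :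
    k.vir i (cap c β) = cap (H.map ⟨i, hi.emb.continuous⟩ c) (k.vir i β) := by
  obtain ⟨c, hc, rfl⟩ := hcls_surj c
  rw [hi.vir_cap' hc, H.map_hcls _ hc]
  rfl

/-- the virtual class in a model -/
theorem vir_eq_lgys {m : Mor Y' Y} {E : VB Y'} {M : Y'.T → k.P.W →ₗ[ℂ] E.W} (h : k.Model m E M)
    (hm : IsOpenEmbedding m.map) {i' : Z → Y'.X} (hsq : ∀ z, m.map (i' z) = i z) (β : BM Y.X) :
    LCo (range i') h.isSec.eul ∧ k.vir i β = lgys i' h.isSec.eul (res m.map β) := by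
  have h1 := isClosedEmbedding_of_comp hm.isEmbedding hsq hi.emb
  have h2 : range i' ⊆ m.map ⁻¹' k.Z := by
    rintro _ ⟨z, rfl⟩
    exact show m.map (i' z) ∈ k.Z from hsq z ▸ hi.mem z
  have h3 : Isol (range i') (m.map ⁻¹' k.Z) := by
    have := hi.isol.preimage m.map.continuous
    rwa [show i = m.map ∘ i' from funext fun z => (hsq z).symm, range_comp,
      preimage_image_eq _ hm.injective] at this
  have h4 := h.lco.mono h2 h3
  exact ⟨h4, by rw [vir, lgys_res hi.emb hi.lco hm hsq, (h.lcoh.mono h2 h3).lgys h1 h4]⟩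

theorem vir_eq_gys {m : Mor Y' Y} {E : VB Y'} {M : Y'.T → k.P.W →ₗ[ℂ] E.W} (h : k.Model m E M)
    (hm : IsOpenEmbedding m.map) {i' : Z → Y'.X} (hsq : ∀ z, m.map (i' z) = i z)
    (hz : ∀ t, M t (k.s (m.f t)) = 0 → Y'.π t ∈ range i') (β : BM Y.X) :
    k.vir i β = gys i' h.isSec.eul (res m.map β) := by
  rw [(hi.vir_eq_lgys h hm hsq β).2, lgys_eq_gys (isClosedEmbedding_of_comp hm.isEmbedding hsq hi.emb)
    h.isSec.isCo.cocycle (h.isSec.isCo.supp.trans (by rintro _ ⟨t, ht, rfl⟩; exact hz t ht))]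

end IsZ

theorem vir_ofSec {E : VB Y} {s : Y.T → E.W} (h : E.IsSec s) (hi : (ofSec h).IsZ i) :
    (ofSec h).vir i = lgys i h.eul := hi.vir_eq (eul_ofSec h)

theorem vir_ofSec' {E : VB Y} {s : Y.T → E.W} (h : E.IsSec s) (hi : IsEmbedding i)
    (e : range i = Y.π '' {t | s t = 0}) : (ofSec h).vir i = gys i h.eul :=
  have h1 : (ofSec h).IsZ i := IsZ.of_range hi e
  (vir_ofSec h h1).trans (lgys_eq_gys h1.emb h.isCo.cocycle (e ▸ h.isCo.supp))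

namespace Cmp

variable {f : Y'.X → Y.X} (h : k'.Cmp k f)
include h

theorem isol' (hi' : k'.IsZ i') : Isol (range i') (f ⁻¹' k.Z) := hi'.isol.trans hi'.sub h.isol

theorem vir_eq (hi' : k'.IsZ i') : k'.vir i' = lgys i' (pull f k.eul) := hi'.vir_eq h.lcoh

theorem isOpenEmbedding (hf : IsOpenEmbedding f) (hi : k.IsZ i) (hi' : k'.IsZ i') {g : Z' → Z}
    (hsq : ∀ z, f (i' z) = i (g z)) : IsOpenEmbedding g :=
  ⟨hi.emb.isEmbedding.of_comp_iff.1 ((funext hsq : f ∘ i' = i ∘ g) ▸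
      hf.isEmbedding.comp hi'.emb.isEmbedding),
    isOpen_of_isol (isol_range hi.emb.isEmbedding hi.sub hf.isInducing (h.isol' hi') hsq)
      (hf.isOpen_range.preimage hi.emb.continuous) (by rintro _ ⟨z, rfl⟩; exact ⟨_, hsq z⟩)⟩

/-- **V4**: open embeddings -/
theorem res_vir [Nice Z] (hf : IsOpenEmbedding f) (hi : k.IsZ i) (hi' : k'.IsZ i') {g : Z' → Z}
    (hsq : ∀ z, f (i' z) = i (g z)) (β : BM Y.X) : res g (k.vir i β) = k'.vir i' (res f β) := by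
  rw [h.vir_eq hi', vir, res_lgys hi.emb hi.lco hi'.emb hf (h.isOpenEmbedding hf hi hi' hsq) hsq]

theorem vir_res (hf : IsOpenEmbedding f) (hi : k.IsZ i) {i' : Z → Y'.X} (hi' : k'.IsZ i')
    (hsq : ∀ z, f (i' z) = i z) (β : BM Y.X) : k.vir i β = k'.vir i' (res f β) := by
  rw [h.vir_eq hi', vir, lgys_res hi.emb hi.lco hf hsq]

/-- **V4**: proper maps -/
theorem vir_push (hf : IsPr f) (hi : k.IsZ i) (hi' : k'.IsZ i') {g : Z' → Z}
    (hsq : ∀ z, f (i' z) = i (g z)) (hr : f ⁻¹' range i ⊆ range i') (β : BM Y'.X) :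
    k.vir i (push f β) = push g (k'.vir i' β) := by
  rw [h.vir_eq hi', vir, lgys_push hi.emb hi.lco hi'.emb hf (isPr_of_comp hi.emb.isEmbedding hsq
    (hf.comp (IsPr.of_isClosedEmbedding hi'.emb))) hsq hr]

/-- **V3**: virtual classes commute with Gysin maps -/
theorem vir_gys [Nice Z] (hf : IsClosedEmbedding f) (hi : k.IsZ i) (hi' : k'.IsZ i') {g : Z' → Z}
    (hsq : ∀ z, f (i' z) = i (g z)) {θ : Coch Y.X} (hθ : LCo (range f) θ) (β : BM Y.X) :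
    lgys g (pull i θ) (k.vir i β) = k'.vir i' (lgys f θ β) := by
  rw [h.vir_eq hi', vir, lgys_comm hi.emb hf hi'.emb (isClosedEmbedding_of_comp hi.emb.isEmbedding
    (fun z => (hsq z).symm) (hf.comp hi'.emb)) (fun z => (hsq z).symm)
    (isol_range hi.emb.isEmbedding hi.sub hf.isInducing (h.isol' hi') hsq) hi.lco hθ
    (d := k.r) k.eul_deg]

theorem vir_gys' [Nice Z] (hf : IsClosedEmbedding f) (hi : k.IsZ i) (hi' : k'.IsZ i') {g : Z' → Z}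
    (hsq : ∀ z, f (i' z) = i (g z)) (hr : i ⁻¹' range f ⊆ range g) {θ : Coch Y.X}
    (hθ : supp (δ θ) = ∅) (hs : supp θ ⊆ range f) (β : BM Y.X) :
    gys g (pull i θ) (k.vir i β) = k'.vir i' (gys f θ β) := by
  rw [← lgys_eq_gys hf hθ hs, ← h.vir_gys hf hi hi' hsq (LCo.of_supp hθ hs), lgys_eq_gys
    (isClosedEmbedding_of_comp hi.emb.isEmbedding (fun z => (hsq z).symm) (hf.comp hi'.emb))
    (cocycle_pull hi.emb.continuous hθ) fun z hz => hr (hs (supp_pull hi.emb.continuous _ hz))]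

end Cmp

theorem Cmp.vir_id {k₁ k₂ : KP Y} (h : k₁.Cmp k₂ id) (hi : k₁.IsZ i) : k₁.vir i = k₂.vir i := by
  rw [h.vir_eq hi, pull_id, vir]

theorem Cmp.of_id {k₁ k₂ : KP Y} (h : k₁.Cmp k₂ (Mor.id Y).map) : k₁.Cmp k₂ id :=
  (show ⇑(Mor.id Y).map = id from funext (Mor.map_id Y)) ▸ h

theorem vir_pb (k : KP Y) (m : Mor Y' Y) (hi' : (k.pb m).IsZ i') :
    (k.pb m).vir i' = lgys i' (pull m.map k.eul) := (k.cmp_pb m).vir_eq hi'

/-- factorisation of the Euler cocycle -/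
theorem IsZ.vir_mul {X : Type} [TopologicalSpace X] [Nice X] {j : X → Y.X} (hj : IsClosedEmbedding j)
    {g : Z → X} (hsq : ∀ z, j (g z) = i z) (hi : k.IsZ i) {s t : Coch Y.X}
    (h : LCoh (range i) k.eul (s * t)) (ht : LCo (range j) t) {B : Set Y.X} (hs : LCo B s)
    (h1 : range i ⊆ B) (h2 : Isol (range g) (j ⁻¹' B)) (β : BM Y.X) :
    k.vir i β = lgys g (pull j s) (lgys j t β) := by
  have hg := isClosedEmbedding_of_comp hj.isEmbedding hsq hi.emb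
  obtain rfl : i = j ∘ g := funext fun z => (hsq z).symm
  obtain ⟨h3, h4⟩ := lgys_lgys hj ht hg (fun z => hs.cyc _ (h1 ⟨z, rfl⟩)) (h2.trans
    (by rintro _ ⟨z, rfl⟩; exact h1 ⟨z, rfl⟩) (hs.isol.preimage hj.continuous)) β
  rw [h4, vir, h.lgys hi.emb h3]

/-- multiplication of the Euler cocycle with a local cocycle -/
theorem IsZ.cap_vir (hi : k.IsZ i) {c t : Coch Y.X} (hc : ∀ x ∈ k.Z, δ c ∈ Van x)
    (h : LCoh k.Z t (c * k.eul)) (β : BM Y.X) :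
    lgys i t β = cap (hcls (pull i c)) (k.vir i β) := by
  rw [vir, cap_lgys hi.emb hi.lco fun z => hc _ (hi.mem z), (hi.lcoh h).lgys hi.emb
    (hi.lco.mul_left fun x hx => hc x (hi.sub hx))]

section sum

variable {k₁ k₂ : KP Y}

/-- **V1**: sums -/
theorem vir_sum {X : Type} [TopologicalSpace X] [Nice X] {j : X → Y.X} (hj : k₂.IsZ j) {g : Z → X}
    (hsq : ∀ z, j (g z) = i z) (hi : (k₁.sum k₂).IsZ i) (β : BM Y.X) :
    (k₁.sum k₂).vir i β = lgys g (pull j k₁.eul) (k₂.vir j β) := by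
  have h1 := hi.sub
  have h2 := hi.isol
  rw [Z_sum] at h1 h2
  refine hi.vir_mul hj.emb hsq ((eul_sum k₁ k₂).mono h1 h2) hj.lco k₁.lco
    (h1.trans inter_subset_left) (fun x hx => ?_) β
  obtain ⟨z, rfl⟩ := hx
  refine (hj.emb.continuous.continuousAt.eventually (h2 _ ⟨z, (hsq z).symm⟩)).mono fun y h3 h4 => ?_
  obtain ⟨w, hw⟩ := h3 ⟨h4, hj.mem y⟩
  exact ⟨w, hj.emb.injective ((hsq w).trans hw)⟩

theorem vir_sum' {n : Mor Y' Y} (hn : k₂.IsZ n.map) {g : Z → Y'.X} (hg : (k₁.pb n).IsZ g)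
    (β : BM Y.X) : (k₁.sum k₂).IsZ (n.map ∘ g) ∧
      (k₁.sum k₂).vir (n.map ∘ g) β = (k₁.pb n).vir g (k₂.vir n.map β) := by
  have h1 := hg.sub
  have h2 := hg.isol
  rw [Z_pb] at h1 h2
  have h3 : (k₁.sum k₂).IsZ (n.map ∘ g) := ⟨hn.emb.comp hg.emb, by
    rintro _ ⟨z, rfl⟩
    exact Z_sum k₁ k₂ ▸ ⟨h1 ⟨z, rfl⟩, hn.mem _⟩, isol_comp hn.emb.isInducing
      (hn.isol.mono (Z_sum k₁ k₂ ▸ inter_subset_right))
      (h2.mono (preimage_mono (Z_sum k₁ k₂ ▸ inter_subset_left)))⟩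
  exact ⟨h3, (vir_sum hn (fun _ => rfl) h3 β).trans (by rw [vir_pb k₁ n hg])⟩

end sum

/-- **V1**: products -/
theorem vir_cross {Y₁ Y₂ : Sp} {k₁ : KP Y₁} {k₂ : KP Y₂} {p₁ : Y.X → Y₁.X} {p₂ : Y.X → Y₂.X}
    (hp : IsHomeomorph fun x => (p₁ x, p₂ x)) {Z₁ Z₂ : Type} [TopologicalSpace Z₁]
    [TopologicalSpace Z₂] [Nice Z₁] [Nice Z₂] [Nice Z] {q₁ : Z → Z₁} {q₂ : Z → Z₂}
    (hq : IsHomeomorph fun x => (q₁ x, q₂ x)) {i₁ : Z₁ → Y₁.X} {i₂ : Z₂ → Y₂.X} (hi : k.IsZ i)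
    (hi₁ : k₁.IsZ i₁) (hi₂ : k₂.IsZ i₂) (h₁ : ∀ x, p₁ (i x) = i₁ (q₁ x))
    (h₂ : ∀ x, p₂ (i x) = i₂ (q₂ x)) (h : LCoh k.Z k.eul (pull p₁ k₁.eul * pull p₂ k₂.eul))
    (β₁ : BM Y₁.X) (β₂ : BM Y₂.X) :
    k.vir i (cross p₁ p₂ β₁ β₂) = cross q₁ q₂ (k₁.vir i₁ β₁) (k₂.vir i₂ β₂) := by
  rw [hi.vir_eq h, lgys_cross hp hq h₁ h₂ hi₁.emb hi₂.emb hi₁.lco hi₂.lco k₁.eul_deg k₂.eul_deg]
  rfl

theorem eul_pb_sum {Y₁ Y₂ : Sp} (k₁ : KP Y₁) (k₂ : KP Y₂) (p₁ : Mor Y Y₁) (p₂ : Mor Y Y₂) :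
    LCoh ((k₁.pb p₁).sum (k₂.pb p₂)).Z ((k₁.pb p₁).sum (k₂.pb p₂)).eul
      (pull p₁.map k₁.eul * pull p₂.map k₂.eul) := by
  have := (k₁.eul_pb p₁).mul (k₂.eul_pb p₂) (k₁.lco.pull p₁.map.continuous)
    (k₂.lco.pull p₂.map.continuous)
  rw [Z_sum]
  rw [← Z_pb, ← Z_pb] at this
  exact (eul_sum _ _).trans this

namespace Hom

variable {m : Mor Y' Y} {A : Y'.T → k'.P.W →ₗ[ℂ] k.P.W} (h : k'.Hom k m A) (hi' : k'.IsZ i')
include h hi'

/-- **V2, injective case** -/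
theorem vir_inj (inj : ∀ t ∈ k'.Zs, ∀ w ∈ k'.obs t, A t w ∈ k.van (m.f t) → w ∈ k'.van t)
    {j : Mor Y'' Y'} {N : VB Y''} {S : Y''.T → N.W →ₗ[ℂ] k.P.W} (hj : ∀ t, j.f t ∈ k'.Zs)
    (hS : Ch.Hom (m.comp j) N k.P S) (e1 : ∀ t, ∀ w ∈ N.F t, S t w ∈ k.obs (m.f (j.f t)))
    (e2 : ∀ t, ∀ w ∈ N.F t, ∀ w' ∈ k'.obs (j.f t),
      S t w - A (j.f t) w' ∈ k.van (m.f (j.f t)) → w = 0) (hr : k.r = k'.r + N.r)
    (φ : C(Z', Y''.X)) (hφ : ∀ z, j.map (φ z) = i' z) (β : BM Y'.X) :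
    lgys i' (pull m.map k.eul) β = cap (H.map φ N.eu) (k'.vir i' β) := by
  obtain ⟨c, h1, -, h2, h3⟩ := h.exists_inj inj
  rw [hi'.cap_vir h1 h2, ← h3 j N S hj hS e1 e2 hr, H.map_hcls _ (supp_eq_empty.2 fun x =>
    van_δ_pull j.map.continuous.continuousAt (h1 _ ?_)), pull_pull,
    show j.map ∘ φ = i' from funext hφ]
  obtain ⟨t, rfl⟩ := Sp.surj _ x
  exact j.map_π t ▸ mem_Z.2 (hj t)

/-- **V2, surjective case** (excess intersection) -/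
theorem vir_surj
    (surj : ∀ t ∈ k'.Zs, ∀ w ∈ k.obs (m.f t), ∃ w' ∈ k'.obs t, A t w' - w ∈ k.van (m.f t))
    (hi : Isol k'.Z (m.map ⁻¹' k.Z)) {j : Mor Y'' Y'} {N : VB Y''}
    {S : Y''.T → N.W →ₗ[ℂ] k'.P.W} (hj : ∀ t, j.f t ∈ k'.Zs) (hS : Ch.Hom j N k'.P S)
    (e1 : ∀ t, ∀ w ∈ N.F t, S t w ∈ k'.obs (j.f t))
    (e2 : ∀ t, ∀ w ∈ N.F t, A (j.f t) (S t w) ∈ k.van (m.f (j.f t)))
    (e3 : ∀ t, ∀ w ∈ N.F t, S t w ∈ k'.van (j.f t) → w = 0) (hr : k'.r = N.r + k.r)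
    (φ : C(Z', Y''.X)) (hφ : ∀ z, j.map (φ z) = i' z) (β : BM Y'.X) :
    k'.vir i' β = cap (H.map φ N.eu) (lgys i' (pull m.map k.eul) β) := by
  obtain ⟨c, h1, -, h2, h3⟩ := h.exists_surj surj hi
  have h4 : LCo (range i') (pull m.map k.eul) := (k.lco.pull m.map.continuous).mono
    (hi'.sub.trans h.Z_subset) (hi'.isol.trans hi'.sub hi)
  rw [hi'.vir_eq h2, ← cap_lgys hi'.emb h4 fun z => h1 _ (hi'.mem z),
    ← h3 j N S hj hS e1 e2 e3 hr, H.map_hcls _ (supp_eq_empty.2 fun x =>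
    van_δ_pull j.map.continuous.continuousAt (h1 _ ?_)), pull_pull,
    show j.map ∘ φ = i' from funext hφ]
  obtain ⟨t, rfl⟩ := Sp.surj _ x
  exact j.map_π t ▸ mem_Z.2 (hj t)

/-- **V5**: stabilisation; `γ` presents the zero set of `η` -/
theorem vir_stab {V : VB Y'} {η : Y'.T → V.W} (hη : V.IsSec η) {D : Y'.T → V.W →ₗ[ℂ] k'.P.W}
    (cone : ∀ t ∈ k'.Zs, ∀ v w, (t, v, w) ∈ closure {x : Y'.T × V.W × k'.P.W | m.f x.1 ∈ k.Zs ∧
      ∃ c : ℂ, x.2.1 = c • η x.1 ∧ x.2.2 - c • k'.s x.1 ∈ k'.van x.1} → w - D t v ∈ k'.van t)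
    (hD : Ch.Hom (Mor.id Y') V k'.P D) (h0 : ∀ t ∈ k'.Zs, η t = 0)
    (inj : ∀ t ∈ k'.Zs, ∀ v ∈ V.F t, D t v ∈ k'.van t → v = 0)
    (ker : ∀ t ∈ k'.Zs, ∀ w ∈ k'.obs t, A t w ∈ k.van (m.f t) → ∃ v ∈ V.F t, w - D t v ∈ k'.van t)
    (hr : k'.r = V.r + k.r) {X : Type} [TopologicalSpace X] [Nice X] {γ : X → Y'.X}
    (hγ : IsClosedEmbedding γ) (e1 : range γ ⊆ Y'.π '' {t | η t = 0})
    (e2 : Isol (range γ) (Y'.π '' {t | η t = 0})) {g : Z' → X} (hsq : ∀ z, γ (g z) = i' z)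
    (β : BM Y'.X) : k'.vir i' β = lgys g (pull (m.map ∘ γ) k.eul) (lgys γ hη.eul β) := by
  have h1 := isol_stab hη cone (m := m)
  have h2 : k'.Z ⊆ Y'.π '' {t | η t = 0} ∩ m.map ⁻¹' k.Z := subset_inter (image_mono h0) h.Z_subset
  have h3 := k.lco.pull m.map.continuous
  rw [← pull_pull]
  refine hi'.vir_mul hγ hsq (hi'.lcoh ((h.lcoh_stab hη cone hD h0 inj ker hr).trans
    ((LCoh.comm hη.isClosed_zeros (k.isClosed_Z.preimage m.map.continuous) (LCo.of_isCo hη.isCo) h3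
      (d := k.r) (k.eul_deg.pull _)).mono h2 h1))) (LCo.of_isCo' hη.isCo e2) h3
    (hi'.sub.trans h.Z_subset) (fun x hx => ?_) β
  obtain ⟨z, rfl⟩ := hx
  refine (hγ.continuous.continuousAt.eventually ((hi'.isol.trans hi'.sub h1) _
    ⟨z, (hsq z).symm⟩)).mono fun y h4 h5 => ?_
  obtain ⟨w, hw⟩ := h4 ⟨e1 ⟨y, rfl⟩, h5⟩
  exact ⟨w, hγ.injective ((hsq w).trans hw)⟩

end Hom

end KP

end Vale.Agent.P269.Ch
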