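import Vale.Agent.P269.Orb.Dim
import Vale.Agent.P269.Mono.Small

set_option linter.all false

/-!
# Cohomological dimension and Hausdorff dimension; zero sets of holomorphic germs
-/

namespace Vale.Agent.P269.Orb

open Set Topology Filter MeasureTheory Metric Vale.Agent.P291Z
open scoped ENNReal NNReal

namespace Dim

/-- Eilenberg's inequality for null sets -/
theorem ae_slice {X : Type} [MetricSpace X] [MeasurableSpace X] [BorelSpace X] {A : Set X} {m : ℕ}
    (h : μH[((m + 1 : ℕ) : ℝ)] A = 0) {f : X → ℝ} (hf : LipschitzWith 1 f) :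
    ∀ᵐ r, μH[(m : ℝ)] (A ∩ f ⁻¹' {r}) = 0 := by
  have hp : ∀ N : ℕ, (0 : ℝ≥0∞) < 2⁻¹ ^ N := fun N => ENNReal.pow_pos (by simp) N
  have ex : ∀ N : ℕ, ∃ t : ℕ → Set X, A ⊆ ⋃ n, t n ∧ (∀ n, ediam (t n) ≤ 2⁻¹ ^ N) ∧
      ∑' n, ⨆ _ : (t n).Nonempty, ediam (t n) ^ ((m + 1 : ℕ) : ℝ) < 2⁻¹ ^ N := fun N => by
    rw [Measure.hausdorffMeasure_apply] at h
    simp only [ENNReal.iSup_eq_zero] at h
    have h1 := (h _ (hp N)).trans_lt (hp N)
    simpa only [iInf_lt_iff, exists_prop] using h1
  choose t h1 h2 h3 using ex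
  let g : ℕ → ℕ → ℝ → ℝ≥0∞ := fun N n =>
    (closure (f '' t N n)).indicator fun _ => ediam (t N n) ^ (m : ℝ)
  have hg : ∀ N n, Measurable (g N n) := fun N n =>
    measurable_const.indicator isClosed_closure.measurableSet
  have h4 : ∀ N n, ∫⁻ r, g N n r ≤ ⨆ _ : (t N n).Nonempty, ediam (t N n) ^ ((m + 1 : ℕ) : ℝ) := by
    intro N n
    rw [lintegral_indicator_const isClosed_closure.measurableSet]
    rcases (t N n).eq_empty_or_nonempty with e | e
    · simp [e]
    · rw [iSup_pos e, ENNReal.rpow_natCast, ENNReal.rpow_natCast, pow_succ]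
      refine mul_le_mul_right ((Real.volume_le_diam _).trans ?_) _
      rw [ediam_closure]
      simpa using hf.ediam_image_le (t N n)
  have h5 : ∫⁻ r, ∑' N, ∑' n, g N n r ≠ ∞ := by
    rw [lintegral_tsum fun N => (Measurable.tsum (hg N)).aemeasurable]
    refine ne_top_of_le_ne_top (b := ∑' N : ℕ, 2⁻¹ ^ N) (by simp) (ENNReal.tsum_le_tsum fun N => ?_)
    rw [lintegral_tsum fun n => (hg N n).aemeasurable]
    exact (ENNReal.tsum_le_tsum (h4 N)).trans (h3 N).le
  filter_upwards [ae_lt_top (Measurable.tsum fun N => Measurable.tsum (hg N)) h5]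
    with r hr
  have h6 := ENNReal.tendsto_atTop_zero_of_tsum_ne_top hr.ne
  refine le_antisymm ((Measure.hausdorffMeasure_le_liminf_tsum (ι := fun N => {n // r ∈ f '' t N n})
    m _ (l := atTop) (fun N => 2⁻¹ ^ N)
    (ENNReal.tendsto_pow_atTop_nhds_zero_of_lt_one (by simp)) (fun N n => t N n)
    (Eventually.of_forall fun N n => h2 N n) (Eventually.of_forall fun N x hx => ?_)).trans ?_)
    zero_le
  · obtain ⟨n, hn⟩ := mem_iUnion.1 (h1 N hx.1)
    exact mem_iUnion.2 ⟨⟨n, x, hn, hx.2⟩, hn⟩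
  · rw [← h6.liminf_eq]
    refine liminf_le_liminf (Eventually.of_forall fun N => ?_)
    refine le_trans (ENNReal.tsum_le_tsum fun n => ?_)
      (ENNReal.tsum_comp_le_tsum_of_injective Subtype.val_injective fun n => g N n r)
    exact (indicator_of_mem (subset_closure n.2) fun _ => ediam (t N n) ^ (m : ℝ)).ge

theorem cd_of_null {X : Type} [MetricSpace X] [MeasurableSpace X] [BorelSpace X] [Nice X] (m : ℕ) :
    ∀ {A : Set X}, μH[(m : ℝ)] A = 0 → CD (m - 1) A := by
  induction m with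
  | zero =>
    intro A h
    rcases A.eq_empty_or_nonempty with rfl | e
    · exact cd_empty
    · rw [Nat.cast_zero] at h
      simpa [h] using Measure.one_le_hausdorffMeasure_zero_of_nonempty e
  | succ m ih =>
    intro A h
    refine cd_of_min fun M _ _ i hi hr n hn c hc e => ?_
    rcases subsingleton_or_nontrivial M with _ | ⟨x, y, hxy⟩
    · exact top_pt n (by omega) c hc
    have h1 : 0 < dist (i x) (i y) := dist_pos.2 (hi.injective.ne hxy)
    obtain ⟨r, h2, h3⟩ := Measure.exists_mem_of_measure_ne_zero_of_ae (μ := volume)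
      (s := Ioo 0 (dist (i x) (i y))) (by simpa using h1)
      (ae_restrict_of_ae (ae_slice h (LipschitzWith.dist_right (i x))))
    have h4 : Continuous fun z => dist (i x) (i z) := continuous_const.dist hi.continuous
    have h5 := isClosed_le h4 (continuous_const (y := r))
    have h6 := isClosed_le (continuous_const (y := r)) h4
    haveI := nice_closed (h5.inter h6)
    refine eq_zero_of_two h5 h6 (fun z hz => (le_total r _).resolve_left hz)
      ((ih h3).top' (hi.comp IsEmbedding.subtypeVal) (range_subset_iff.2 fun z =>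
        ⟨hr (mem_range_self _), le_antisymm z.2.1 z.2.2⟩)) (by omega) hc
      (e _ h5 fun h7 => h2.2.not_ge (h7.ge (mem_univ y)))
      (e _ h6 fun h7 => h2.1.not_ge ((h7.ge (mem_univ x)).trans (dist_self _).le))

open Mono

theorem small_of_order {P : Type} [NormedAddCommGroup P] [NormedSpace ℂ P] [FiniteDimensional ℂ P]
    {k : ℕ} (hk : 2 * Module.finrank ℂ P ≤ k + 2) (a : P) (j : ℕ) : ∀ {f : P → ℂ},
    AnalyticAt ℂ f 0 → analyticOrderAt (fun t : ℂ => f (t • a)) 0 = j →
      ∃ O ∈ 𝓝 (0 : P), Small k (O ∩ f ⁻¹' {0}) := by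
  haveI := FiniteDimensional.complete ℂ P
  have hl : AnalyticAt ℂ (fun t : ℂ => t • a) 0 := analyticAt_id.smul analyticAt_const
  induction j with
  | zero =>
    intro f hf h
    have h1 := (analyticOrderAt_eq_zero.1 h).resolve_left
      (not_not.2 (hf.comp_of_eq hl (zero_smul ℂ a)))
    rw [zero_smul] at h1
    exact ⟨_, hf.continuousAt.eventually_ne h1, (small_empty k).mono fun z hz => hz.1 hz.2⟩
  | succ j ih =>
    intro f hf h
    have h0 : AnalyticAt ℂ (fun t : ℂ => f (t • a)) 0 := hf.comp_of_eq hl (zero_smul ℂ a)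
    have h1 : f ((0 : ℂ) • a) = 0 := by
      by_contra e
      rw [(analyticOrderAt_eq_zero (f := fun t : ℂ => f (t • a)) (z₀ := 0)).2 (Or.inr e)] at h
      exact Nat.succ_ne_zero j (by exact_mod_cast h.symm)
    have h2 := h0.analyticOrderAt_deriv_add_one
    simp only [h1, sub_zero, h, Nat.cast_succ] at h2
    have h3 : (deriv fun t : ℂ => f (t • a)) =ᶠ[𝓝 0] fun t => dv a f (t • a) := by
      have : Tendsto (fun t : ℂ => t • a) (𝓝 0) (𝓝 0) := by simpa using hl.continuousAt.tendsto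
      filter_upwards [this.eventually hf.eventually_analyticAt] with t ht
      have h4 : HasDerivAt (fun t : ℂ => t • a) a t := by simpa using (hasDerivAt_id t).smul_const a
      exact (ht.differentiableAt.hasFDerivAt.comp_hasDerivAt t h4).deriv
    obtain ⟨O, h4, h5⟩ := ih (f := dv a f)
      (((ContinuousLinearMap.apply ℂ ℂ a).analyticAt _).comp hf.fderiv)
      (by rw [← analyticOrderAt_congr h3]; exact ENat.add_left_injective_of_ne_top (by simp) h2)
    have h6 : Small k {z | AnalyticAt ℂ f z ∧ f z = 0 ∧ dv a f z ≠ 0} := by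
      refine Small.of_locally' fun z hz => ?_
      obtain ⟨O, hO, hs⟩ := small_zero_hol (g := f) (p := z) hz.1.contDiffAt (fun y =>
        ⟨(y / fderiv ℂ f z a) • a, by
          rw [map_smul, smul_eq_mul]; exact div_mul_cancel₀ _ hz.2.2⟩) (k := k) (by simpa using hk)
      exact ⟨O, hO, hs.mono fun y hy => ⟨hy.1.2.1, hy.2⟩⟩
    refine ⟨_, inter_mem h4 hf.eventually_analyticAt, (h5.union h6).mono fun z hz => ?_⟩
    by_cases e : dv a f z = 0
    · exact Or.inl ⟨hz.1.1, e⟩
    · exact Or.inr ⟨hz.1.2, hz.2, e⟩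

theorem small_zero_germ {P : Type} [NormedAddCommGroup P] [NormedSpace ℂ P] [FiniteDimensional ℂ P]
    {k : ℕ} (hk : 2 * Module.finrank ℂ P ≤ k + 2) {f : P → ℂ} (hf : AnalyticAt ℂ f 0)
    (h : ¬∀ᶠ z in 𝓝 0, f z = 0) : ∃ O ∈ 𝓝 (0 : P), Small k (O ∩ f ⁻¹' {0}) := by
  haveI := FiniteDimensional.complete ℂ P
  obtain ⟨r, hr, h1⟩ := Metric.eventually_nhds_iff_ball.1 hf.eventually_analyticAt
  obtain ⟨a, ha, h2⟩ := ((not_eventually.1 h).and_eventually (Metric.ball_mem_nhds 0 hr)).exists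
  obtain ⟨j, hj⟩ := ENat.ne_top_iff_exists.1 (show analyticOrderAt (fun t : ℂ => f (t • a)) 0 ≠ ⊤
    from fun e => ha (by
      have h3 : AnalyticOnNhd ℂ (fun t : ℂ => f (t • a)) ((fun t : ℂ => t • a) ⁻¹' Metric.ball 0 r) :=
        fun t ht => (h1 _ ht).comp_of_eq (analyticAt_id.smul analyticAt_const) rfl
      have h4 : Convex ℝ ((fun t : ℂ => t • a) ⁻¹' Metric.ball 0 r) :=
        (convex_ball 0 r).linear_preimage ((LinearMap.toSpanSingleton ℂ P a).restrictScalars ℝ)
      simpa using h3.eqOn_zero_of_preconnected_of_eventuallyEq_zero h4.isPreconnected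
        (z₀ := 0) (by simpa using hr) (analyticOrderAt_eq_top.1 e) (show (1 : ℂ) ∈ _ by simpa using h2)))
  exact small_of_order hk a j hf hj.symm

end Dim

open Dim

theorem cd_of_dimH {E : Type} [NormedAddCommGroup E] [NormedSpace ℝ E] [FiniteDimensional ℝ E]
    {k : ℕ} {A : Set E} (h : dimH A < k + 1) : CD k A := by
  haveI := FiniteDimensional.proper ℝ E
  haveI : Nice E := ⟨inferInstance, inferInstance, inferInstance⟩
  borelize E
  have h1 := hausdorffMeasure_of_dimH_lt (d := ((k + 1 : ℕ) : ℝ≥0)) (by simpa using h)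
  simpa using cd_of_null (k + 1) h1

theorem _root_.Vale.Agent.P269.Mono.Small.cd {E : Type} [NormedAddCommGroup E] [NormedSpace ℝ E]
    [FiniteDimensional ℝ E] {k : ℕ} {A : Set E} (h : Mono.Small k A) : CD k A := by
  have h1 := h (Fin 0 → ℝ)
  have h2 : dimH A ≤ dimH (A ×ˢ (univ : Set (Fin 0 → ℝ))) := by
    conv_lhs => rw [← fst_image_prod A (univ_nonempty (α := Fin 0 → ℝ))]
    exact LipschitzWith.prod_fst.dimH_image_le _
  refine cd_of_dimH ((h2.trans h1).trans_lt ?_)
  simp only [Module.finrank_fin_fun, add_zero]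
  exact_mod_cast Nat.lt_succ_self k

theorem cd_zero_set {n : ℕ} {f : (Fin n → ℂ) → ℂ} (hf : AnalyticAt ℂ f 0)
    (h : ¬∀ᶠ z in 𝓝 0, f z = 0) :
    ∃ U ∈ 𝓝 (0 : Fin n → ℂ), CD (2 * n - 2) (U ∩ f ⁻¹' {0}) := by
  cases n with
  | zero =>
    refine ⟨univ, univ_mem, cd_empty.mono fun z hz => h (Eventually.of_forall fun w => ?_)⟩
    rw [Subsingleton.elim w z]
    exact hz.2
  | succ n =>
    obtain ⟨U, h1, h2⟩ := small_zero_germ (k := 2 * n) (by simp [mul_add]) hf h
    exact ⟨U, h1, h2.cd.le (by push_cast; omega)⟩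

end Vale.Agent.P269.Orb
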