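import Vale.Agent.P269.Orb.Ori

set_option linter.all false

/-!
# The fundamental class of an oriented orbifold atlas
-/

namespace Vale.Agent.P269.Orb

open Set Topology Filter Vale.Agent.P291Z unitInterval

variable {X Y : Type} [TopologicalSpace X] [TopologicalSpace Y] {n : ℕ}

/-- the values of `β` at the centre of the chart `ψ` of weight `m` -/
def Val (β : BM X) (ψ : (Fin n → ℂ) → X) (m : ℂ) : Prop :=
  ∀ a c, supp (δ a) = ∅ → supp a ⊆ {ψ 0} → LocCo (pull ψ a) c → m * ev β a = c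

theorem isFund_iff {Ch : ((Fin n → ℂ) → X) → ℕ → Prop} {β : BM X} :
    IsFund Ch β ↔ BM.IsDeg (2 * n) β ∧ ∀ ψ m, Ch ψ m → Val β ψ m := Iff.rfl

/-- a germ with an isolated preimage of the centre -/
def PCh (ψ : (Fin n → ℂ) → X) : Prop := ∀ᶠ z in 𝓝 0, ContinuousAt ψ z ∧ (ψ z = ψ 0 → z = 0)

/-- `ψ` and `ψ'` differ by a positive germ -/
def Rep (ψ ψ' : (Fin n → ℂ) → X) : Prop := ∃ θ, PosGerm θ ∧ ∀ᶠ z in 𝓝 0, ψ z = ψ' (θ z)

/-- a chart of a homology manifold -/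
structure GCh (ψ : (Fin n → ℂ) → X) : Prop where
  pch : PCh ψ
  gen : ∃ a, PtGen (2 * n) (ψ 0) a ∧ LocCo (pull ψ a) 1

theorem PCh.isLoc {ψ : (Fin n → ℂ) → X} (h : PCh ψ) {a : Coch X} (ha : δ a ∈ Van (ψ 0))
    (hs : ∀ᶠ x in 𝓝 (ψ 0), x ≠ ψ 0 → a ∈ Van x) : IsLoc (pull ψ a) := by
  filter_upwards [h, h.self_of_nhds.1.eventually (hs.and (eventually_van ha))] with z h1 h2
  exact ⟨by rw [δ_pull]; exact Van.pull h1.1 h2.2,
    fun h0 => Van.pull h1.1 (h2.1 fun e => h0 (h1.2 e))⟩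

theorem PCh.isLoc' {ψ : (Fin n → ℂ) → X} (h : PCh ψ) {a : Coch X} (ha : supp (δ a) = ∅)
    (hs : supp a ⊆ {ψ 0}) : IsLoc (pull ψ a) :=
  h.isLoc (supp_eq_empty.1 ha _) (Eventually.of_forall fun _ hx h' => hx (hs h'))

omit [TopologicalSpace X] in
theorem Rep.of_eq {ψ ψ' : (Fin n → ℂ) → X} (h : ∀ᶠ z in 𝓝 0, ψ z = ψ' z) : Rep ψ ψ' :=
  ⟨id, posGerm_id, h⟩

omit [TopologicalSpace X] in
theorem Rep.refl (ψ : (Fin n → ℂ) → X) : Rep ψ ψ := Rep.of_eq (Eventually.of_forall fun _ => rfl)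

omit [TopologicalSpace X] in
theorem Rep.zero {ψ ψ' : (Fin n → ℂ) → X} (h : Rep ψ ψ') : ψ 0 = ψ' 0 := by
  obtain ⟨θ, h1, h2⟩ := h
  rw [h2.self_of_nhds, h1.germ.zero]

omit [TopologicalSpace X] in
theorem Rep.trans {ψ ψ' ψ'' : (Fin n → ℂ) → X} (h : Rep ψ ψ') (h' : Rep ψ' ψ'') : Rep ψ ψ'' := by
  obtain ⟨θ, h1, h2⟩ := h
  obtain ⟨θ', h3, h4⟩ := h'
  exact ⟨θ' ∘ θ, h3.comp h1, (h2.and (h1.germ.tendsto.eventually h4)).mono fun z hz =>
    hz.1.trans hz.2⟩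

omit [TopologicalSpace X] [TopologicalSpace Y] in
theorem Rep.comp {ψ ψ' : (Fin n → ℂ) → X} (h : Rep ψ ψ') (f : X → Y) : Rep (f ∘ ψ) (f ∘ ψ') :=
  let ⟨θ, h1, h2⟩ := h; ⟨θ, h1, h2.mono fun _ hz => congrArg f hz⟩

omit [TopologicalSpace X] in
theorem Rep.locCo {ψ ψ' : (Fin n → ℂ) → X} (h : Rep ψ ψ') {a : Coch X} {c : ℂ}
    (hc : LocCo (pull ψ' a) c) : LocCo (pull ψ a) c := by
  obtain ⟨θ, h1, h2⟩ := h
  have := hc.pull_pos h1
  rw [pull_pull] at this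
  exact this.pull_congr h2

omit [TopologicalSpace X] in
theorem Rep.locCo' {ψ ψ' : (Fin n → ℂ) → X} (h : Rep ψ ψ') {a : Coch X} (ha : IsLoc (pull ψ' a))
    {c : ℂ} (hc : LocCo (pull ψ a) c) : LocCo (pull ψ' a) c := by
  obtain ⟨d, hd⟩ := ha.exists_locCo
  rwa [hc.unique (h.locCo hd)]

theorem Rep.pch {ψ ψ' : (Fin n → ℂ) → X} (h : Rep ψ ψ') (h' : PCh ψ') : PCh ψ := by
  have h0 := h.zero
  obtain ⟨θ, h1, h2⟩ := h
  filter_upwards [h2.eventually_nhds, h1.germ.ev, h1.germ.tendsto.eventually h'] with z h3 h4 h5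
  exact ⟨(h5.1.comp h4.1).congr (h3.mono fun _ h => h.symm),
    fun e => h4.2 (h5.2 (by rw [← h3.self_of_nhds, e, h0]))⟩

theorem Rep.gch {ψ ψ' : (Fin n → ℂ) → X} (h : Rep ψ ψ') (h' : GCh ψ') : GCh ψ :=
  ⟨h.pch h'.pch, let ⟨a, h1, h2⟩ := h'.gen; ⟨a, h.zero ▸ h1, h.locCo h2⟩⟩

theorem Rep.val {ψ ψ' : (Fin n → ℂ) → X} (h : Rep ψ ψ') (h' : PCh ψ') {β : BM X} {m : ℂ}
    (hv : Val β ψ' m) : Val β ψ m := fun a c h1 h2 h3 =>
  hv a c h1 (h.zero ▸ h2) (h.locCo' (h'.isLoc' h1 (h.zero ▸ h2)) h3)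

theorem Rep.val' {ψ ψ' : (Fin n → ℂ) → X} (h : Rep ψ ψ') {β : BM X} {m : ℂ}
    (hv : Val β ψ m) : Val β ψ' m := fun a c h1 h2 h3 => hv a c h1 (h.zero ▸ h2) (h.locCo h3)

theorem Val.smul {β : BM X} {ψ : (Fin n → ℂ) → X} {m l : ℂ} (h : Val β ψ (m * l)) :
    Val (l • β) ψ m := fun a c h1 h2 h3 => by rw [smul_ev, ← mul_assoc]; exact h a c h1 h2 h3

theorem GCh.ne_zero {β : BM X} {ψ : (Fin n → ℂ) → X} {m : ℂ} (h : GCh ψ) (hv : Val β ψ m) :
    m ≠ 0 := by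
  obtain ⟨a, h1, h2⟩ := h.gen
  exact left_ne_zero_of_mul_eq_one (hv a 1 h1.cyc h1.pt h2)

/-- **uniqueness**: comparison of the values in charts -/
theorem Ori.eq_smul_of_val [Nice X] {β γ : BM X} (h : Ori (2 * n) β) (hγ : BM.IsDeg (2 * n) γ)
    {l : ℂ} {D : Set X} (hD : ∀ S, IsClopen S → D ⊆ S → S = univ) (e : ∀ x ∈ D,
      ∃ (ψ : (Fin n → ℂ) → X) (m m' : ℂ), ψ 0 = x ∧ GCh ψ ∧ Val β ψ m ∧ Val γ ψ m' ∧ m = l * m') :
    γ = l • β := h.eq_smul hγ hD fun x hx => by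
  obtain ⟨ψ, m, m', rfl, h1, h2, h3, rfl⟩ := e x hx
  obtain ⟨a, h4, h5⟩ := h1.gen
  have h6 := h2 a 1 h4.cyc h4.pt h5
  refine ⟨a, h4.cyc, h4.pt, right_ne_zero_of_mul_eq_one h6, mul_left_cancel₀ (h1.ne_zero h3) ?_⟩
  rw [h3 a 1 h4.cyc h4.pt h5, ← h6]
  ring

theorem exists_pull_eq {U : Type} [Nonempty U] {j : U → X} (hj : Function.Injective j)
    (e : Coch U) : ∃ e', pull j e' = e :=
  ⟨pull (Function.invFun j) e, by rw [pull_pull, Function.invFun_comp hj, pull_id]⟩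

theorem LocCo.of_open {U : Set (Fin n → ℂ)} (hU : IsOpen U) (h0 : 0 ∈ U) {a a' : Coch (Fin n → ℂ)}
    {c : ℂ} (h : LocCo a' c) {e : Coch U} (he : supp e ⊆ {⟨0, h0⟩})
    (hv : P291Z.pull Subtype.val a - P291Z.pull Subtype.val a' - δ e ∈ Van (⟨0, h0⟩ : U)) :
    LocCo a c := by
  haveI : Nonempty U := ⟨⟨0, h0⟩⟩
  have hj := hU.isOpenEmbedding_subtypeVal
  obtain ⟨e', rfl⟩ := exists_pull_eq hj.injective e
  rw [δ_pull, ← map_sub, ← map_sub] at hv
  refine h.of_cohom (b := e') ?_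
  filter_upwards [eventually_van (van_of_pull hj hv), hU.mem_nhds h0] with z h1 h2
  exact ⟨h1, fun h3 => van_of_pull hj (x := ⟨z, h2⟩) fun h' => h3 (congrArg Subtype.val (he h'))⟩

theorem cls_pull_add {a : Coch (Fin n → ℂ)} (ha : a ∈ Zc (Fin n → ℂ)) (u : Fin n → ℂ) :
    cls (pull (fun z => z + u) a) = cls a := by
  have hc : Continuous fun w : I × (Fin n → ℂ) => w.2 + (1 - (w.1 : ℝ)) • u := by fun_prop
  have hc' : Continuous fun w : I × (Fin n → ℂ) => (w.1, w.2 - (1 - (w.1 : ℝ)) • u) := by fun_prop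
  rw [cls_pull_eq_of_homotopy hc ha.2 (g := id) (((isCompact_univ.prod ha.1).image hc').of_isClosed_subset
    ((isClosed_supp a).preimage hc) fun w hw => ⟨(w.1, _), ⟨trivial, hw⟩, by simp⟩)
    (fun z => by simp) (fun z => by simp), pull_id]

/-- the fundamental class of `ℂ^n` -/
theorem exists_fund_pi (n : ℕ) : ∃ o : BM (Fin n → ℂ), BM.IsDeg (2 * n) o ∧
    ∀ u, Val o (fun z => z + u) 1 := by
  obtain ⟨f, hf⟩ := Module.Projective.exists_dual_eq_one ℂ (isGen_tau n).ne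
  refine ⟨f, BM.isDeg_iff.2 fun j hj c hc => by rw [(isGen_tau n).eq_zero hj hc, map_zero],
    fun u a c h1 h2 h3 => ?_⟩
  have hc : Continuous fun z : Fin n → ℂ => z + u := by fun_prop
  rw [one_mul, ev_eq, ← cls_pull_add (Zc_of_pt h1 h2) u, (locCo_iff_cls (cocycle_pull hc h1)
    fun z hz => add_right_cancel (h2 (supp_pull hc a hz))).1 h3, map_smul, hf, smul_eq_mul, mul_one]

theorem exists_eq_of_prod {Γ : Type} [Fintype Γ] (v w : Γ → Fin n → ℂ)
    (h : ∀ (s : Fin (Fintype.card Γ * n + 1)) (y : Fin (Fintype.card Γ + 1)),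
      ∏ γ, (((y : ℕ) : ℂ) - ∑ i, v γ i * ((s : ℕ) : ℂ) ^ (i : ℕ)) =
        ∏ γ, (((y : ℕ) : ℂ) - ∑ i, w γ i * ((s : ℕ) : ℂ) ^ (i : ℕ))) (γ₀ : Γ) :
    ∃ γ, v γ₀ = w γ := by
  classical
  have inj : ∀ N, Function.Injective fun y : Fin N => ((y : ℕ) : ℂ) := fun N =>
    Nat.cast_injective.comp Fin.val_injective
  have h1 : ∀ s : Fin (Fintype.card Γ * n + 1), ∃ γ,
      ∑ i, (v γ₀ i - w γ i) * ((s : ℕ) : ℂ) ^ (i : ℕ) = 0 := fun s => by
    have hd : ∀ α : Γ → ℂ, (∏ γ, (Polynomial.X - Polynomial.C (α γ))).natDegree =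
        Fintype.card Γ := fun α => Polynomial.natDegree_finset_prod_X_sub_C_eq_card _ _
    have h2 := Polynomial.eq_of_natDegree_lt_card_of_eval_eq
      (∏ γ, (Polynomial.X - Polynomial.C (∑ i, v γ i * ((s : ℕ) : ℂ) ^ (i : ℕ))))
      (∏ γ, (Polynomial.X - Polynomial.C (∑ i, w γ i * ((s : ℕ) : ℂ) ^ (i : ℕ)))) (inj _)
      (fun y => by simpa only [Polynomial.eval_prod, Polynomial.eval_sub, Polynomial.eval_X,
        Polynomial.eval_C] using h s y) (by rw [hd, hd]; simp)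
    have h3 := congrArg (Polynomial.eval (∑ i, v γ₀ i * ((s : ℕ) : ℂ) ^ (i : ℕ))) h2
    simp only [Polynomial.eval_prod, Polynomial.eval_sub, Polynomial.eval_X,
      Polynomial.eval_C] at h3
    rw [Finset.prod_eq_zero (Finset.mem_univ γ₀) (sub_self _)] at h3
    obtain ⟨γ, -, h4⟩ := Finset.prod_eq_zero_iff.1 h3.symm
    exact ⟨γ, by rw [← h4, ← Finset.sum_sub_distrib]; simp only [sub_mul]⟩
  choose g hg using h1
  obtain ⟨γ, hγ⟩ := Fintype.exists_lt_card_fiber_of_mul_lt_card g (n := n) (by simp)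
  refine ⟨γ, funext fun i => ?_⟩
  have h2 := Polynomial.eq_zero_of_natDegree_lt_card_of_eval_eq_zero'
    (∑ i : Fin n, Polynomial.monomial (i : ℕ) (v γ₀ i - w γ i))
    ((Finset.univ.filter fun s => g s = γ).image fun s : Fin _ => ((s : ℕ) : ℂ)) (fun z hz => by
      obtain ⟨s, h2, rfl⟩ := Finset.mem_image.1 hz
      rw [← hg s, (Finset.mem_filter.1 h2).2, Polynomial.eval_finset_sum]
      simp only [Polynomial.eval_monomial]) (by
      rw [Finset.card_image_of_injective _ (inj _)]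
      exact (Polynomial.natDegree_sum_le_of_forall_le _ _ fun i _ =>
        (Polynomial.natDegree_monomial_le _).trans i.2.le).trans_lt hγ)
  have h3 := congrArg (fun p => Polynomial.coeff p i) h2
  simp only [Polynomial.finset_sum_coeff, Polynomial.coeff_monomial, Fin.val_inj,
    Finset.sum_ite_eq', Finset.mem_univ, if_true, Polynomial.coeff_zero] at h3
  exact sub_eq_zero.1 h3

theorem IsUC.locFin {Γ U : Type} [Group Γ] [Fintype Γ] [TopologicalSpace U] {a : Γ → U → U}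
    {q : U → X} (h : IsUC a q) {e : U → Fin n → ℂ} (he : Continuous e) (hi : Function.Injective e)
    {x : X} (hx : x ∈ range q) :
    ∃ N ∈ 𝓝 x, ∃ (d : ℕ) (f : X → Fin d → ℝ), ContinuousOn f N ∧ InjOn f N := by
  let F : U → Fin (Fintype.card Γ * n + 1) × Fin (Fintype.card Γ + 1) → ℂ := fun u p =>
    ∏ γ, (((p.2 : ℕ) : ℂ) - ∑ i, e (a γ u) i * ((p.1 : ℕ) : ℂ) ^ (i : ℕ))
  have hF : Continuous F := continuous_pi fun p => continuous_finset_prod _ fun γ _ =>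
    continuous_const.sub (continuous_finset_sum _ fun i _ =>
      ((continuous_apply i).comp (he.comp (h.cont_a γ))).mul continuous_const)
  have h1 : q.FactorsThrough q → F.FactorsThrough q := fun _ u u' e => by
    obtain ⟨γ, rfl⟩ := (h.fib u u').1 e
    funext p
    exact Fintype.prod_equiv (Equiv.mulRight γ⁻¹) _ _ fun γ' => by
      rw [Equiv.coe_mulRight, ← h.mul, inv_mul_cancel_right]
  have h2 := h1 fun _ _ e => e
  obtain ⟨N, h3, h4⟩ := (hasDim_complex _ le_rfl).at (h.isOpen_range.mem_nhds hx)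
    (f := Function.extend q F 0) (by
      rintro _ ⟨u, rfl⟩
      refine ContinuousAt.continuousWithinAt ?_
      rw [ContinuousAt, ← h.isOpen.map_nhds_eq h.cont.continuousAt, tendsto_map'_iff,
        h2.extend_comp, h2.extend_apply]
      exact hF.continuousAt) (by
      rintro _ ⟨u, rfl⟩ _ ⟨u', rfl⟩ e'
      rw [h2.extend_apply, h2.extend_apply] at e'
      obtain ⟨γ, h5⟩ := exists_eq_of_prod (fun γ => e (a γ u)) (fun γ => e (a γ u'))
        (fun s y => congrFun e' (s, y)) 1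
      rw [← h.q_a γ u', ← hi h5, h.q_a])
  exact ⟨N, h3, _, h4⟩

theorem IsUC.card_orbit {Γ U : Type} [Group Γ] [Fintype Γ] [TopologicalSpace U] {a : Γ → U → U}
    {q : U → X} (h : IsUC a q) (u : U) : (h.finite_fib (q u)).toFinset.card *
      Nat.card {γ // a γ u = u} = Fintype.card Γ := by
  letI : MulAction Γ U := { smul := a, one_smul := h.one, mul_smul := h.mul }
  have h1 : q ⁻¹' {q u} = MulAction.orbit Γ u := Set.ext fun u' =>
    (eq_comm.trans (h.fib u u') :)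
  rw [← ncard_eq_toFinset_card _ (h.finite_fib (q u)), h1, ← MulAction.index_stabilizer, ← Nat.card_eq_fintype_card,
    mul_comm]
  exact (MulAction.stabilizer Γ u).card_mul_index

/-- a uniformizing chart centred at the origin -/
structure CUC {Γ : Type} [Group Γ] {U : Set (Fin n → ℂ)} (h0 : 0 ∈ U) (a : Γ → U → U)
    (φ : (Fin n → ℂ) → X) : Prop where
  isOpen : IsOpen U
  uc : IsUC a fun u : U => φ u
  pos : ∀ γ, ∃ θ, PosGerm θ ∧ ∀ᶠ u in 𝓝 (⟨0, h0⟩ : U), (a γ u).1 = θ u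

namespace CUC

variable {Γ : Type} [Group Γ] [Fintype Γ] {U : Set (Fin n → ℂ)} {h0 : 0 ∈ U} {a : Γ → U → U}
  {φ : (Fin n → ℂ) → X} (h : CUC h0 a φ)
include h

theorem fix (γ : Γ) : a γ ⟨0, h0⟩ = ⟨0, h0⟩ := by
  obtain ⟨θ, h1, h2⟩ := h.pos γ
  exact Subtype.ext (h2.self_of_nhds.trans h1.germ.zero)

theorem fib {u : U} (e : φ u = φ 0) : u = ⟨0, h0⟩ := by
  obtain ⟨γ, h1⟩ := (h.uc.fib ⟨0, h0⟩ u).1 e.symm
  rw [← h1, h.fix]

theorem contAt {z : Fin n → ℂ} (hz : z ∈ U) : ContinuousAt φ z :=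
  (continuousOn_iff_continuous_restrict.2 h.uc.cont).continuousAt (h.isOpen.mem_nhds hz)

theorem pch (u : U) : PCh fun z : Fin n → ℂ => φ (z + u) := by
  obtain ⟨N, h1, h2, h3⟩ := h.uc.exists_sep u
  have h4 : Tendsto (fun z : Fin n → ℂ => z + u) (𝓝 0) (𝓝 u) :=
    (continuous_add_right _).tendsto' _ _ (zero_add _)
  filter_upwards [h4.eventually (h.isOpen.isOpenEmbedding_subtypeVal.image_mem_nhds.2
    (h1.mem_nhds h2))]
  rintro z ⟨u', h5, h6⟩
  refine ⟨ContinuousAt.comp (g := φ) (h.contAt (h6 ▸ u'.2)) (continuous_add_right _).continuousAt,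
    fun e => ?_⟩
  rw [h3 u' h5 (by simpa only [← h6, zero_add] using e)] at h6
  exact right_eq_add.1 h6

theorem pch0 : PCh φ := by simpa using h.pch ⟨0, h0⟩

variable [Nice X]

theorem exists_one : ∃ c, IsDeg (2 * n) c ∧ supp (δ c) = ∅ ∧ supp c ⊆ {φ 0} ∧
    LocCo (pull φ c) 1 := by
  have hv : Continuous (Subtype.val : U → _) := continuous_subtype_val
  obtain ⟨c, h1, h2, h3, e, h4, h5⟩ := h.uc.surj (isClosed_singleton (x := φ 0))
    (singleton_subset_iff.2 ⟨⟨0, h0⟩, rfl⟩) ((tau_deg n).pull Subtype.val)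
    (cocycle_pull hv (tau_cocycle n)) fun u hu =>
      congrArg φ (supp_tau n (supp_pull hv _ hu))
  choose θ h6 h7 using h.pos
  have h8 : ∀ s : Finset Γ, LocCo (∑ γ ∈ s, pull (θ γ) (tau n)) s.card := fun s => by
    classical
    induction s using Finset.induction_on with
    | empty => simpa using locCo_smul_tau (n := n) 0
    | insert γ s hs ih =>
      rw [Finset.sum_insert hs, Finset.card_insert_of_notMem hs, Nat.cast_succ, add_comm _ (1 : ℂ)]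
      exact (h6 γ).co.add ih
  have h9 := (h8 Finset.univ).smul (Fintype.card Γ : ℂ)⁻¹
  rw [Finset.card_univ, inv_mul_cancel₀ (Nat.cast_ne_zero.2 Fintype.card_ne_zero)] at h9
  refine ⟨c, h1, h2, h3, h9.of_open h.isOpen h0 (e := -e)
    (by rw [supp_neg]; exact fun u hu => h.fib (h4 hu)) ?_⟩
  have h10 : avg a (pull Subtype.val (tau n)) - pull Subtype.val
      ((Fintype.card Γ : ℂ)⁻¹ • ∑ γ, pull (θ γ) (tau n)) ∈ Van (⟨0, h0⟩ : U) := by
    rw [avg_apply, map_smul, map_sum, ← smul_sub, ← Finset.sum_sub_distrib]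
    refine (Van _).smul_mem _ (Submodule.sum_mem _ fun γ _ => ?_)
    rw [pull_pull, pull_pull]
    exact van_pull_congr (h7 γ) _
  have := (Van _).sub_mem h10 (supp_eq_empty.1 h5 ⟨0, h0⟩)
  rw [pull_pull, map_neg, show φ ∘ Subtype.val = fun u : U => φ u from rfl]
  convert this using 1
  abel

theorem gch : GCh φ := by
  obtain ⟨c, h1, h2, h3, h4⟩ := h.exists_one
  haveI : Nice U := Nice.of_isLocallyClosed h.isOpen.isLocallyClosed
  refine ⟨h.pch0, c, ⟨h2, h3, h1, fun V hV => ?_⟩, h4⟩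
  obtain ⟨r, hr, h5⟩ := exists_radius (h4.isLoc.and ((h.isOpen.eventually_mem h0).and
    ((h.contAt h0).eventually_mem hV)))
  let j : (Fin n → ℂ) → U := fun z => ⟨rad r z, (h5 _ (norm_rad_le hr z)).2.1⟩
  have hj : IsOpenEmbedding j :=
    IsOpenEmbedding.of_comp j h.isOpen.isOpenEmbedding_subtypeVal (isOpenEmbedding_rad hr)
  have h6 : ∀ u ∈ range j, φ u.1 ∈ V := by
    rintro _ ⟨z, rfl⟩
    exact (h5 _ (norm_rad_le hr z)).2.2
  have h7 : (⟨0, h0⟩ : U) ∈ range j := ⟨0, Subtype.ext rad_zero⟩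
  let N := ⋂ γ, a γ ⁻¹' range j
  have h8 : (fun u : U => φ u) ⁻¹' ((fun u : U => φ u) '' N) ⊆ range j := by
    rintro u ⟨u', h8, h9⟩
    obtain ⟨γ, rfl⟩ := (h.uc.fib _ _).1 h9
    exact mem_iInter.1 h8 γ
  have h9 : (fun u : U => φ u) '' N ∈ 𝓝 (φ 0) := h.uc.isOpen.image_mem_nhds (x := ⟨0, h0⟩)
    ((isOpen_iInter_of_finite fun γ => hj.isOpen_range.preimage (h.uc.cont_a γ)).mem_nhds
      (mem_iInter.2 fun γ => by rw [mem_preimage, h.fix]; exact h7))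
  have h10 : (fun u : U => φ u) '' N ⊆ V := by
    rintro _ ⟨u, hu, rfl⟩
    exact h6 u (h8 (mem_image_of_mem _ hu))
  refine ⟨_, h9, h10, fun b hb hs => ?_⟩
  obtain ⟨z, hz⟩ := (isGen_tau n).span (cls (pull j (pull (fun u : U => φ u) b)))
  have hc := Zc_of_pt h2 h3
  have hc' := h3.trans (singleton_subset_iff.2 (mem_of_mem_nhds h9))
  have key : ∀ b ∈ Zc X, supp b ⊆ (fun u : U => φ u) '' N →
      pull (fun u : U => φ u) b ∈ Zc U ∧ supp (pull (fun u : U => φ u) b) ⊆ range j :=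
    fun b hb hs => ⟨h.uc.pull_Zc hb (hs.trans (image_subset_range _ _)),
      fun u hu => h8 (hs (supp_pull h.uc.cont b hu))⟩
  have h11 := (Zc X).sub_mem hb ((Zc X).smul_mem z hc)
  have h12 : supp (b - z • c) ⊆ (fun u : U => φ u) '' N :=
    (supp_sub _ _).trans (union_subset hs ((supp_smul _ _).trans hc'))
  obtain ⟨e, h13, h14, h15⟩ := exists_prim_open hj (key _ h11 h12).1 (key _ h11 h12).2 (by
    have k1 := pull_open_Zc hj (key _ hb hs).1 (key _ hb hs).2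
    have k2 := pull_open_Zc hj (key _ hc hc').1 (key _ hc hc').2
    have k3 := (locCo_iff_rad hr fun z hz => (h5 z hz).1).1 h4
    rw [pull_pull, one_smul] at k3
    rw [map_sub, map_sub, map_smul, map_smul, ← cls_eq_iff k1 ((Zc _).smul_mem z k2),
      cls_smul z k2, hz, pull_pull, ← k3]
    rfl)
  obtain ⟨e', h16, h17⟩ := h.uc.prim_c h11 (h12.trans (image_subset_range _ _)) h13 h15
  refine ⟨z, e', isCompact_supp_of_subset (h11.1.union (h13.image h.uc.cont)) h16,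
    h16.trans (union_subset (h12.trans h10) (image_subset_iff.2 fun u hu => h6 u (h14 hu))),
    fun y => ?_⟩
  have := supp_eq_empty.1 h17 y
  rwa [sub_zero] at this

/-- the local fundamental class -/
theorem exists_loc : ∃ Λ ∈ degD X (2 * n), Kills ((dualSoft X (2 * n)).δ Λ)
    (range fun u : U => φ u) ∧ ∀ (u : U) b c, supp (δ b) = ∅ → IsDeg (2 * n) b → supp b ⊆ {φ u} →
      (∀ u' : U, φ u' = φ u → LocCo (pull (fun z => φ (z + u')) b) c) →
        Nat.card {γ // a γ u = u} * Λ.1 b = c := by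
  haveI : Nice U := Nice.of_isLocallyClosed h.isOpen.isLocallyClosed
  have hj := h.isOpen.isOpenEmbedding_subtypeVal
  obtain ⟨o, -, ho⟩ := exists_fund_pi n
  let W := Zc X ⊓ (Fam.sub (range fun u : U => φ u)).coch
  obtain ⟨Λ, h1, h2⟩ := exists_dualC W (((Fintype.card Γ : ℂ)⁻¹ • res Subtype.val o) ∘ₗ
    clsL W (pull fun u : U => φ u).toLinearMap fun b hb => h.uc.pull_Zc hb.1 hb.2) (2 * n)
    fun b hb => ⟨⟨Bc_le_Zc (mem_Bc_of_null hb), Fam.coch_of_null _ hb⟩, by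
      show ((Fintype.card Γ : ℂ)⁻¹ • res Subtype.val o) (cls (pull (fun u : U => φ u) b)) = 0
      rw [cls_of_mem_Bc (mem_Bc_of_null fun u => Van.pull h.uc.cont.continuousAt (hb _)), map_zero]⟩
  have h3 : ∀ b, IsDeg (2 * n) b → b ∈ Zc X → supp b ⊆ range (fun u : U => φ u) → Λ.1 b =
      (Fintype.card Γ : ℂ)⁻¹ * ev (res Subtype.val o) (pull (fun u : U => φ u) b) :=
    fun b h3 h4 h5 => by
      rw [h2 b (by rw [h3.comp_eq]; exact ⟨h4, h5⟩), ← smul_ev, ev_eq]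
      simp only [h3.comp_eq]
      rfl
  refine ⟨Λ, h1, dual_δ_kills fun c h4 h5 => ?_, fun u b c h4 h5 h6 h7 => ?_⟩
  · have h6 := isCompact_supp_of_subset h4 (supp_comp (2 * n - 1) c)
    have h7 := (supp_comp (2 * n - 1) c).trans h5
    rw [← degD_comp h1, h3 _ (isDeg_comp _ _) (Zc.comp (Bc_le_Zc (δ_mem_Bc h4)) _)
      ((supp_comp _ _).trans ((supp_δ c).trans h5)), comp_δ', ← δ_pull, ev_eq, cls_of_mem_Bc
        (δ_mem_Bc (isCompact_supp_of_subset (h.uc.isCompact_preimage h6 h7)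
          (supp_pull h.uc.cont _))), map_zero, mul_zero]
  · rw [h3 b h5 (Zc_of_pt h4 h6) (h6.trans (singleton_subset_iff.2 ⟨u, rfl⟩)),
      ev_finite _ (fun _ => c) (h.uc.finite_fib (φ u)).toFinset (cocycle_pull h.uc.cont h4)
        (fun u' hu => by simpa using h6 (supp_pull h.uc.cont b hu)) fun u' hu b' h8 h9 h10 => ?_,
      Finset.sum_const, nsmul_eq_mul, ← h.uc.card_orbit u, Nat.cast_mul]
    · have := h.uc.card_orbit u
      have k := Fintype.card_ne_zero (α := Γ)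
      rw [← this] at k
      have k1 := Nat.cast_ne_zero (R := ℂ) |>.2 (left_ne_zero_of_mul k)
      have k2 := Nat.cast_ne_zero (R := ℂ) |>.2 (right_ne_zero_of_mul k)
      field_simp
    · obtain ⟨b'', h11, h12, h13⟩ := exists_ext_open' hj (Zc_of_pt h8 h9)
      have h14 : supp b'' ⊆ {(0 : Fin n → ℂ) + u'} := h12.trans (by
        rintro _ ⟨u'', h14, rfl⟩
        rw [h9 h14, zero_add]
        rfl)
      rw [← ev_congr _ h13, ev_res hj o h11 (h12.trans (image_subset_range _ _)),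
        ← ho u' b'' c h11.2 h14, one_mul]
      refine (h7 u' (by simpa using hu)).congr ?_
      rw [show (fun z => φ (z + u')) = φ ∘ fun z => z + u' from rfl, ← pull_pull, ← map_sub]
      refine Van.pull (continuous_add_right _).continuousAt ?_
      rw [zero_add]
      refine van_of_pull hj ?_
      have := (Van u').sub_mem (h13 u') h10
      rw [sub_sub_sub_cancel_right] at this
      rw [map_sub, pull_pull]
      exact this

end CUC

/-- an oriented orbifold atlas: `Ch ψ m` means that `ψ` is a uniformizing chart centred at the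
origin with isotropy group of order `m` -/
structure IsAtlas (Ch : ((Fin n → ℂ) → X) → ℕ → Prop) : Prop where
  loc : ∀ x, ∃ (Γ : Type) (_ : Group Γ) (_ : Fintype Γ) (U : Set (Fin n → ℂ)) (h0 : 0 ∈ U)
    (a : Γ → U → U) (φ : (Fin n → ℂ) → X), φ 0 = x ∧ CUC h0 a φ ∧
      ∀ u : U, ∃ ψ, Ch ψ (Nat.card {γ // a γ u = u}) ∧ ∀ᶠ z in 𝓝 0, ψ z = φ (z + u)
  trans : ∀ ψ m ψ' m', Ch ψ m → Ch ψ' m' → ψ 0 = ψ' 0 → m = m' ∧ Rep ψ ψ'

namespace IsAtlas

variable {Ch : ((Fin n → ℂ) → X) → ℕ → Prop} (h : IsAtlas Ch)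
include h

theorem locFin : Soft.LocFin (univ : Set X) := fun x _ => by
  obtain ⟨Γ, _, _, U, h0, a, φ, rfl, h1, -⟩ := h.loc x
  exact h1.uc.locFin continuous_subtype_val Subtype.val_injective ⟨⟨0, h0⟩, rfl⟩

theorem exists_ch (x : X) : ∃ ψ m, Ch ψ m ∧ ψ 0 = x := by
  obtain ⟨Γ, _, _, U, h0, a, φ, rfl, -, h2⟩ := h.loc x
  obtain ⟨ψ, h3, h4⟩ := h2 ⟨0, h0⟩
  exact ⟨ψ, _, h3, by simpa using h4.self_of_nhds⟩

variable [Nice X]

theorem gch {ψ : (Fin n → ℂ) → X} {m : ℕ} (hψ : Ch ψ m) : GCh ψ := by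
  obtain ⟨Γ, _, _, U, h0, a, φ, e, h1, h2⟩ := h.loc (ψ 0)
  obtain ⟨ψ', h3, h4⟩ := h2 ⟨0, h0⟩
  simp only [add_zero] at h4
  exact ((h.trans _ _ _ _ hψ h3 (h4.self_of_nhds.trans e).symm).2.trans (Rep.of_eq h4)).gch h1.gch

/-- **existence of the fundamental class** -/
theorem exists_isFund : ∃ β, IsFund Ch β := by
  have gen : ∀ x, ∃ ψ m a, Ch ψ m ∧ ψ 0 = x ∧ PtGen (2 * n) x a ∧ LocCo (pull ψ a) 1 := fun x => by
    obtain ⟨ψ, m, h1, rfl⟩ := h.exists_ch x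
    obtain ⟨a, h2⟩ := (h.gch h1).gen
    exact ⟨ψ, m, a, h1, rfl, h2⟩
  obtain ⟨Λ, h1, h2⟩ := (dualSoft X (2 * n)).exists_section (dualSoft_glue _) (n := 0)
    (fun y Λ => (dualSoft X (2 * n)).δ Λ ∈ VanD y ∧ ∀ ψ m a c, Ch ψ m → ψ 0 = y →
      supp (δ a) = ∅ → IsDeg (2 * n) a → supp a ⊆ {y} → LocCo (pull ψ a) c → m * Λ.1 a = c)
    (fun x => by
      obtain ⟨Γ, _, _, U, h0, a, φ, rfl, h1, h2⟩ := h.loc x
      obtain ⟨Λ, h3, h4, h5⟩ := h1.exists_loc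
      refine ⟨Λ, by show Λ ∈ degD X (2 * n - 0); rwa [sub_zero], ?_⟩
      filter_upwards [h1.uc.isOpen_range.mem_nhds ⟨⟨0, h0⟩, rfl⟩]
      rintro _ ⟨u, rfl⟩
      refine ⟨⟨_, h1.uc.isOpen_range.mem_nhds ⟨u, rfl⟩, h4⟩, fun ψ m b c h6 h7 h8 h9 h10 h11 => ?_⟩
      have key : ∀ u' : U, φ u' = φ u → m = Nat.card {γ // a γ u' = u'} ∧
          LocCo (pull (fun z => φ (z + u')) b) c := fun u' e => by
        obtain ⟨ψ', k1, k2⟩ := h2 u'
        obtain ⟨k3, k4⟩ := h.trans _ _ _ _ k1 h6 (by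
          rw [k2.self_of_nhds, zero_add, e, h7])
        exact ⟨k3.symm, ((Rep.of_eq (k2.mono fun _ h => h.symm)).trans k4).locCo h11⟩
      rw [(key u rfl).1]
      exact h5 u b c h8 h9 h10 fun u' e => (key u' e).2)
    (fun y Λ h1 Λ' h2 h3 h4 => by
      obtain ⟨ψ, m, a, k1, k2, k3, k4⟩ := gen y
      have e1 := h3.2 ψ m a 1 k1 k2 k3.cyc k3.deg k3.pt k4
      have e2 := h4.2 ψ m a 1 k1 k2 k3.cyc k3.deg k3.pt k4
      exact k3.prim (Submodule.sub_mem _ h1 h2) (by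
        rw [map_sub]; exact Submodule.sub_mem _ h3.1 h4.1)
        (sub_eq_zero.2 (mul_left_cancel₀ (left_ne_zero_of_mul_eq_one e1) (e1.trans e2.symm))))
    (fun y Λ _ Λ' _ c _ h4 h5 => ⟨by
      have := (VanD y).add_mem ((VanD y).add_mem ((dualSoft X (2 * n)).δ_van _ _ h5)
        ((dualSoft X (2 * n)).δδ c y)) h4.1
      rwa [map_sub, map_sub, sub_add_cancel, sub_add_cancel] at this,
      fun ψ m a z k1 k2 k3 k4 k5 k6 => by
        have := kills_of_van (Zc_of_pt k3 k5).1 fun x hx => k5 hx ▸ h5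
        rw [Submodule.coe_sub, Submodule.coe_sub, LinearMap.sub_apply, LinearMap.sub_apply,
          dualSoft_δ, c.null fun x => Van.par (supp_eq_empty.1 k3 x), sub_zero, sub_eq_zero] at this
        rw [this]
        exact h4.2 ψ m a z k1 k2 k3 k4 k5 k6⟩)
    fun A hA => exactOn_low _ h.locFin (k := 0 - 1) (fun x _ m hm Λ h1 h2 => by
      obtain ⟨-, -, a, -, -, k3, -⟩ := gen x
      exact k3.prim h1 h2 (h1 a _ k3.deg (by omega))) A (subset_univ _) hA _ le_rfl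
  obtain ⟨β, hβ⟩ := exists_BM fun y => (h2 y).1
  have h3 : Λ ∈ degD X (2 * n) := by rw [← sub_zero (2 * (n : ℤ))]; exact h1
  refine ⟨β, fun j a hj ha => ?_, fun ψ m h4 a c h5 h6 h7 => ?_⟩
  · by_cases h4 : a ∈ Zc X
    · rw [hβ a h4, h3 a j ha hj]
    · rw [ev_eq, cls_of_notMem h4, map_zero]
  · rw [hβ a (Zc_of_pt h5 h6), ← degD_comp h3]
    exact (h2 _).2 ψ m _ c h4 rfl (cocycle_comp h5 _) (isDeg_comp _ _) ((supp_comp _ _).trans h6)
      (by rw [← comp_pull]; exact h7.comp)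

theorem ori {β : BM X} (hβ : IsFund Ch β) : Ori (2 * n) β := ⟨hβ.1, h.locFin, fun x => by
  obtain ⟨ψ, m, h1, rfl⟩ := h.exists_ch x
  obtain ⟨a, h2, h3⟩ := (h.gch h1).gen
  exact ⟨a, h2, right_ne_zero_of_mul_eq_one (hβ.2 ψ m h1 a 1 h2.cyc h2.pt h3)⟩⟩

theorem unique {β β' : BM X} (hβ : IsFund Ch β) (hβ' : IsFund Ch β') : β' = β := by
  rw [(h.ori hβ).eq_smul_of_val hβ'.1 (l := 1) (D := univ) (fun S _ h => univ_subset_iff.1 h)
    fun x _ => ?_, one_smul]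
  obtain ⟨ψ, m, h1, h2⟩ := h.exists_ch x
  exact ⟨ψ, m, m, h2, h.gch h1, hβ.2 ψ m h1, hβ'.2 ψ m h1, (one_mul _).symm⟩

theorem epsilon_spec : IsFund Ch (Classical.epsilon (IsFund Ch)) :=
  Classical.epsilon_spec h.exists_isFund

end IsAtlas

end Vale.Agent.P269.Orb
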