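import Vale.Agent.P269.Orb.Atlas

set_option linter.all false

/-!
# Values in charts of restrictions, Gysin pull-backs, push-forwards and products
-/

namespace Vale.Agent.P269.Orb

open Set Topology Filter Vale.Agent.P291Z unitInterval

variable {X Y X₁ X₂ E B : Type} [TopologicalSpace X] [TopologicalSpace Y] [TopologicalSpace X₁]
  [TopologicalSpace X₂] [TopologicalSpace E] [TopologicalSpace B] {n m k : ℕ}

theorem ev_comp {d : ℤ} {β : BM X} (h : BM.IsDeg d β) {a : Coch X} (ha : a ∈ Zc X) :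
    ev β (comp d a) = ev β a := by rw [ev_eq, ev_eq, ← Hc.comp_cls d ha, h.comp]

theorem Val.of_deg {β : BM X} (h : BM.IsDeg (2 * n) β) {ψ : (Fin n → ℂ) → X} {μ : ℂ}
    (hv : ∀ a c, supp (δ a) = ∅ → supp a ⊆ {ψ 0} → IsDeg (2 * n) a → LocCo (pull ψ a) c →
      μ * ev β a = c) : Val β ψ μ := fun a c h1 h2 h3 => by
  rw [← ev_comp h (Zc_of_pt h1 h2)]
  exact hv _ c (cocycle_comp h1 _) ((supp_comp _ _).trans h2) (isDeg_comp _ _)
    (by rw [← comp_pull]; exact h3.comp)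

theorem Val.congr {β : BM X} {ψ ψ' : (Fin n → ℂ) → X} {μ : ℂ} (h : Val β ψ μ)
    (e : ∀ᶠ z in 𝓝 0, ψ z = ψ' z) : Val β ψ' μ := (Rep.of_eq e).val' h

theorem PCh.congr {ψ ψ' : (Fin n → ℂ) → X} (h : PCh ψ) (e : ∀ᶠ z in 𝓝 0, ψ' z = ψ z) : PCh ψ' :=
  (Rep.of_eq e).pch h

theorem GCh.congr {ψ ψ' : (Fin n → ℂ) → X} (h : GCh ψ) (e : ∀ᶠ z in 𝓝 0, ψ' z = ψ z) : GCh ψ' :=
  (Rep.of_eq e).gch h

theorem PCh.cont {ψ : (Fin n → ℂ) → X} (h : PCh ψ) : ContinuousAt ψ 0 := h.self_of_nhds.1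

theorem PCh.comp {ψ : (Fin n → ℂ) → X} (h : PCh ψ) {f : X → Y} (hf : Continuous f)
    (hi : Function.Injective f) : PCh (f ∘ ψ) :=
  h.mono fun _ hz => ⟨hf.continuousAt.comp hz.1, fun e => hz.2 (hi e)⟩

theorem PCh.of_comp {ψ : (Fin n → ℂ) → X} {f : X → Y} (hf : IsInducing f) (h : PCh (f ∘ ψ)) :
    PCh ψ := h.mono fun _ hz => ⟨hf.continuousAt_iff.2 hz.1, fun e => hz.2 (congrArg f e)⟩

theorem LocCo.of_van {ψ : (Fin n → ℂ) → X} (h : ContinuousAt ψ 0) {a b : Coch X} {c : ℂ}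
    (hc : LocCo (P291Z.pull ψ b) c) (e : a - b ∈ Van (ψ 0)) : LocCo (P291Z.pull ψ a) c :=
  hc.congr (by rw [← map_sub]; exact Van.pull h e)

theorem GCh.of_comp [Nice Y] {j : X → Y} (hj : IsOpenEmbedding j) {ψ : (Fin n → ℂ) → X}
    (h : GCh (j ∘ ψ)) : GCh ψ :=
  ⟨h.pch.of_comp hj.isInducing, let ⟨a, h1, h2⟩ := h.gen
    ⟨pull j a, PtGen.pull hj h1, by rwa [pull_pull]⟩⟩

/-- **restriction** -/
theorem Val.res [Nice Y] {j : X → Y} (hj : IsOpenEmbedding j) {β : BM Y} {ψ : (Fin n → ℂ) → X}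
    (hψ : ContinuousAt ψ 0) {μ : ℂ} (h : Val β (j ∘ ψ) μ) : Val (res j β) ψ μ :=
  fun a c h1 h2 h3 => by
    obtain ⟨b, h4, h5, h6⟩ := exists_ext_open' hj (Zc_of_pt h1 h2)
    rw [← ev_congr _ h6, ev_res hj β h4 (h5.trans (image_subset_range _ _))]
    exact h b c h4.2 (h5.trans (image_subset_iff.2 fun x hx => congrArg j (h2 hx)))
      (by rw [← pull_pull]; exact h3.of_van hψ (h6 _))

theorem Val.of_res [Nice Y] {j : X → Y} (hj : IsOpenEmbedding j) {β : BM Y} {ψ : (Fin n → ℂ) → X}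
    {μ : ℂ} (h : Val (P291Z.res j β) ψ μ) : Val β (j ∘ ψ) μ := fun a c h1 h2 h3 => by
  rw [← ev_res hj β (Zc_of_pt h1 h2) (h2.trans (singleton_subset_iff.2 ⟨_, rfl⟩))]
  exact h _ c (cocycle_pull hj.continuous h1) (fun x hx => hj.injective
    (h2 (supp_pull hj.continuous a hx))) (by rwa [pull_pull])

theorem tendsto_append : Tendsto (fun w : (Fin m → ℂ) × (Fin k → ℂ) => Fin.append w.1 w.2) (𝓝 0)
    (𝓝 0) := (continuous_append continuous_fst continuous_snd).tendsto' _ _ append_zero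

theorem tendsto_append_left : Tendsto (fun v : Fin m → ℂ => Fin.append v (0 : Fin k → ℂ)) (𝓝 0)
    (𝓝 0) := (continuous_append continuous_id continuous_const).tendsto' _ _ append_zero

theorem tendsto_append_right : Tendsto (fun w : Fin k → ℂ => Fin.append (0 : Fin m → ℂ) w) (𝓝 0)
    (𝓝 0) := (continuous_append continuous_const continuous_id).tendsto' _ _ append_zero

/-- **Gysin pull-back** -/
theorem Val.ev_gys [Nice X] {i : Y → X} (hi : IsClosedEmbedding i) {t : Coch X}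
    (ht : IsCo (range i) k t) {β : BM X} {Ψ : (Fin (m + k) → ℂ) → X} (hΨ : PCh Ψ) {μ : ℂ}
    (h : Val β Ψ μ) {ψ : (Fin m → ℂ) → Y} (e : ∀ᶠ v in 𝓝 0, i (ψ v) = Ψ (Fin.append v 0))
    (hs : ∀ᶠ w in 𝓝 (0 : (Fin m → ℂ) × (Fin k → ℂ)), Ψ (Fin.append w.1 w.2) ∈ supp t → w.2 = 0)
    {d : ℂ} (hd : LocCo (pull (fun w => Ψ (Fin.append 0 w)) t) d) {a : Coch Y} {c : ℂ}
    (h1 : supp (δ a) = ∅) (h2 : supp a ⊆ {ψ 0}) {j : ℤ} (h3 : IsDeg j a)
    (h4 : LocCo (pull ψ a) c) : μ * ev (gys i t β) a = c * d := by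
  obtain ⟨b, -, h5, -, h6, h7, h8⟩ := (Taut.of_isClosedEmbedding hi).surj_c h3 (Zc_of_pt h1 h2).1
    isOpen_univ (subset_univ _)
  have h9 : b ∈ Near i := mem_Near.2 ⟨h5, fun y => h8 y (supp_eq_empty.1 h1 y)⟩
  have e0 : i (ψ 0) = Ψ 0 := by rw [e.self_of_nhds, append_zero]
  have hψ : ContinuousAt ψ 0 := hi.isInducing.continuousAt_iff.2
    (((hΨ.cont.tendsto.comp tendsto_append_left).congr' (e.mono fun _ h => h.symm)).mono_right
      (by rw [Function.comp_apply, e0]))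
  rw [← ev_congr _ h6, Orb.ev_gys hi ht.cocycle ht.supp β h9]
  refine h _ _ (Near.mul_Zc h9 ht.cocycle ht.supp).2 (fun x hx => ?_) ?_
  · obtain ⟨h10, h11⟩ := supp_mul _ _ hx
    obtain ⟨y, rfl⟩ := ht.supp h11
    rw [← e0, h2 (by_contra fun h' => h7 y h' h10)]
    rfl
  · rw [map_mul]
    refine LocCo.mul ?_ ?_ (ht.deg.pull Ψ) ?_ (by rwa [pull_pull])
    · filter_upwards [e, tendsto_append_left.eventually hΨ] with v h10 h11
      refine ⟨by rw [δ_pull]; exact Van.pull h11.1 (h10 ▸ h9.2 _), fun h0 => Van.pull h11.1 ?_⟩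
      rw [← h10]
      exact h7 _ fun h' => h0 (append_eq_zero.1 (h11.2 (by rw [← h10, h2 h', e0]))).1
    · filter_upwards [hs, tendsto_append.eventually hΨ] with w h10 h11
      exact ⟨by rw [δ_pull]; exact Van.pull h11.1 (supp_eq_empty.1 ht.cocycle _),
        fun h0 => Van.pull h11.1 fun h' => h0 (h10 h')⟩
    · have := h4.of_van hψ (h6 _)
      rw [pull_pull] at this ⊢
      exact this.pull_congr (e.mono fun _ h => h.symm)

theorem Val.gys [Nice X] [Nice Y] {i : Y → X} (hi : IsClosedEmbedding i) {t : Coch X}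
    (ht : IsCo (range i) k t) {β : BM X} (hβ : BM.IsDeg (2 * (m + k : ℕ)) β)
    {Ψ : (Fin (m + k) → ℂ) → X} (hΨ : PCh Ψ) {μ d : ℂ} (h : Val β Ψ (μ * d)) (h0 : d ≠ 0)
    {ψ : (Fin m → ℂ) → Y} (e : ∀ᶠ v in 𝓝 0, i (ψ v) = Ψ (Fin.append v 0))
    (hs : ∀ᶠ w in 𝓝 (0 : (Fin m → ℂ) × (Fin k → ℂ)), Ψ (Fin.append w.1 w.2) ∈ supp t → w.2 = 0)
    (hd : LocCo (pull (fun w => Ψ (Fin.append 0 w)) t) d) : Val (gys i t β) ψ μ :=
  Val.of_deg (by have := hβ.gys i ht.deg; convert this using 1; push_cast; ring)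
    fun a c h1 h2 h3 h4 => mul_right_cancel₀ h0 (by
      rw [← h.ev_gys hi ht hΨ e hs hd h1 h2 h3 h4]; ring)

/-- **Gysin pull-back of orientation classes** -/
theorem Ori.gys_eq [Nice X] [Nice Y] {i : Y → X} (hi : IsClosedEmbedding i) {t : Coch X}
    (ht : IsCo (range i) k t) {β : BM X} (hβ : BM.IsDeg (2 * (m + k : ℕ)) β) {γ : BM Y}
    (hγ : Ori (2 * m) γ) {g : Y → ℂ} (hg : IsLocallyConstant g) {D : Set Y}
    (hD : ∀ S, IsClopen S → D ⊆ S → S = univ)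
    (e : ∀ y ∈ D, ∃ (ψ : (Fin m → ℂ) → Y) (Ψ : (Fin (m + k) → ℂ) → X) (μ μ' d : ℂ), ψ 0 = y ∧
      GCh ψ ∧ Val γ ψ μ' ∧ PCh Ψ ∧ Val β Ψ μ ∧ μ ≠ 0 ∧
      (∀ᶠ v in 𝓝 0, i (ψ v) = Ψ (Fin.append v 0)) ∧
      (∀ᶠ w in 𝓝 (0 : (Fin m → ℂ) × (Fin k → ℂ)), Ψ (Fin.append w.1 w.2) ∈ supp t → w.2 = 0) ∧
      LocCo (pull (fun w => Ψ (Fin.append 0 w)) t) d ∧ d * μ' = g y * μ) :
    gys i t β = cap (hcls (fn g)) γ :=
  hγ.eq_cap_fn (by have := hβ.gys i ht.deg; convert this using 1; push_cast; ring) hg hD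
    fun y hy => by
      obtain ⟨ψ, Ψ, μ, μ', d, rfl, h1, h2, h3, h4, h5, h6, h7, h8, h9⟩ := e y hy
      obtain ⟨a, h10, h11⟩ := h1.gen
      have h12 := h2 a 1 h10.cyc h10.pt h11
      refine ⟨a, h10.cyc, h10.pt, right_ne_zero_of_mul_eq_one h12, mul_left_cancel₀ h5 ?_⟩
      rw [h4.ev_gys hi ht h3 h6 h7 h8 h10.cyc h10.pt h10.deg h11, ← h12]
      linear_combination (ev γ a) * h9

theorem cap_fn_const (l : ℂ) (β : BM X) : cap (hcls (fn fun _ => l)) β = l • β := by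
  rw [fn_const, hcls_smul l cocycle_one, hcls_one, ← pd_eq_cap, map_smul, pd_one]

/-- **push-forward** along a proper map with a finite fibre -/
theorem ev_push_finite [T3Space X] {f : X → Y} (hf : IsPr f) (β : BM X) {ψ : (Fin n → ℂ) → Y}
    (hψ : PCh ψ) (F : Finset X) (hF : ∀ x, f x = ψ 0 → x ∈ F) (w : X → ℂ)
    (h : ∀ x ∈ F, ∃ (φ : (Fin n → ℂ) → X) (θ : (Fin n → ℂ) → Fin n → ℂ) (μ d : ℂ), φ 0 = x ∧
      ContinuousAt φ 0 ∧ Val β φ μ ∧ μ ≠ 0 ∧ Germ0 θ ∧ LocCo (pull θ (tau n)) d ∧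
      (∀ᶠ z in 𝓝 0, f (φ z) = ψ (θ z)) ∧ d = μ * w x) {a : Coch Y} {c : ℂ} (h1 : supp (δ a) = ∅)
    (h2 : supp a ⊆ {ψ 0}) (h3 : LocCo (pull ψ a) c) : ev (push f β) a = c * ∑ x ∈ F, w x := by
  rw [ev_push hf β (Zc_of_pt h1 h2), Finset.mul_sum]
  refine ev_finite β _ F (cocycle_pull hf.cont h1) (fun x hx => hF x (h2 (supp_pull hf.cont a hx)))
    fun x hx a' h4 h5 h6 => ?_
  obtain ⟨φ, θ, μ, d, rfl, h7, h8, h9, h10, h11, h12, rfl⟩ := h x hx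
  refine mul_left_cancel₀ h9 ((h8 a' _ h4 h5 ?_).trans (mul_left_comm _ _ _))
  have := h3.pull h10 h11
  rw [pull_pull] at this
  refine LocCo.of_van h7 (b := pull f a) ?_ (by rw [← neg_sub]; exact (Van _).neg_mem h6)
  rw [pull_pull]
  exact this.pull_congr h12

/-- **the degree formula** -/
theorem Ori.push_eq [Nice X] [Nice Y] {f : X → Y} (hf : IsPr f) {β : BM X}
    (hβ : BM.IsDeg (2 * n) β) {γ : BM Y} (hγ : Ori (2 * n) γ) {g : Y → ℂ}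
    (hg : IsLocallyConstant g) {D : Set Y} (hD : ∀ S, IsClopen S → D ⊆ S → S = univ)
    (e : ∀ y ∈ D, ∃ (ψ : (Fin n → ℂ) → Y) (μ' : ℂ) (F : Finset X) (w : X → ℂ), ψ 0 = y ∧ GCh ψ ∧
      Val γ ψ μ' ∧ (∀ x, f x = y → x ∈ F) ∧ μ' * ∑ x ∈ F, w x = g y ∧ ∀ x ∈ F,
      ∃ (φ : (Fin n → ℂ) → X) (θ : (Fin n → ℂ) → Fin n → ℂ) (μ d : ℂ), φ 0 = x ∧
        ContinuousAt φ 0 ∧ Val β φ μ ∧ μ ≠ 0 ∧ Germ0 θ ∧ LocCo (pull θ (tau n)) d ∧
        (∀ᶠ z in 𝓝 0, f (φ z) = ψ (θ z)) ∧ d = μ * w x) :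
    P291Z.push f β = cap (hcls (fn g)) γ := hγ.eq_cap_fn (hβ.push f) hg hD fun y hy => by
  obtain ⟨ψ, μ', F, w, rfl, h1, h2, h3, h4, h5⟩ := e y hy
  obtain ⟨a, h6, h7⟩ := h1.gen
  have h8 := h2 a 1 h6.cyc h6.pt h7
  refine ⟨a, h6.cyc, h6.pt, right_ne_zero_of_mul_eq_one h8, ?_⟩
  rw [ev_push_finite hf β h1.pch F h3 w h5 h6.cyc h6.pt h7, ← h4, ← h8]
  ring

theorem LocCo.cross {a : Coch (Fin m → ℂ)} {b : Coch (Fin k → ℂ)} {c d : ℂ} (ha : LocCo a c)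
    (hb : LocCo b d) (hd : IsDeg (2 * k) b) :
    LocCo (P291Z.pull (fun z (i : Fin m) => z (Fin.castAdd k i)) a *
      P291Z.pull (fun z (i : Fin k) => z (Fin.natAdd m i)) b) (c * d) := by
  have hp := IsPr.of_isHomeomorph (isHomeomorph_append (E := ℂ) m k)
  have e1 : ∀ (v : Fin m → ℂ) (w : Fin k → ℂ), (fun i => Fin.append v w (Fin.castAdd k i)) = v :=
    fun v w => funext fun i => Fin.append_left _ _ i
  have e2 : ∀ (v : Fin m → ℂ) (w : Fin k → ℂ), (fun i => Fin.append v w (Fin.natAdd m i)) = w :=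
    fun v w => funext fun i => Fin.append_right _ _ i
  refine LocCo.mul (ha.isLoc.mono fun v hv => ?_) (((continuous_snd.tendsto' (0 : (Fin m → ℂ) × (Fin k → ℂ)) 0 rfl).eventually
    hb.isLoc).mono fun w hw => ?_) (hd.pull _) ?_ ?_
  · rw [δ_pull]
    exact ⟨Van.pull hp.cont₁.continuousAt (by rw [e1]; exact hv.1),
      fun h0 => Van.pull hp.cont₁.continuousAt (by rw [e1]; exact hv.2 h0)⟩
  · rw [δ_pull]
    exact ⟨Van.pull hp.cont₂.continuousAt (by rw [e2]; exact hw.1),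
      fun h0 => Van.pull hp.cont₂.continuousAt (by rw [e2]; exact hw.2 h0)⟩
  · rw [pull_pull]
    exact LocCo.pull_congr (g := id) (by rwa [pull_id]) (Eventually.of_forall fun v => e1 v 0)
  · rw [pull_pull]
    exact LocCo.pull_congr (g := id) (by rwa [pull_id]) (Eventually.of_forall fun w => e2 0 w)

/-- **products** -/
theorem Ori.cross_eq [Nice X] [Nice X₁] [Nice X₂] {p₁ : X → X₁} {p₂ : X → X₂}
    (hp : IsHomeomorph fun x => (p₁ x, p₂ x)) {β : BM X} (hβ : Ori (2 * (m + k : ℕ)) β)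
    {β₁ : BM X₁} (h₁ : BM.IsDeg (2 * m) β₁) {β₂ : BM X₂} (h₂ : BM.IsDeg (2 * k) β₂) {l : ℂ}
    {D : Set X} (hD : ∀ S, IsClopen S → D ⊆ S → S = univ)
    (e : ∀ x ∈ D, ∃ (Ψ : (Fin (m + k) → ℂ) → X) (ψ₁ : (Fin m → ℂ) → X₁) (ψ₂ : (Fin k → ℂ) → X₂)
      (μ μ₁ μ₂ : ℂ), Ψ 0 = x ∧ GCh ψ₁ ∧ GCh ψ₂ ∧ Val β Ψ μ ∧ Val β₁ ψ₁ μ₁ ∧ Val β₂ ψ₂ μ₂ ∧
      (∀ᶠ z in 𝓝 0, p₁ (Ψ z) = ψ₁ (fun i => z (Fin.castAdd k i)) ∧
        p₂ (Ψ z) = ψ₂ fun i => z (Fin.natAdd m i)) ∧ μ = l * (μ₁ * μ₂)) :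
    cross p₁ p₂ β₁ β₂ = l • β :=
  hβ.eq_smul (by have := BM.IsDeg.cross hp h₁ h₂; convert this using 1; push_cast; ring) hD
    fun x hx => by
      obtain ⟨Ψ, ψ₁, ψ₂, μ, μ₁, μ₂, rfl, g₁, g₂, v, v₁, v₂, h3, rfl⟩ := e x hx
      obtain ⟨a₁, h4, h5⟩ := g₁.gen
      obtain ⟨a₂, h6, h7⟩ := g₂.gen
      have hp' := IsPr.of_isHomeomorph hp
      have h8 := (cross_Zc hp' h4.zc h6.zc).2
      have h9 : supp (pull p₁ a₁ * pull p₂ a₂) ⊆ {Ψ 0} := fun y hy => hp.injective (Prod.ext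
        ((h4.pt (supp_pull hp'.cont₁ _ (supp_mul _ _ hy).1)).trans h3.self_of_nhds.1.symm)
        ((h6.pt (supp_pull hp'.cont₂ _ (supp_mul _ _ hy).2)).trans h3.self_of_nhds.2.symm))
      have h10 := v _ _ h8 h9 ((h5.cross h7 (h6.deg.pull _)).congr (by
        rw [map_mul, pull_pull, pull_pull, pull_pull, pull_pull]
        have k1 := van_pull_congr (h3.mono fun _ h => h.1) a₁
        have k2 := van_pull_congr (h3.mono fun _ h => h.2) a₂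
        have := (Van _).add_mem (Van.mul_right k1 (pull (fun z => p₂ (Ψ z)) a₂))
          (Van.mul_left k2 (pull (fun z => ψ₁ fun i => z (Fin.castAdd k i)) a₁))
        rwa [sub_mul, mul_sub, sub_add_sub_cancel] at this))
      have h11 := v₁ a₁ 1 h4.cyc h4.pt h5
      have h12 := v₂ a₂ 1 h6.cyc h6.pt h7
      refine ⟨_, h8, h9, right_ne_zero_of_mul_eq_one (h10.trans (one_mul 1)), ?_⟩
      rw [cross_spec hp β₁ β₂ a₁ h4.zc a₂ h6.zc]
      linear_combination (-ev β₁ a₁ * ev β₂ a₂) * h10 +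
        l * ev β (pull p₁ a₁ * pull p₂ a₂) * (μ₂ * ev β₂ a₂ * h11 + h12)

/-- the local coefficient of the pull-back of a Thom cocycle along a map which is given by `s` in
a continuous family `Ξ` of parametrizations of the fibres -/
theorem IsOVB.locCo_section [Nice E] [Nice B] {r : ℕ} {p : E → B} {Z : Set E}
    {chart : (r : ℕ) → ((Fin r → ℂ) → E) → Prop} (h : IsOVB r p Z chart) {t : Coch E}
    (ht : IsThom Z chart t) {Ξ : (Fin n → ℂ) × (Fin r → ℂ) → E}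
    (hΞ : ∀ᶠ y in 𝓝 0, ContinuousAt Ξ y ∧ chart r fun v => Ξ (y.1, v))
    {s : (Fin n → ℂ) → Fin r → ℂ} (hs : Germ0 s) {d : ℂ} (hd : LocCo (pull s (tau r)) d) :
    LocCo (pull (fun w => Ξ (w, s w)) t) d := by
  have h1 := hΞ.self_of_nhds.2
  have h2 : LocCo (pull (fun v => Ξ (0, v)) t) 1 :=
    (locCo_iff_cls (cocycle_pull (h.chart_cont h1) ht.1) (h.supp_chart ht.2.1 h1)).2 (by
      rw [one_smul]; exact ht.cls_chart h1)
  have h3 := h2.pull hs hd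
  rw [one_mul, pull_pull] at h3
  obtain ⟨ε, hε, h4⟩ := Metric.nhds_basis_closedBall.mem_iff.1 hΞ
  refine h3.homotopy (h := fun w : I × (Fin n → ℂ) => Ξ ((w.1 : ℝ) • w.2, s w.2)) ?_
    (fun z => by simp) fun z => by simp
  filter_upwards [hs.ev, Metric.closedBall_mem_nhds 0 hε,
    hs.tendsto.eventually (Metric.closedBall_mem_nhds 0 hε)] with z h5 h6 h7 l
  have h8 := h4 (show ((l : ℝ) • z, s z) ∈ Metric.closedBall 0 ε from by
    rw [mem_closedBall_zero_iff] at h6 ⊢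
    rw [dist_zero_right] at h7
    refine norm_prod_le_iff.2 ⟨?_, h7⟩
    rw [norm_smul, Real.norm_of_nonneg l.2.1]
    exact (mul_le_of_le_one_left (norm_nonneg _) l.2.2).trans h6)
  have h9 : Continuous fun w : I × (Fin n → ℂ) => (w.1 : ℝ) • w.2 := by fun_prop
  exact ⟨ContinuousAt.comp (g := Ξ) h8.1 (h9.continuousAt.prodMk
    (ContinuousAt.comp (g := s) h5.1 continuousAt_snd)), supp_eq_empty.1 ht.1 _,
    fun h0 h' => h0 (h5.2 ((h.chart_zero h8.2 _).1 (ht.2.1 h')))⟩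

/-- the orientation cocycle at a point -/
theorem exists_pt_cocycle (u : Fin n → ℂ) : ∃ t : Coch (Fin n → ℂ), IsCo {u} n t ∧
    LocCo (pull (fun z => z + u) t) 1 ∧ cls t = cls (tau n) := by
  have hc : Continuous fun z : Fin n → ℂ => z + -u := by fun_prop
  refine ⟨pull (fun z => z + -u) (tau n), ⟨cocycle_pull hc (tau_cocycle n), (tau_deg n).pull _,
    fun z hz => add_neg_eq_zero.1 (supp_tau n (supp_pull hc _ hz))⟩, ?_,
    cls_pull_add (isGen_tau n).mem _⟩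
  rw [pull_pull]
  exact LocCo.pull_congr (g := id) (by rw [pull_id]; exact locCo_tau)
    (Eventually.of_forall fun z => add_neg_cancel_right z u)

end Vale.Agent.P269.Orb
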