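import Vale.Agent.P269.Orb.LC
import Vale.Agent.P269.Ch.Tot
import Vale.Agent.P269.Loc.Nrm

set_option linter.all false

/-!
# Invariant subsets, cylinders, homotopies of sections, extension of bundles
-/

namespace Vale.Agent.P269.Ch

open Set Topology Filter Module Vale.Agent.P291Z Vale.Agent.P269.Orb unitInterval

variable {Y'' Y' Y : Sp}

namespace Sp

variable (Y)

/-- an invariant locally closed subset -/
noncomputable def sub (S : SubMulAction Y.G Y.T) (hS : IsLocallyClosed (S : Set Y.T)) : Sp :=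
  haveI : Nice S := Nice.of_isLocallyClosed hS
  haveI := (Y.orb.sub S hS).contSMul
  Y.abv S Subtype.val continuous_subtype_val fun _ _ => rfl

/-- the inclusion of an invariant locally closed subset -/
noncomputable def subI (S : SubMulAction Y.G Y.T) (hS : IsLocallyClosed (S : Set Y.T)) :
    Mor (Y.sub S hS) Y :=
  ⟨MonoidHom.id _, fun s : S => s.1, continuous_id, continuous_subtype_val, fun _ _ => rfl⟩

variable {Y} {S : SubMulAction Y.G Y.T}

theorem subI_mem (hS : IsLocallyClosed (S : Set Y.T)) (t : (Y.sub S hS).T) :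
    (Y.subI S hS).f t ∈ S := t.2

theorem range_subI (hS : IsLocallyClosed (S : Set Y.T)) : range (Y.subI S hS).map = Y.π '' S :=
  ((Y.sub S hS).isQuo.range_map Y.isQuo (Y.subI S hS).map_π).trans
    (congrArg _ Subtype.range_coe)

theorem isEmbedding_subI (hS : IsLocallyClosed (S : Set Y.T)) : IsEmbedding (Y.subI S hS).map :=
  (Y.sub S hS).isQuo.isEmbedding_map Y.isQuo (Y.subI S hS).map_π (fun g _ => ⟨g, rfl⟩)
    IsEmbedding.subtypeVal

theorem isOpenEmbedding_subI (hS : IsOpen (S : Set Y.T)) :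
    IsOpenEmbedding (Y.subI S hS.isLocallyClosed).map :=
  (Y.sub S _).isQuo.isOpenEmbedding_map Y.isQuo (Y.subI S _).map_π (fun g _ => ⟨g, rfl⟩)
    hS.isOpenEmbedding_subtypeVal

theorem isClosedEmbedding_subI (hS : IsClosed (S : Set Y.T)) :
    IsClosedEmbedding (Y.subI S hS.isLocallyClosed).map :=
  (Y.sub S _).isQuo.isClosedEmbedding_map Y.isQuo (Y.subI S _).map_π (fun g _ => ⟨g, rfl⟩)
    hS.isClosedEmbedding_subtypeVal

theorem subset_range_subI (hS : IsLocallyClosed (S : Set Y.T)) {A : Set Y.X}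
    (h : ∀ t, Y.π t ∈ A → t ∈ S) : A ⊆ range (Y.subI S hS).map := fun x hx => by
  obtain ⟨t, rfl⟩ := Y.surj x
  exact range_subI hS ▸ ⟨t, h t hx, rfl⟩

theorem exists_open {A : Set Y.T} {P : Y.T → Prop} (hP : ∀ (g : Y.G) t, P t → P (g • t))
    (h : ∀ t ∈ A, ∀ᶠ x in 𝓝 t, P x) :
    ∃ U : SubMulAction Y.G Y.T, IsOpen (U : Set Y.T) ∧ A ⊆ U ∧ ∀ t ∈ U, P t :=
  ⟨⟨interior {t | P t}, fun g t ht => mem_interior_iff_mem_nhds.2 (mem_of_superset
      ((continuous_const_smul g⁻¹).continuousAt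
        (by rw [inv_smul_smul]; exact mem_interior_iff_mem_nhds.1 ht)) fun x hx => by
      simpa using hP g _ hx)⟩,
    isOpen_interior, fun t ht => mem_interior_iff_mem_nhds.2 (h t ht), fun _ ht => interior_subset ht⟩

theorem isol {A B : Set Y.X} (h : ∀ t, Y.π t ∈ A → ∀ᶠ x in 𝓝 t, Y.π x ∈ B → Y.π x ∈ A) :
    Isol A B := fun x hx => by
  obtain ⟨t, rfl⟩ := Y.surj x
  rw [← Y.quo.isOpenMap.map_nhds_eq Y.cont.continuousAt]
  exact h t hx

theorem isol_iff {A B : Set Y.X} :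
    Isol A B ↔ ∀ t, Y.π t ∈ A → ∀ᶠ x in 𝓝 t, Y.π x ∈ B → Y.π x ∈ A :=
  ⟨fun h t ht => Y.cont.continuousAt.eventually (h _ ht), isol⟩

variable (Y)

/-- the action on the product with a parameter space -/
@[reducible] def extAct (B : Type) : MulAction Y.G (B × Y.T) where
  smul g p := (p.1, g • p.2)
  one_smul p := Prod.ext rfl (one_smul _ p.2)
  mul_smul g h p := Prod.ext rfl (mul_smul g h p.2)

/-- the product with a parameter space -/
def ext (B : Type) [TopologicalSpace B] [Nice B] : Sp :=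
  letI := Y.extAct B
  haveI : ContinuousSMul Y.G (B × Y.T) := ⟨(continuous_fst.comp continuous_snd).prodMk
    (continuous_fst.smul (continuous_snd.comp continuous_snd))⟩
  Sp.of (G := Y.G) (T := B × Y.T) (π := Prod.map id Y.π)
    (Y.orb.of_map continuous_snd fun _ _ => rfl)
    ⟨IsOpenQuotientMap.id.prodMap Y.quo, fun t t' => ⟨fun h =>
      ((Y.fib _ _).1 (congrArg Prod.snd h)).imp fun _ hg => Prod.ext (Prod.ext_iff.1 h).1 hg,
      fun ⟨g, hg⟩ => hg ▸ Prod.ext rfl (Y.π_smul g t.2).symm⟩⟩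

variable (B : Type) [TopologicalSpace B] [Nice B]

/-- the projection -/
def extP : Mor (Y.ext B) Y :=
  ⟨MonoidHom.id _, Prod.snd, continuous_id, continuous_snd, fun _ _ => rfl⟩

variable {B}

/-- a fibre -/
def extI (b : B) : Mor Y (Y.ext B) :=
  ⟨MonoidHom.id _, Prod.mk b, continuous_id, Continuous.prodMk_right b, fun _ _ => rfl⟩

theorem extI_map (b : B) : (Prod.mk b : Y.X → B × Y.X) = (Y.extI b).map :=
  (Y.extI b).map_eq fun _ => rfl

theorem extP_map : (Prod.snd : B × Y.X → Y.X) = (Y.extP B).map := (Y.extP B).map_eq fun _ => rfl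

/-- **equivariant Tietze extension** -/
theorem exists_ext {M : Type} [NormedAddCommGroup M] [NormedSpace ℂ M] [FiniteDimensional ℂ M]
    [DistribMulAction Y.G M] [SMulCommClass Y.G ℂ M] [ContinuousSMul Y.G M] {C : Set Y.T}
    (hC : IsClosed C) (hi : ∀ g : Y.G, ∀ t ∈ C, g • t ∈ C) {f : Y.T → M} (hf : ContinuousOn f C)
    (he : ∀ g : Y.G, ∀ t ∈ C, f (g • t) = g • f t) :
    ∃ F : Y.T → M, Continuous F ∧ (∀ (g : Y.G) t, F (g • t) = g • F t) ∧ ∀ t ∈ C, F t = f t := by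
  haveI : TietzeExtension.{0} M := TietzeExtension.of_tvs ℂ
  haveI := smulCommClass_real (G := Y.G) (W := M)
  obtain ⟨a, ha⟩ := ContinuousMap.exists_restrict_eq hC ⟨_, hf.restrict⟩
  exact exists_section Y.free (C := fun t => {m | t ∈ C → m = f t})
    (fun t x hx y hy p q _ _ h ht => by rw [hx ht, hy ht, ← add_smul, h, one_smul])
    (fun g t m hm ht => by
      have h1 : t ∈ C := by simpa using hi g⁻¹ _ ht
      rw [hm h1, he g t h1])
    fun t => ⟨univ, univ_mem, a, a.continuous.continuousOn, fun x _ hx =>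
      DFunLike.congr_fun ha ⟨x, hx⟩⟩

end Sp

/-- corestriction -/
noncomputable def Mor.cod (m : Mor Y' Y) (S : SubMulAction Y.G Y.T)
    (hS : IsLocallyClosed (S : Set Y.T)) (h : ∀ t, m.f t ∈ S) : Mor Y' (Y.sub S hS) :=
  ⟨m.ρ, fun t => (⟨m.f t, h t⟩ : S), m.cρ, m.cf.subtype_mk _, fun g t => Subtype.ext (m.eqv g t)⟩

/-- the preimage of an invariant subset -/
def Mor.pre (m : Mor Y' Y) (S : SubMulAction Y.G Y.T) : SubMulAction Y'.G Y'.T :=
  ⟨m.f ⁻¹' S, fun g t ht => show m.f (g • t) ∈ S from m.eqv g t ▸ S.smul_mem _ ht⟩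

theorem Mor.pull_comp (m : Mor Y' Y) (m' : Mor Y'' Y') (t : Coch Y.X) :
    pull (m.comp m').map t = pull m'.map (pull m.map t) := by
  rw [Mor.map_comp, pull_pull]; rfl

theorem Mor.pull_id (t : Coch Y.X) : pull (Mor.id Y).map t = t := by
  rw [show ⇑(Mor.id Y).map = _root_.id from funext (Mor.map_id Y), P291Z.pull_id]

theorem Mor.preimage_comp (m : Mor Y' Y) (m' : Mor Y'' Y') (A : Set Y.X) :
    (m.comp m').map ⁻¹' A = m'.map ⁻¹' (m.map ⁻¹' A) := by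
  rw [Mor.map_comp]; rfl

theorem Mor.preimage_id (A : Set Y.X) : (Mor.id Y).map ⁻¹' A = A := by
  rw [show ⇑(Mor.id Y).map = _root_.id from funext (Mor.map_id Y)]; rfl

section lim

variable {α W W' : Type*} [NormedAddCommGroup W] [NormedSpace ℂ W] [FiniteDimensional ℂ W]
  [NormedAddCommGroup W'] [NormedSpace ℂ W'] {l : Filter α}

theorem exists_lim {w : α → W} {P : α → Prop} (h : ∃ᶠ x in l, w x ≠ 0 ∧ P x) :
    ∃ (l' : Filter α) (c : α → ℂ) (w₀ : W), l'.NeBot ∧ l' ≤ l ∧ (∀ᶠ x in l', P x) ∧ w₀ ≠ 0 ∧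
      Tendsto (fun x => c x • w x) l' (𝓝 w₀) := by
  haveI := FiniteDimensional.proper ℂ W
  haveI := frequently_iff_neBot.1 h
  have h1 := Ultrafilter.of_le (l ⊓ 𝓟 {x | w x ≠ 0 ∧ P x})
  have h2 : ∀ᶠ x in Ultrafilter.of (l ⊓ 𝓟 {x | w x ≠ 0 ∧ P x}), w x ≠ 0 ∧ P x :=
    le_principal_iff.1 (h1.trans inf_le_right)
  obtain ⟨w₀, h3, h4⟩ := (isCompact_sphere (0 : W) 1).ultrafilter_le_nhds
    ((Ultrafilter.of (l ⊓ 𝓟 {x | w x ≠ 0 ∧ P x})).map fun x => ((‖w x‖⁻¹ : ℝ) : ℂ) • w x)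
    (le_principal_iff.2 (h2.mono fun x hx => by
      simp [norm_smul, inv_mul_cancel₀ (norm_ne_zero_iff.2 hx.1)]))
  exact ⟨_, _, w₀, inferInstance, h1.trans inf_le_left, h2.mono fun _ h => h.2, by
    rintro rfl; simpa using h3, h4⟩

theorem tendsto_clm {N : α → W →L[ℂ] W'} {N₀ : W →L[ℂ] W'} (hN : Tendsto N l (𝓝 N₀)) {w : α → W}
    {w₀ : W} (hw : Tendsto w l (𝓝 w₀)) : Tendsto (fun x => N x (w x)) l (𝓝 (N₀ w₀)) :=
  ((isBoundedBilinearMap_apply (𝕜 := ℂ) (E := W) (F := W')).continuous.tendsto (N₀, w₀)).comp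
    (hN.prodMk_nhds hw)

theorem clm_eq_zero [l.NeBot] {N : α → W →L[ℂ] W'} {N₀ : W →L[ℂ] W'} (hN : Tendsto N l (𝓝 N₀))
    {w : α → W} {w₀ : W} (hw : Tendsto w l (𝓝 w₀)) (h : ∀ᶠ x in l, N x (w x) = 0) : N₀ w₀ = 0 :=
  tendsto_nhds_unique (tendsto_clm hN hw) (tendsto_const_nhds.congr' (h.mono fun _ => Eq.symm))

theorem eventually_inj {e : α → W →L[ℂ] W} {e₀ : W →L[ℂ] W} (he : Tendsto e l (𝓝 e₀))
    {N : α → W →L[ℂ] W'} {N₀ : W →L[ℂ] W'} (hN : Tendsto N l (𝓝 N₀))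
    (h : ∀ w, e₀ w = w → N₀ w = 0 → w = 0) : ∀ᶠ x in l, ∀ w, e x w = w → N x w = 0 → w = 0 := by
  by_contra h1
  have h2 : ∀ x, ∃ w, ¬(∀ w, e x w = w → N x w = 0 → w = 0) → w ≠ 0 ∧ e x w = w ∧ N x w = 0 :=
    fun x => by
      by_cases h2 : ∀ w, e x w = w → N x w = 0 → w = 0
      · exact ⟨0, fun h3 => absurd h2 h3⟩
      · push Not at h2
        obtain ⟨w, h3, h4, h5⟩ := h2
        exact ⟨w, fun _ => ⟨h5, h3, h4⟩⟩
  choose w hw using h2
  obtain ⟨l', c, w₀, h3, h4, h5, h6, h7⟩ := exists_lim ((not_eventually.1 h1).mono hw)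
  refine h6 (h w₀ (tendsto_nhds_unique (tendsto_clm (he.mono_left h4) h7) (h7.congr' ?_))
    (clm_eq_zero (hN.mono_left h4) h7 ?_))
  · exact h5.mono fun x hx => by simp only [map_smul, hx.1]
  · exact h5.mono fun x hx => by rw [map_smul, hx.2, smul_zero]

end lim

section sec

variable {E : VB Y} {s s₀ s₁ : Y.T → E.W}

theorem VB.IsSec.eul_congr (h₀ : E.IsSec s₀) (h₁ : E.IsSec s₁) (e : ∀ t, s₀ t = s₁ t) :
    h₀.eul = h₁.eul := by
  obtain rfl : s₀ = s₁ := funext e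
  rfl

theorem VB.IsSec.isol (h : E.IsSec s) {A : Set Y.X}
    (e : ∀ t, Y.π t ∈ A → ∀ᶠ x in 𝓝 t, s x = 0 → Y.π x ∈ A) : Isol A (Y.π '' {t | s t = 0}) :=
  Sp.isol fun t ht => (e t ht).mono fun _ h1 h2 => h1 (h.mem_zeros.1 h2)

theorem iso_extI (E : VB Y) {B : Type} [TopologicalSpace B] [Nice B] (b : B) :
    Iso (Y.extI b) E (E.pb (Y.extP B)) fun _ => LinearMap.id :=
  ⟨Hom.of_continuous (fun _ _ h => h) continuous_snd fun _ _ _ _ => rfl, fun _ _ _ h => h,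
    fun _ w h => ⟨w, h, rfl⟩⟩

/-- **homotopies of sections** whose zeros stay in `A` near `A` -/
theorem VB.IsSec.lcoh_cyl (h₀ : E.IsSec s₀) (h₁ : E.IsSec s₁) {S : I × Y.T → E.W}
    (hS : (E.pb (Y.extP I)).IsSec S) (e₀ : ∀ t, S (0, t) = s₀ t) (e₁ : ∀ t, S (1, t) = s₁ t)
    {A : Set Y.X} (hA : IsClosed A)
    (h : ∀ p : I × Y.T, Y.π p.2 ∈ A → ∀ᶠ q in 𝓝 p, S q = 0 → Y.π q.2 ∈ A) :
    LCoh A h₀.eul h₁.eul := by
  have h2 : ∀ (τ : I) {s : Y.T → E.W} (hs : E.IsSec s), (∀ t, S (τ, t) = s t) →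
      LCoh A hs.eul (pull (Prod.mk τ) hS.eul) := fun τ s hs e => by
    rw [Y.extI_map]
    exact LCoh.of_cohom (hs.isol fun t ht =>
      ((Continuous.prodMk_right τ).continuousAt.eventually (h (τ, t) ht)).mono fun x h1 h2 =>
        h1 ((e x).trans h2)) ((iso_extI E τ).cohom_eul hs hS fun t => (e t).symm)
  exact ((h2 0 h₀ e₀).trans (LCoh.homotopy hA (LCo.of_isCo' hS.isCo (hS.isol h)))).trans
    (h2 1 h₁ e₁).symm

theorem VB.IsSec.lin (h₀ : E.IsSec s₀) (h₁ : E.IsSec s₁) : (E.pb (Y.extP I)).IsSec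
    fun p : I × Y.T => ((1 - p.1 : ℝ) : ℂ) • s₀ p.2 + ((p.1 : ℝ) : ℂ) • s₁ p.2 :=
  ((h₀.pb (Y.extP I)).smul (f := fun p : I × Y.T => ((1 - p.1 : ℝ) : ℂ)) (by fun_prop)
    fun _ _ => rfl).add ((h₁.pb (Y.extP I)).smul (f := fun p : I × Y.T => ((p.1 : ℝ) : ℂ))
      (by fun_prop) fun _ _ => rfl)

/-- **linear homotopies of sections** -/
theorem VB.IsSec.lcoh_lin (h₀ : E.IsSec s₀) (h₁ : E.IsSec s₁) {A : Set Y.X} (hA : IsClosed A)
    (h : ∀ p : I × Y.T, Y.π p.2 ∈ A → ∀ᶠ q : I × Y.T in 𝓝 p,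
      ((1 - q.1 : ℝ) : ℂ) • s₀ q.2 + ((q.1 : ℝ) : ℂ) • s₁ q.2 = 0 → Y.π q.2 ∈ A) :
    LCoh A h₀.eul h₁.eul :=
  h₀.lcoh_cyl h₁ (h₀.lin h₁) (fun t => by simp) (fun t => by simp) hA h

theorem VB.exists_ext_sec (E : VB Y) {C : Set Y.T} (hC : IsClosed C)
    (hi : ∀ g : Y.G, ∀ t ∈ C, g • t ∈ C) {f : Y.T → E.W} (hf : ContinuousOn f C)
    (he : ∀ g : Y.G, ∀ t ∈ C, f (g • t) = g • f t) (hm : ∀ t ∈ C, f t ∈ E.F t) :
    ∃ s, E.IsSec s ∧ ∀ t ∈ C, s t = f t := by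
  obtain ⟨F, h1, h2, h3⟩ := Y.exists_ext hC hi hf he
  exact ⟨fun t => E.P t (F t), ⟨fun t => E.P_mem _ _, E.P_cont.clm_apply h1, fun g t => by
    rw [h2, E.P_smul]⟩, fun t ht => by simp only [h3 t ht, E.P_eq (hm t ht)]⟩

end sec

/-- `e` is a family of projectors on the open set `U` whose images extend the family `F` on `C` -/
structure VB.IsExt (E : VB Y) (C : Set Y.T) (F : Y.T → Submodule ℂ E.W) (r : ℕ)
    (U : SubMulAction Y.G Y.T) (e : Y.T → E.W →L[ℂ] E.W) : Prop where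
  isOpen : IsOpen (U : Set Y.T)
  sub : C ⊆ U
  cont : ∀ t ∈ U, ContinuousAt e t
  eqv : ∀ (g : Y.G) t w, e (g • t) (g • w) = g • e t w
  idem : ∀ t ∈ U, ∀ w, e t (e t w) = e t w
  rank : ∀ t ∈ U, finrank ℂ (LinearMap.range (e t).toLinearMap) = r
  range : ∀ t ∈ C, LinearMap.range (e t).toLinearMap = F t

/-- **extension of bundles** from closed invariant subsets -/
theorem VB.exists_isExt (E : VB Y) {C : Set Y.T} (hC : IsClosed C)
    (hi : ∀ g : Y.G, ∀ t ∈ C, g • t ∈ C) {F : Y.T → Submodule ℂ E.W} {r : ℕ}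
    (closed : IsClosed {x : Y.T × E.W | x.1 ∈ C ∧ x.2 ∈ F x.1}) (rank : ∀ t ∈ C, finrank ℂ (F t) = r)
    (inv : ∀ g : Y.G, ∀ t ∈ C, ∀ w ∈ F t, g • w ∈ F (g • t)) : ∃ U e, E.IsExt C F r U e := by
  classical
  let S : SubMulAction Y.G Y.T := ⟨C, fun g t ht => hi g t ht⟩
  have h0 : IsClosed {x : S × E.W | x.2 ∈ F x.1} := by
    have := closed.preimage (f := fun x : S × E.W => (x.1.1, x.2)) (by fun_prop)
    convert this using 1
    exact Set.ext fun x => (and_iff_right x.1.2).symm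
  obtain ⟨Q, q1, q2, q3, q4⟩ : ∃ Q : S → E.W →L[ℂ] E.W, Continuous Q ∧
      (∀ (g : Y.G) (t : S) w, Q (g • t) (g • w) = g • Q t w) ∧ (∀ (t : S) w, Q t w ∈ F t) ∧
      ∀ (t : S) w, w ∈ F t → Q t w = w :=
    ((E.pb (Y.subI S hC.isLocallyClosed)).sub (fun t : S => F t) r h0 (fun t => rank _ t.2)
      fun g t w hw => inv g _ t.2 w hw).exists_proj
  let f : Y.T → E.W →L[ℂ] E.W := fun t => if h : t ∈ C then Q ⟨t, h⟩ else 0
  have hf : ∀ t : S, f t = Q t := fun t => dif_pos t.2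
  obtain ⟨a, a1, a2, a3⟩ := Y.exists_ext (M := HomW Y.G E.W E.W) hC hi (f := f)
    (continuousOn_iff_continuous_restrict.2 (q1.congr fun t => (hf t).symm))
    fun g t ht => ContinuousLinearMap.ext fun w => by
      have := q2 g ⟨t, ht⟩ (g⁻¹ • w)
      rw [smul_inv_smul, ← hf, ← hf] at this
      exact this
  let P : Y.T → E.W →L[ℂ] E.W := fun t => (a t).val
  have Pc : Continuous P := a1
  let u : Y.G → (E.W →L[ℂ] E.W)ˣ := fun g => ⟨lin E.W g, lin E.W g⁻¹,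
    ContinuousLinearMap.ext (smul_inv_smul g), ContinuousLinearMap.ext (inv_smul_smul g)⟩
  have Ps : ∀ (g : Y.G) t, P (g • t) = ConjAct.toConjAct (u g) • P t := fun g t => a2 g t
  have Pm : ∀ t ∈ C, (∀ w, P t w ∈ F t) ∧ ∀ w ∈ F t, P t w = w := fun t ht => by
    have : P t = Q ⟨t, ht⟩ := (a3 t ht).trans (hf ⟨t, ht⟩)
    rw [this]
    exact ⟨q3 ⟨t, ht⟩, q4 ⟨t, ht⟩⟩
  have Pi : ∀ t ∈ C, P t * P t = P t := fun t ht =>
    ContinuousLinearMap.ext fun w => (Pm t ht).2 _ ((Pm t ht).1 w)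
  have es : ∀ (g : Y.G) t v, Loc.idm (P (g • t)) (g • v) = g • Loc.idm (P t) v := fun g t v => by
    rw [Ps, Loc.idm_smul]
    exact congrArg (fun w => g • Loc.idm (P t) w) (inv_smul_smul g v)
  have ec : ∀ t, P t ∈ Loc.idD _ → ContinuousAt (fun t => Loc.idm (P t)) t := fun t ht =>
    (Loc.continuousAt_idm' ht).comp Pc.continuousAt
  have er : ∀ t ∈ C, LinearMap.range (Loc.idm (P t)).toLinearMap = F t := fun t ht => by
    rw [Loc.idm_of_idem (Pi t ht)]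
    exact le_antisymm (by rintro _ ⟨w, rfl⟩; exact (Pm t ht).1 w) fun w hw => ⟨w, (Pm t ht).2 w hw⟩
  obtain ⟨U, h1, h2, h3⟩ := Sp.exists_open (A := C) (P := fun t => P t ∈ Loc.idD _ ∧
    finrank ℂ (LinearMap.range (Loc.idm (P t)).toLinearMap) = r)
    (fun g t ht => ⟨Ps g t ▸ Loc.smul_mem_idD ht.1 _, by
      rw [← ht.2, ← LinearEquiv.finrank_map_eq (DistribMulAction.toLinearEquiv ℂ E.W g)
        (LinearMap.range (Loc.idm (P t)).toLinearMap)]
      refine congrArg (fun S : Submodule ℂ E.W => finrank ℂ S) (Submodule.ext fun v => ?_)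
      refine ⟨fun ⟨w, hw⟩ => ⟨_, ⟨g⁻¹ • w, rfl⟩, ?_⟩, ?_⟩
      · exact (es g t _).symm.trans (by rw [smul_inv_smul]; exact hw)
      · rintro ⟨_, ⟨w, rfl⟩, rfl⟩
        exact ⟨g • w, es g t w⟩⟩) fun t ht => by
      have h1 : ∀ᶠ y in 𝓝 t, P y ∈ Loc.idD _ :=
        Pc.continuousAt.eventually (Loc.isOpen_idD.mem_nhds (Loc.mem_idD_of_idem (Pi t ht)))
      refine h1.and ((Loc.eventually_finrank (ec t h1.self_of_nhds)
        (h1.mono fun y hy => Loc.idm_idem hy)).mono fun y hy => hy.trans ?_)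
      exact (congrArg (fun S : Submodule ℂ E.W => finrank ℂ S) (er t ht)).trans (rank t ht)
  exact ⟨U, fun t => Loc.idm (P t), h1, h2, fun t ht => ec t (h3 t ht).1, es,
    fun t ht w => DFunLike.congr_fun (Loc.idm_idem (h3 t ht).1) w, fun t ht => (h3 t ht).2, er⟩

namespace VB.IsExt

variable {E : VB Y} {C : Set Y.T} {F : Y.T → Submodule ℂ E.W} {r : ℕ} {U : SubMulAction Y.G Y.T}
  {e : Y.T → E.W →L[ℂ] E.W} (h : E.IsExt C F r U e)
include h

theorem mem_iff {t : Y.T} (ht : t ∈ U) {w : E.W} :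
    w ∈ LinearMap.range (e t).toLinearMap ↔ e t w = w :=
  ⟨by rintro ⟨w, rfl⟩; exact h.idem t ht w, fun h1 => ⟨w, h1⟩⟩

theorem continuous {m : Mor Y' Y} (hm : ∀ t, m.f t ∈ U) : Continuous fun t => e (m.f t) :=
  continuous_iff_continuousAt.2 fun t => (h.cont _ (hm t)).comp m.cf.continuousAt

/-- the extended bundle -/
@[reducible] noncomputable def vb (m : Mor Y' Y) (hm : ∀ t, m.f t ∈ U) : VB Y' :=
  (E.pb m).sub (fun t => LinearMap.range (e (m.f t)).toLinearMap) r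
    (Loc.isClosed_of_proj fun t => ⟨fun t => e (m.f t), (h.continuous hm).continuousAt,
      Eventually.of_forall fun x _ => h.mem_iff (hm x)⟩)
    (fun t => h.rank _ (hm t)) (by
      rintro g t _ ⟨w, rfl⟩
      exact ⟨m.ρ g • w, by rw [m.eqv]; exact h.eqv _ _ _⟩)

end VB.IsExt

end Vale.Agent.P269.Ch
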