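import Vale.Agent.P269.Orb.Thom
import Vale.Agent.P269.Orb.Defs

set_option linter.all false

/-!
# Local coefficients of cocycles at the origin, positive germs
-/

namespace Vale.Agent.P269.Orb

open Set Topology Filter Vale.Agent.P291Z unitInterval

variable {n m k : ℕ}

/-- near the origin `a` is a cocycle with support at the origin -/
def IsLoc (a : Coch (Fin n → ℂ)) : Prop :=
  ∀ᶠ z in 𝓝 (0 : Fin n → ℂ), δ a ∈ Van z ∧ (z ≠ 0 → a ∈ Van z)

theorem locCo_iff {a : Coch (Fin n → ℂ)} {c : ℂ} : LocCo a c ↔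
    ∃ b, ∀ᶠ z in 𝓝 (0 : Fin n → ℂ), a - c • tau n - δ b ∈ Van z ∧ (z ≠ 0 → b ∈ Van z) :=
  exists_congr fun b => eventually_congr (Eventually.of_forall fun z =>
    and_congr Iff.rfl not_imp_not.symm)

theorem tau_van {z : Fin n → ℂ} (hz : z ≠ 0) : tau n ∈ Van z := fun h => hz (supp_tau n h)

theorem isLoc_of_supp {a : Coch (Fin n → ℂ)} (h : supp (δ a) = ∅) (hs : supp a ⊆ {0}) : IsLoc a :=
  Eventually.of_forall fun z => ⟨supp_eq_empty.1 h z, fun hz h' => hz (hs h')⟩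

theorem LocCo.isLoc {a : Coch (Fin n → ℂ)} {c : ℂ} (h : LocCo a c) : IsLoc a := by
  obtain ⟨b, hb⟩ := locCo_iff.1 h
  refine hb.mono fun z hz => ⟨?_, fun h0 => ?_⟩
  · have := (Van z).add_mem (Van.δ hz.1) ((Van z).smul_mem c (supp_eq_empty.1 (tau_cocycle n) z))
    rwa [map_sub, map_sub, δ_δ, sub_zero, map_smul, sub_add_cancel] at this
  · have := (Van z).add_mem ((Van z).add_mem hz.1 (Van.δ (hz.2 h0)))
      ((Van z).smul_mem c (tau_van h0))
    rwa [sub_add_cancel, sub_add_cancel] at this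

theorem LocCo.of_cohom {a a' b : Coch (Fin n → ℂ)} {c : ℂ} (h : LocCo a' c)
    (e : ∀ᶠ z in 𝓝 (0 : Fin n → ℂ), a - a' - δ b ∈ Van z ∧ (z ≠ 0 → b ∈ Van z)) : LocCo a c := by
  obtain ⟨b', hb⟩ := locCo_iff.1 h
  refine locCo_iff.2 ⟨b + b', (hb.and e).mono fun z hz => ⟨?_, fun h0 =>
    (Van z).add_mem (hz.2.2 h0) (hz.1.2 h0)⟩⟩
  have := (Van z).add_mem hz.2.1 hz.1.1
  rw [map_add]
  convert this using 1
  abel

theorem LocCo.congr {a a' : Coch (Fin n → ℂ)} {c : ℂ} (h : LocCo a' c) (e : a - a' ∈ Van 0) :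
    LocCo a c :=
  h.of_cohom (b := 0) ((eventually_van e).mono fun z hz =>
    ⟨by rwa [map_zero, sub_zero], fun _ => Submodule.zero_mem _⟩)

theorem locCo_smul_tau (c : ℂ) : LocCo (c • tau n) c :=
  locCo_iff.2 ⟨0, Eventually.of_forall fun z => ⟨by simp, fun _ => Submodule.zero_mem _⟩⟩

theorem locCo_tau : LocCo (tau n) 1 := by simpa using locCo_smul_tau (n := n) 1

theorem locCo_zero_of_van {a : Coch (Fin n → ℂ)} (h : a ∈ Van 0) : LocCo a 0 :=
  (locCo_smul_tau 0).congr (by rwa [zero_smul, sub_zero])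

theorem LocCo.add {a a' : Coch (Fin n → ℂ)} {c c' : ℂ} (h : LocCo a c) (h' : LocCo a' c') :
    LocCo (a + a') (c + c') := by
  obtain ⟨b, hb⟩ := locCo_iff.1 h
  obtain ⟨b', hb'⟩ := locCo_iff.1 h'
  refine locCo_iff.2 ⟨b + b', (hb.and hb').mono fun z hz => ⟨?_, fun h0 =>
    (Van z).add_mem (hz.1.2 h0) (hz.2.2 h0)⟩⟩
  have := (Van z).add_mem hz.1.1 hz.2.1
  rw [map_add, add_smul]
  convert this using 1
  abel

theorem LocCo.smul {a : Coch (Fin n → ℂ)} {c : ℂ} (h : LocCo a c) (d : ℂ) :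
    LocCo (d • a) (d * c) := by
  obtain ⟨b, hb⟩ := locCo_iff.1 h
  refine locCo_iff.2 ⟨d • b, hb.mono fun z hz => ⟨?_, fun h0 => (Van z).smul_mem d (hz.2 h0)⟩⟩
  have := (Van z).smul_mem d hz.1
  rwa [smul_sub, smul_sub, smul_smul, ← map_smul] at this

theorem LocCo.sub {a a' : Coch (Fin n → ℂ)} {c c' : ℂ} (h : LocCo a c) (h' : LocCo a' c') :
    LocCo (a - a') (c - c') := by
  have := h.add (h'.smul (-1))
  rwa [neg_one_smul, neg_one_mul, ← sub_eq_add_neg, ← sub_eq_add_neg] at this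

theorem exists_cut_pt {X : Type} [TopologicalSpace X] [RegularSpace X] {x : X} {a : Coch X}
    (h : ∀ᶠ z in 𝓝 x, z ≠ x → a ∈ Van z) : ∃ N, supp (cut N a) ⊆ {x} ∧ a - cut N a ∈ Van x := by
  obtain ⟨N, hN, hNc, hNs⟩ := exists_mem_nhds_isClosed_subset h
  refine ⟨N, fun z hz => by_contra fun h0 => ?_, cut_in hN a⟩
  obtain ⟨h1, h2⟩ := supp_cut _ _ hz
  rw [hNc.closure_eq] at h1
  exact hNs h1 h0 h2

theorem cocycle_of_pt {X : Type} [TopologicalSpace X] {x : X} {a a' : Coch X} (h : δ a ∈ Van x)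
    (hs : supp a' ⊆ {x}) (e : a - a' ∈ Van x) : supp (δ a') = ∅ := supp_eq_empty.2 fun z => by
  by_cases hz : z = x
  · have := (Van x).sub_mem h (Van.δ e)
    rwa [map_sub, sub_sub_cancel, ← hz] at this
  · exact Van.δ fun h' => hz (hs h')

theorem IsLoc.exists_cut {a : Coch (Fin n → ℂ)} (h : IsLoc a) :
    ∃ N, supp (cut N a) ⊆ {0} ∧ supp (δ (cut N a)) = ∅ ∧ a - cut N a ∈ Van 0 := by
  obtain ⟨N, h1, h2⟩ := exists_cut_pt (h.mono fun z hz => hz.2)
  exact ⟨N, h1, cocycle_of_pt h.self_of_nhds.1 h1 h2, h2⟩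

theorem Zc_of_pt {X : Type} [TopologicalSpace X] {x : X} {a : Coch X} (h : supp (δ a) = ∅)
    (hs : supp a ⊆ {x}) : a ∈ Zc X := ⟨isCompact_supp_of_subset isCompact_singleton hs, h⟩

theorem locCo_iff_cohom {a : Coch (Fin n → ℂ)} (hs : supp a ⊆ {0}) {c : ℂ} :
    LocCo a c ↔ Cohom {0} a (c • tau n) := by
  refine ⟨fun h => ?_, fun ⟨b, h1, h2⟩ => locCo_iff.2 ⟨b, Eventually.of_forall fun z =>
    ⟨supp_eq_empty.1 h2 z, fun hz h' => hz (h1 h')⟩⟩⟩
  obtain ⟨b, hb⟩ := locCo_iff.1 h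
  obtain ⟨N, h1, h2⟩ := exists_cut_pt (hb.mono fun z hz => hz.2)
  refine ⟨cut N b, h1, supp_eq_empty.2 fun z => ?_⟩
  by_cases hz : z = 0
  · have := (Van 0).add_mem hb.self_of_nhds.1 (Van.δ h2)
    rwa [map_sub, sub_add_sub_cancel, ← hz] at this
  · exact (Van z).sub_mem ((Van z).sub_mem (fun h' => hz (hs h')) ((Van z).smul_mem c (tau_van hz)))
      (Van.δ fun h' => hz (h1 h'))

theorem locCo_iff_cls {a : Coch (Fin n → ℂ)} (h : supp (δ a) = ∅) (hs : supp a ⊆ {0}) {c : ℂ} :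
    LocCo a c ↔ cls a = c • cls (tau n) := by
  rw [locCo_iff_cohom hs, ← cls_smul c (isGen_tau n).mem]
  exact ⟨cls_eq_of_cohom isCompact_singleton, cohom_zero_of_cls h (cocycle_smul c (tau_cocycle n))
    hs ((supp_smul _ _).trans (supp_tau n))⟩

theorem IsLoc.exists_locCo {a : Coch (Fin n → ℂ)} (h : IsLoc a) : ∃ c, LocCo a c := by
  obtain ⟨N, h1, h2, h3⟩ := h.exists_cut
  obtain ⟨c, hc⟩ := (isGen_tau n).span (cls (cut N a))
  exact ⟨c, ((locCo_iff_cls h2 h1).2 hc).congr h3⟩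

theorem LocCo.unique {a : Coch (Fin n → ℂ)} {c c' : ℂ} (h : LocCo a c) (h' : LocCo a c') :
    c = c' := by
  obtain ⟨N, h1, h2, h3⟩ := h.isLoc.exists_cut
  have h4 : cut N a - a ∈ Van 0 := by rw [← neg_sub]; exact (Van _).neg_mem h3
  exact smul_left_injective ℂ (isGen_tau n).ne
    (((locCo_iff_cls h2 h1).1 (h.congr h4)).symm.trans ((locCo_iff_cls h2 h1).1 (h'.congr h4)))

theorem LocCo.eq_zero_of_deg {a : Coch (Fin n → ℂ)} {c : ℂ} (h : LocCo a c) {j : ℤ} (hj : IsDeg j a)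
    (hn : j ≠ 2 * n) : c = 0 := by
  obtain ⟨N, h1, h2, h3⟩ := h.isLoc.exists_cut
  have h4 : cut N a - a ∈ Van 0 := by rw [← neg_sub]; exact (Van _).neg_mem h3
  have h5 := (locCo_iff_cls h2 h1).1 (h.congr h4)
  rw [(isGen_tau n).eq_zero hn (cls_mem_deg (hj.cut N))] at h5
  exact (smul_eq_zero.1 h5.symm).resolve_right (isGen_tau n).ne

theorem LocCo.comp {a : Coch (Fin n → ℂ)} {c : ℂ} (h : LocCo a c) : LocCo (comp (2 * n) a) c := by
  obtain ⟨b, hb⟩ := locCo_iff.1 h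
  refine locCo_iff.2 ⟨P291Z.comp (2 * n - 1) b, hb.mono fun z hz =>
    ⟨?_, fun h0 => Van.comp (hz.2 h0) _⟩⟩
  have := Van.comp hz.1 (2 * n)
  rwa [map_sub, map_sub, map_smul, (tau_deg n).comp_eq, comp_δ'] at this

theorem van_pull_congr {X Y : Type} [TopologicalSpace X] {f g : X → Y} {x : X}
    (h : ∀ᶠ z in 𝓝 x, f z = g z) (a : Coch Y) : pull f a - pull g a ∈ Van x :=
  notMem_supp.2 ⟨_, h, fun l hl => by
    rw [Coch.sub_val, Pi.sub_apply, pull_val, pull_val, List.map_congr_left hl, sub_self]⟩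

theorem LocCo.pull_congr {Y : Type} {f g : (Fin n → ℂ) → Y} {a : Coch Y} {c : ℂ}
    (h : LocCo (pull g a) c) (e : ∀ᶠ z in 𝓝 0, f z = g z) : LocCo (pull f a) c :=
  h.congr (van_pull_congr e a)

theorem rad_ne_zero {r : ℝ} (hr : 0 < r) {z : Fin n → ℂ} (hz : z ≠ 0) : rad r z ≠ 0 := fun h =>
  hz ((isOpenEmbedding_rad hr).injective (h.trans rad_zero.symm))

theorem cls_pull_rad {r : ℝ} (hr : 0 < r) {a : Coch (Fin n → ℂ)} (h : supp (δ a) = ∅)
    (hs : supp a ⊆ {0}) : cls (pull (rad r) a) = cls a := by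
  have hpos : ∀ (s : I) (z : Fin n → ℂ), 0 < (1 - (s : ℝ)) * (r * (√(1 + ‖z‖ ^ 2))⁻¹) + s :=
    fun s z => by
      have := s.2.1
      have := s.2.2
      have h3 := rad_coef_pos hr z
      rcases eq_or_lt_of_le s.2.1 with h4 | h4
      · rw [← h4]; simpa using h3
      · have : 0 ≤ (1 - (s : ℝ)) * (r * (√(1 + ‖z‖ ^ 2))⁻¹) := mul_nonneg (by linarith) h3.le
        linarith
  have hc : Continuous fun w : I × (Fin n → ℂ) =>
      ((1 - (w.1 : ℝ)) * (r * (√(1 + ‖w.2‖ ^ 2))⁻¹) + w.1) • w.2 :=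
    (((continuous_const.sub (by fun_prop)).mul ((continuous_rad_coef r).comp continuous_snd)).add
      (by fun_prop)).smul continuous_snd
  rw [cls_pull_eq_of_homotopy hc h (g := id) ((isCompact_univ.prod isCompact_singleton).of_isClosed_subset
    ((isClosed_supp a).preimage hc) fun w hw => ⟨trivial,
      (smul_eq_zero.1 (hs hw)).resolve_left (hpos _ _).ne'⟩) (fun z => by simp [rad])
    (fun z => by simp), pull_id]

theorem pull_rad_spec {r : ℝ} (hr : 0 < r) {a : Coch (Fin n → ℂ)}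
    (h : ∀ z, ‖z‖ ≤ r → δ a ∈ Van z ∧ (z ≠ 0 → a ∈ Van z)) :
    supp (δ (pull (rad r) a)) = ∅ ∧ supp (pull (rad r) a) ⊆ {0} :=
  have hc := (isOpenEmbedding_rad (V := Fin n → ℂ) hr).continuous
  ⟨supp_eq_empty.2 fun z => by
    rw [δ_pull]; exact Van.pull hc.continuousAt (h _ (norm_rad_le hr z)).1,
    fun z hz => by_contra fun h0 =>
      Van.pull hc.continuousAt ((h _ (norm_rad_le hr z)).2 (rad_ne_zero hr h0)) hz⟩

theorem locCo_iff_rad {r : ℝ} (hr : 0 < r) {a : Coch (Fin n → ℂ)}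
    (h : ∀ z, ‖z‖ ≤ r → δ a ∈ Van z ∧ (z ≠ 0 → a ∈ Van z)) {c : ℂ} :
    LocCo a c ↔ cls (pull (rad r) a) = c • cls (tau n) := by
  have hc := (isOpenEmbedding_rad (V := Fin n → ℂ) hr).continuous
  have h0 : IsLoc a := mem_of_superset (Metric.closedBall_mem_nhds 0 hr) fun z hz =>
    h z (mem_closedBall_zero_iff.1 hz)
  obtain ⟨N, h1, h2, h3⟩ := h0.exists_cut
  have h4 : cut N a - a ∈ Van 0 := by rw [← neg_sub]; exact (Van _).neg_mem h3
  have h5 : cls (pull (rad r) a) = cls (cut N a) := by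
    rw [← cls_pull_rad hr h2 h1]
    refine cls_eq_of_null fun z => ?_
    rw [← map_sub]
    refine Van.pull hc.continuousAt ?_
    by_cases hz : z = 0
    · rwa [hz, rad_zero]
    · exact (Van _).sub_mem ((h _ (norm_rad_le hr z)).2 (rad_ne_zero hr hz))
        fun h' => rad_ne_zero hr hz (h1 h')
  rw [h5, ← locCo_iff_cls h2 h1]
  exact ⟨fun h => h.congr h4, fun h => h.congr h3⟩

theorem exists_radius {P : (Fin n → ℂ) → Prop} (h : ∀ᶠ z in 𝓝 0, P z) :
    ∃ r > 0, ∀ z, ‖z‖ ≤ r → P z := by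
  obtain ⟨r, hr, h1⟩ := Metric.nhds_basis_closedBall.mem_iff.1 h
  exact ⟨r, hr, fun z hz => h1 (mem_closedBall_zero_iff.2 hz)⟩

/-- **homotopy invariance of the local coefficient** -/
theorem LocCo.homotopy {Y : Type} [TopologicalSpace Y] {h : I × (Fin n → ℂ) → Y} {b : Coch Y}
    (hh : ∀ᶠ z in 𝓝 0, ∀ s, ContinuousAt h (s, z) ∧ δ b ∈ Van (h (s, z)) ∧
      (z ≠ 0 → b ∈ Van (h (s, z)))) {f g : (Fin n → ℂ) → Y} (h0 : ∀ z, h (0, z) = f z)
    (h1 : ∀ z, h (1, z) = g z) {c : ℂ} (hc : LocCo (pull f b) c) : LocCo (pull g b) c := by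
  obtain ⟨r, hr, h2⟩ := exists_radius hh
  have hrc := (isOpenEmbedding_rad (V := Fin n → ℂ) hr).continuous
  have h3 : ∀ s : I, ∀ z, ‖z‖ ≤ r → δ (pull (fun z => h (s, z)) b) ∈ Van z ∧
      (z ≠ 0 → pull (fun z => h (s, z)) b ∈ Van z) := fun s z hz =>
    have : ContinuousAt (fun z => h (s, z)) z :=
      ContinuousAt.comp (g := h) (h2 z hz s).1 (by fun_prop)
    ⟨by rw [δ_pull]; exact Van.pull this (h2 z hz s).2.1, fun h0 => Van.pull this ((h2 z hz s).2.2 h0)⟩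
  obtain rfl : f = fun z => h (0, z) := funext fun z => (h0 z).symm
  obtain rfl : g = fun z => h (1, z) := funext fun z => (h1 z).symm
  rw [locCo_iff_rad hr (h3 _)] at hc ⊢
  rw [← hc, pull_pull, pull_pull]
  let H : I × (Fin n → ℂ) → Y := fun w => h (w.1, rad r w.2)
  have hH : Continuous H := continuous_iff_continuousAt.2 fun w =>
    ContinuousAt.comp (g := h) (h2 _ (norm_rad_le hr w.2) w.1).1
      (continuous_fst.prodMk (hrc.comp continuous_snd)).continuousAt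
  have := cls_pull_eq_of_homotopy (h := id) continuous_id (a := pull H b)
    (supp_eq_empty.2 fun w => by
      rw [δ_pull]; exact Van.pull hH.continuousAt (h2 _ (norm_rad_le hr w.2) w.1).2.1)
    (isCompact_supp_of_subset (isCompact_univ.prod (isCompact_singleton (x := 0))) fun w hw =>
      ⟨trivial, by_contra fun h0 => Van.pull hH.continuousAt
        ((h2 _ (norm_rad_le hr w.2) w.1).2.2 (rad_ne_zero hr h0)) hw⟩)
    (f := Prod.mk 0) (g := Prod.mk 1) (fun _ => rfl) fun _ => rfl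
  rw [pull_pull, pull_pull] at this
  exact this.symm

/-- a germ with an isolated zero at the origin -/
structure Germ0 (θ : (Fin n → ℂ) → Fin m → ℂ) : Prop where
  zero : θ 0 = 0
  ev : ∀ᶠ z in 𝓝 0, ContinuousAt θ z ∧ (θ z = 0 → z = 0)

theorem Germ0.tendsto {θ : (Fin n → ℂ) → Fin m → ℂ} (h : Germ0 θ) : Tendsto θ (𝓝 0) (𝓝 0) := by
  have := h.ev.self_of_nhds.1
  rwa [ContinuousAt, h.zero] at this

theorem Germ0.comp {θ : (Fin n → ℂ) → Fin m → ℂ} {θ' : (Fin m → ℂ) → Fin k → ℂ} (h' : Germ0 θ')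
    (h : Germ0 θ) : Germ0 (θ' ∘ θ) :=
  ⟨by rw [Function.comp_apply, h.zero, h'.zero], (h.ev.and (h.tendsto.eventually h'.ev)).mono
    fun z hz => ⟨hz.2.1.comp hz.1.1, fun h0 => hz.1.2 (hz.2.2 h0)⟩⟩

theorem Germ0.congr {θ θ' : (Fin n → ℂ) → Fin m → ℂ} (h : Germ0 θ) (e : ∀ᶠ z in 𝓝 0, θ' z = θ z) :
    Germ0 θ' :=
  ⟨e.self_of_nhds.trans h.zero, (h.ev.and e.eventually_nhds).mono fun z hz =>
    ⟨hz.1.1.congr (hz.2.mono fun _ h => h.symm), fun h0 => hz.1.2 (hz.2.self_of_nhds ▸ h0)⟩⟩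

theorem IsLoc.pull {θ : (Fin n → ℂ) → Fin m → ℂ} {a : Coch (Fin m → ℂ)} (ha : IsLoc a)
    (h : Germ0 θ) : IsLoc (pull θ a) :=
  (h.ev.and (h.tendsto.eventually ha)).mono fun z hz =>
    ⟨by rw [δ_pull]; exact Van.pull hz.1.1 hz.2.1,
      fun h0 => Van.pull hz.1.1 (hz.2.2 fun h1 => h0 (hz.1.2 h1))⟩

theorem LocCo.pull {θ : (Fin n → ℂ) → Fin m → ℂ} {a : Coch (Fin m → ℂ)} {c d : ℂ} (ha : LocCo a c)
    (h : Germ0 θ) (hd : LocCo (pull θ (tau m)) d) : LocCo (pull θ a) (c * d) := by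
  obtain ⟨b, hb⟩ := locCo_iff.1 ha
  refine (hd.smul c).of_cohom (b := P291Z.pull θ b) ((h.ev.and (h.tendsto.eventually hb)).mono
    fun z hz => ⟨?_, fun h0 => Van.pull hz.1.1 (hz.2.2 fun h1 => h0 (hz.1.2 h1))⟩)
  have := Van.pull hz.1.1 hz.2.1
  rwa [map_sub, map_sub, map_smul, ← δ_pull] at this

/-- a germ with an isolated zero of local degree one -/
structure PosGerm (θ : (Fin n → ℂ) → Fin n → ℂ) : Prop where
  germ : Germ0 θ
  co : LocCo (pull θ (tau n)) 1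

theorem LocCo.pull_pos {θ : (Fin n → ℂ) → Fin n → ℂ} {a : Coch (Fin n → ℂ)} {c : ℂ}
    (ha : LocCo a c) (h : PosGerm θ) : LocCo (P291Z.pull θ a) c := by
  simpa using ha.pull h.germ h.co

theorem PosGerm.comp {θ θ' : (Fin n → ℂ) → Fin n → ℂ} (h' : PosGerm θ') (h : PosGerm θ) :
    PosGerm (θ' ∘ θ) :=
  ⟨h'.germ.comp h.germ, by rw [← pull_pull]; exact h'.co.pull_pos h⟩

theorem PosGerm.congr {θ θ' : (Fin n → ℂ) → Fin n → ℂ} (h : PosGerm θ)
    (e : ∀ᶠ z in 𝓝 0, θ' z = θ z) : PosGerm θ' :=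
  ⟨h.germ.congr e, h.co.pull_congr e⟩

theorem posGerm_id : PosGerm (id : (Fin n → ℂ) → _) :=
  ⟨⟨rfl, Eventually.of_forall fun _ => ⟨continuousAt_id, id⟩⟩, by rw [pull_id]; exact locCo_tau⟩

theorem IsLoc.locCo_of_pull {θ : (Fin n → ℂ) → Fin n → ℂ} {a : Coch (Fin n → ℂ)} {c : ℂ}
    (ha : IsLoc a) (h : PosGerm θ) (hc : LocCo (P291Z.pull θ a) c) : LocCo a c := by
  obtain ⟨d, hd⟩ := ha.exists_locCo
  rwa [hc.unique (hd.pull_pos h)]

theorem posGerm_linearEquiv (g : (Fin n → ℂ) ≃ₗ[ℂ] (Fin n → ℂ)) : PosGerm g :=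
  have hg : Continuous g := g.toContinuousLinearEquiv.continuous
  ⟨⟨map_zero g, Eventually.of_forall fun _ => ⟨hg.continuousAt, g.map_eq_zero_iff.1⟩⟩,
    (locCo_iff_cls (cocycle_pull hg (tau_cocycle n)) fun z hz =>
      g.map_eq_zero_iff.1 (supp_tau n (supp_pull hg _ hz))).2 (by
        rw [one_smul, cls_pull_linearEquiv g (tau_cocycle n) (supp_tau n)])⟩

/-- **Rouche's principle** -/
theorem LocCo.rouche {θ θ' : (Fin n → ℂ) → Fin m → ℂ} {c : ℂ} (hc : LocCo (P291Z.pull θ' (tau m)) c)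
    (h : ∀ᶠ z in 𝓝 0, ContinuousAt θ z ∧ ContinuousAt θ' z ∧ (z ≠ 0 → ‖θ z - θ' z‖ < ‖θ' z‖)) :
    LocCo (P291Z.pull θ (tau m)) c := by
  refine hc.homotopy (h := fun w : I × (Fin n → ℂ) => θ' w.2 + ((w.1 : ℝ) : ℂ) • (θ w.2 - θ' w.2))
    (h.mono fun z hz s => ⟨?_, supp_eq_empty.1 (tau_cocycle m) _, fun h0 => tau_van fun h1 => ?_⟩)
    (fun z => by simp) fun z => by simp
  · have h1 : ContinuousAt (fun w : I × (Fin n → ℂ) => θ w.2) (s, z) :=
      ContinuousAt.comp (g := θ) hz.1 continuousAt_snd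
    have h2 : ContinuousAt (fun w : I × (Fin n → ℂ) => θ' w.2) (s, z) :=
      ContinuousAt.comp (g := θ') hz.2.1 continuousAt_snd
    have h3 : Continuous fun w : I × (Fin n → ℂ) => ((w.1 : ℝ) : ℂ) := by fun_prop
    exact h2.add (h3.continuousAt.smul (h1.sub h2))
  · have h2 : ‖θ' z‖ = ‖((s : ℝ) : ℂ) • (θ z - θ' z)‖ := by
      rw [eq_neg_of_add_eq_zero_left h1, norm_neg]
      congr 2
      rw [← eq_neg_of_add_eq_zero_left h1]
    rw [norm_smul, Complex.norm_real, Real.norm_of_nonneg s.2.1] at h2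
    have := hz.2.2 h0
    have h3 := s.2.2
    nlinarith [norm_nonneg (θ z - θ' z)]

theorem PosGerm.rouche {θ θ' : (Fin n → ℂ) → Fin n → ℂ} (h' : PosGerm θ') (h0 : θ 0 = 0)
    (h : ∀ᶠ z in 𝓝 0, ContinuousAt θ z ∧ (z ≠ 0 → ‖θ z - θ' z‖ < ‖θ' z‖)) : PosGerm θ :=
  ⟨⟨h0, h.mono fun z hz => ⟨hz.1, fun h1 => by_contra fun h2 => by
      have := hz.2 h2
      rw [h1, zero_sub, norm_neg] at this
      exact lt_irrefl _ this⟩⟩,
    h'.co.rouche ((h.and h'.germ.ev).mono fun z hz => ⟨hz.1.1, hz.2.1, hz.1.2⟩)⟩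

/-- a germ whose derivative at the origin is complex linear and injective is positive -/
theorem posGerm_of_hasFDerivAt {θ : (Fin n → ℂ) → Fin n → ℂ} {A : (Fin n → ℂ) →L[ℂ] (Fin n → ℂ)}
    (h0 : θ 0 = 0) (hc : ∀ᶠ z in 𝓝 0, ContinuousAt θ z) (hA : HasFDerivAt θ A 0)
    (hi : Function.Injective A) : PosGerm θ := by
  let g : (Fin n → ℂ) ≃ₗ[ℂ] (Fin n → ℂ) := LinearEquiv.ofBijective A.toLinearMap
    ⟨hi, LinearMap.injective_iff_surjective.1 hi⟩
  obtain ⟨K, hK, h1⟩ := A.toLinearMap.exists_antilipschitzWith (LinearMap.ker_eq_bot.2 hi)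
  refine (posGerm_linearEquiv g).rouche h0 ?_
  have h2 := hA.isLittleO.bound (c := (2 * (K : ℝ))⁻¹) (by positivity)
  filter_upwards [hc, h2] with z h3 h4
  refine ⟨h3, fun hz => ?_⟩
  rw [h0, sub_zero, sub_zero] at h4
  have h5 : ‖z‖ ≤ K * ‖A z‖ := by simpa using h1.le_mul_dist z 0
  have h6 : 0 < ‖A z‖ := norm_pos_iff.2 fun h => hz (hi (h.trans (map_zero A).symm))
  have hK' : (0 : ℝ) < K := hK
  show ‖θ z - A z‖ < ‖A z‖
  calc ‖θ z - A z‖ ≤ (2 * (K : ℝ))⁻¹ * ‖z‖ := h4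
    _ ≤ (2 * (K : ℝ))⁻¹ * (K * ‖A z‖) := by gcongr
    _ = ‖A z‖ / 2 := by field_simp
    _ < ‖A z‖ := by linarith

theorem injective_fderiv_of_left_inverse {E F : Type} [NormedAddCommGroup E] [NormedSpace ℂ E]
    [NormedAddCommGroup F] [NormedSpace ℂ F] {θ : E → F} {θ' : F → E} {x : E}
    (h : DifferentiableAt ℂ θ x) (h' : DifferentiableAt ℂ θ' (θ x))
    (e : ∀ᶠ z in 𝓝 x, θ' (θ z) = z) : Function.Injective (fderiv ℂ θ x) := by
  have h1 := (h'.hasFDerivAt.comp x h.hasFDerivAt).unique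
    ((hasFDerivAt_id x).congr_of_eventuallyEq e)
  exact Function.LeftInverse.injective (g := fderiv ℂ θ' (θ x)) fun v =>
    congrArg (fun f : E →L[ℂ] E => f v) h1

/-- a holomorphic germ with a holomorphic left inverse is positive -/
theorem posGerm_of_left_inverse {θ θ' : (Fin n → ℂ) → Fin n → ℂ} (h0 : θ 0 = 0)
    (h : AnalyticAt ℂ θ 0) (h' : DifferentiableAt ℂ θ' 0) (e : ∀ᶠ z in 𝓝 0, θ' (θ z) = z) :
    PosGerm θ :=
  posGerm_of_hasFDerivAt h0 (h.eventually_analyticAt.mono fun _ h => h.continuousAt)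
    h.differentiableAt.hasFDerivAt
    (injective_fderiv_of_left_inverse h.differentiableAt (by rwa [h0]) e)

theorem le_of_left_inverse {θ : (Fin n → ℂ) → Fin m → ℂ} {θ' : (Fin m → ℂ) → Fin n → ℂ}
    (h : DifferentiableAt ℂ θ 0) (h' : DifferentiableAt ℂ θ' (θ 0))
    (e : ∀ᶠ z in 𝓝 0, θ' (θ z) = z) : n ≤ m := by
  have := LinearMap.finrank_le_finrank_of_injective (f := (fderiv ℂ θ 0).toLinearMap)
    (injective_fderiv_of_left_inverse h h' e)
  simpa using this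

/-! ### products -/

/-- linear parametrizations of the fibres of a trivial bundle -/
def prodCh (B : Type) (k : ℕ) (r : ℕ) (φ : (Fin r → ℂ) → B × (Fin k → ℂ)) : Prop :=
  ∃ (x : B) (ℓ : (Fin r → ℂ) ≃ₗ[ℂ] (Fin k → ℂ)), φ = fun v => (x, ℓ v)

theorem isVB_prod (B : Type) [TopologicalSpace B] (k : ℕ) :
    IsVB k (Prod.fst : B × (Fin k → ℂ) → B) {w | w.2 = 0} (prodCh B k) := by
  refine ⟨continuous_fst, fun x => ⟨univ, Prod.map Subtype.val id, trivial, ⟨isOpen_univ,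
    isOpen_univ.isOpenEmbedding_subtypeVal.prodMap IsOpenEmbedding.id, by simp, fun _ => rfl,
    fun _ => Iff.rfl⟩, fun y => ⟨y, LinearEquiv.refl _ _, rfl⟩⟩, ?_, ?_⟩
  · rintro r _ ⟨x, ℓ, rfl⟩
    simpa using ℓ.finrank_eq
  · rintro _ _ ⟨x, ℓ, rfl⟩ ⟨x', ℓ', rfl⟩ e
    exact ⟨ℓ.trans ℓ'.symm, funext fun v => Prod.ext e (by simp)⟩

theorem isThom_prod (B : Type) [TopologicalSpace B] [T1Space B] (k : ℕ) :
    IsThom {w | w.2 = 0} (prodCh B k) (pull (Prod.snd : B × (Fin k → ℂ) → _) (tau k)) :=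
  (isVB_prod B k).isThom_of (cocycle_pull continuous_snd (tau_cocycle k))
    (fun w hw => supp_tau k (supp_pull continuous_snd _ hw)) ((tau_deg k).pull _) fun x =>
      ⟨_, ⟨x, LinearEquiv.refl _ _, rfl⟩, rfl, by rw [pull_pull]; exact congrArg cls (pull_id _)⟩

/-- a cocycle with support in the zero section of a trivial bundle is locally a multiple of the
orientation cocycle of the fibre -/
theorem exists_cohom_snd {B : Type} [TopologicalSpace B] [Nice B] {t : Coch (B × (Fin k → ℂ))}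
    (ht : supp (δ t) = ∅) (hs : supp t ⊆ {w | w.2 = 0}) (hd : IsDeg (2 * k) t) {x : B} {d : ℂ}
    (hx : LocCo (pull (Prod.mk x) t) d) : ∃ c, supp c ⊆ {w | w.2 = 0} ∧
      ∀ᶠ y in 𝓝 x, ∀ v, t - d • pull Prod.snd (tau k) - δ c ∈ Van (y, v) := by
  choose f hf using fun y : B => (isGen_tau k).span (cls (pull (Prod.mk y) t))
  obtain ⟨h1, c, h2, h3⟩ := (IsOVB.of_isVB (isVB_prod B k)).cohom_of_fibre (isThom_prod B k) ht hs hd
    (f := f) fun y => ⟨_, ⟨y, LinearEquiv.refl _ _, rfl⟩, rfl, hf y⟩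
  have hm : Continuous (Prod.mk x : (Fin k → ℂ) → _) := by fun_prop
  have h4 : f x = d := ((locCo_iff_cls (cocycle_pull hm ht) fun v hv =>
    hs (supp_pull hm t hv)).2 (hf x)).unique hx
  refine ⟨c, h2, ((δ_fn_van.1 (supp_eq_empty.1 h1 x)).eventually_nhds).mono fun y hy v => ?_⟩
  have h5 : pull Prod.fst (fn f) - d • (1 : Coch (B × (Fin k → ℂ))) ∈ Van (y, v) := by
    rw [pull_fn, ← fn_const, ← fn_sub, fn_van]
    exact (continuousAt_fst.eventually hy).mono fun w hw => by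
      simp only [Pi.sub_apply, Function.comp_apply]; rw [hw, h4, sub_self]
  have := (Van (y, v)).add_mem (supp_eq_empty.1 h3 _) (Van.mul_right h5 (pull Prod.snd (tau k)))
  rw [sub_mul, smul_mul_assoc, one_mul] at this
  convert this using 1
  abel

theorem append_eq_zero {v : Fin m → ℂ} {w : Fin k → ℂ} : Fin.append v w = 0 ↔ v = 0 ∧ w = 0 :=
  ⟨fun h => ⟨funext fun i => by simpa using congrFun h (Fin.castAdd k i),
    funext fun i => by simpa using congrFun h (Fin.natAdd m i)⟩, by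
    rintro ⟨rfl, rfl⟩
    funext i
    refine Fin.addCases (fun i => ?_) (fun i => ?_) i <;> simp⟩

theorem append_zero : Fin.append (0 : Fin m → ℂ) (0 : Fin k → ℂ) = 0 := append_eq_zero.2 ⟨rfl, rfl⟩

theorem locCo_mul_tau {a : Coch (Fin (m + k) → ℂ)}
    (ha : ∀ᶠ v in 𝓝 (0 : Fin m → ℂ), δ a ∈ Van (Fin.append v 0) ∧
      (v ≠ 0 → a ∈ Van (Fin.append v 0))) {c : ℂ}
    (hc : LocCo (pull (fun v : Fin m → ℂ => Fin.append v (0 : Fin k → ℂ)) a) c) :
    LocCo (a * pull (fun z (i : Fin k) => z (Fin.natAdd m i)) (tau k)) c := by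
  have hp := IsPr.of_isHomeomorph (isHomeomorph_append (E := ℂ) m k)
  have hi : Continuous fun v : Fin m → ℂ => Fin.append v (0 : Fin k → ℂ) :=
    continuous_append continuous_id continuous_const
  obtain ⟨N, hN, hNc, hNs⟩ := exists_mem_nhds_isClosed_subset ha
  let N' : Set (Fin (m + k) → ℂ) := (fun z (i : Fin m) => z (Fin.castAdd k i)) ⁻¹' N
  have hl : ∀ v : Fin m → ℂ, (fun i => Fin.append v (0 : Fin k → ℂ) (Fin.castAdd k i)) = v :=
    fun v => funext fun i => Fin.append_left _ _ i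
  have h1 : a - cut N' a ∈ Van 0 := cut_in (hp.cont₁.continuousAt hN) a
  have h2 : ∀ v : Fin m → ℂ, v ≠ 0 → cut N' a ∈ Van (Fin.append v 0) := fun v hv h' => by
    obtain ⟨h3, h4⟩ := supp_cut _ _ h'
    rw [(hNc.preimage hp.cont₁).closure_eq, mem_preimage, hl] at h3
    exact (hNs h3).2 hv h4
  have h3 : ∀ v : Fin m → ℂ, δ (cut N' a) ∈ Van (Fin.append v 0) := fun v => by
    by_cases hv : v = 0
    · have := (Van _).sub_mem ha.self_of_nhds.1 (append_zero (m := m) (k := k) ▸ Van.δ h1)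
      rwa [map_sub, sub_sub_cancel, ← hv] at this
    · exact Van.δ (h2 v hv)
  let t₁ := pull (fun (z : Fin (m + k) → ℂ) (i : Fin m) => z (Fin.castAdd k i)) (tau m)
  let t₂ := pull (fun (z : Fin (m + k) → ℂ) (i : Fin k) => z (Fin.natAdd m i)) (tau k)
  have h4 : pull (fun v : Fin m → ℂ => Fin.append v (0 : Fin k → ℂ)) t₁ = tau m := by
    rw [pull_pull]; exact (congrArg (fun f => pull f (tau m)) (funext hl)).trans (pull_id _)
  have h5 : ∀ v : Fin m → ℂ, v ≠ 0 → t₁ ∈ Van (Fin.append v 0) := fun v hv =>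
    Van.pull hp.cont₁.continuousAt (by rw [hl]; exact tau_van hv)
  have h6 : ∀ v : Fin m → ℂ, δ (cut N' a + (1 - c) • t₁) ∈ Van (Fin.append v 0) := fun v => by
    rw [map_add, map_smul]
    exact (Van _).add_mem (h3 v) ((Van _).smul_mem _
      (supp_eq_empty.1 (cocycle_pull hp.cont₁ (tau_cocycle m)) _))
  have h7 : ∀ v : Fin m → ℂ, v ≠ 0 → cut N' a + (1 - c) • t₁ ∈ Van (Fin.append v 0) := fun v hv =>
    (Van _).add_mem (h2 v hv) ((Van _).smul_mem _ (h5 v hv))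
  have h8 := cls_mul_tau h6 h7 (by
    rw [← one_smul ℂ (cls (tau m)), ← locCo_iff_cls (supp_eq_empty.2 fun v => by
      rw [δ_pull]; exact Van.pull hi.continuousAt (h6 v)) fun v hv => by_contra fun h0 =>
        Van.pull hi.continuousAt (h7 v h0) hv, map_add, map_smul, h4]
    have := (hc.congr (a := pull (fun v : Fin m → ℂ => Fin.append v (0 : Fin k → ℂ)) (cut N' a)) (by
      rw [← map_sub, ← neg_sub, map_neg]
      exact (Van _).neg_mem (Van.pull hi.continuousAt (by rwa [append_zero])))).add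
        (locCo_smul_tau (1 - c))
    rwa [add_sub_cancel] at this) (tau_cocycle k) (supp_tau k) rfl
  have h9 : ∀ z, (∀ v, z ≠ Fin.append v 0) → t₂ ∈ Van z := fun z hz =>
    Van.pull hp.cont₂.continuousAt (tau_van fun h0 => hz (fun i => z (Fin.castAdd k i)) (by
      rw [← h0]; exact Fin.append_castAdd_natAdd.symm))
  have h10 : LocCo ((cut N' a + (1 - c) • t₁) * t₂) 1 := by
    refine (locCo_iff_cls (supp_eq_empty.2 fun z => ?_) fun z hz => by_contra fun h0 => ?_).2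
      (by rw [h8, one_smul])
    · rw [δ_mul]
      refine (Van z).add_mem ?_
        (Van.mul_left (supp_eq_empty.1 (cocycle_pull hp.cont₂ (tau_cocycle k)) z) _)
      by_cases hz : ∃ v, z = Fin.append v 0
      · obtain ⟨v, rfl⟩ := hz
        exact Van.mul_right (h6 v) _
      · exact Van.mul_left (h9 z fun v h => hz ⟨v, h⟩) _
    · by_cases hz' : ∃ v, z = Fin.append v 0
      · obtain ⟨v, rfl⟩ := hz'
        exact Van.mul_right (h7 v fun h => h0 (append_eq_zero.2 ⟨h, rfl⟩)) _ hz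
      · exact Van.mul_left (h9 z fun v h => hz' ⟨v, h⟩) _ hz
  have h11 := h10.sub (locCo_smul_tau (1 - c))
  rw [sub_sub_cancel, tau_add, add_mul, smul_mul_assoc, add_sub_cancel_right] at h11
  refine h11.congr ?_
  rw [← sub_mul]
  exact Van.mul_right h1 _

/-- **the local coefficient of a product** of a cochain `a` which is a cocycle along `ℂ^m × 0` and a
cocycle `t` with support in `ℂ^m × 0` -/
theorem LocCo.mul {a t : Coch (Fin (m + k) → ℂ)}
    (ha : ∀ᶠ v in 𝓝 (0 : Fin m → ℂ), δ a ∈ Van (Fin.append v 0) ∧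
      (v ≠ 0 → a ∈ Van (Fin.append v 0)))
    (ht : ∀ᶠ w in 𝓝 (0 : (Fin m → ℂ) × (Fin k → ℂ)), δ t ∈ Van (Fin.append w.1 w.2) ∧
      (w.2 ≠ 0 → t ∈ Van (Fin.append w.1 w.2))) (hd : IsDeg (2 * k) t) {c d : ℂ}
    (hc : LocCo (P291Z.pull (fun v : Fin m → ℂ => Fin.append v (0 : Fin k → ℂ)) a) c)
    (hd' : LocCo (P291Z.pull (fun w : Fin k → ℂ => Fin.append (0 : Fin m → ℂ) w) t) d) :
    LocCo (a * t) (c * d) := by
  have hp := IsPr.of_isHomeomorph (isHomeomorph_append (E := ℂ) m k)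
  obtain ⟨r, hr, h1⟩ := Metric.nhds_basis_closedBall.mem_iff.1 ht
  have hρ : IsOpenEmbedding (Prod.map (rad r) (rad r) : (Fin m → ℂ) × (Fin k → ℂ) → _) :=
    (isOpenEmbedding_rad hr).prodMap (isOpenEmbedding_rad hr)
  have hap : IsOpenEmbedding fun w : (Fin m → ℂ) × (Fin k → ℂ) => Fin.append w.1 w.2 :=
    IsHomeomorph.isOpenEmbedding (isHomeomorph_iff_exists_inverse.2
      ⟨continuous_append continuous_fst continuous_snd,
        fun z => (fun i => z (Fin.castAdd k i), fun i => z (Fin.natAdd m i)), fun z => by simp,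
        fun z => Fin.append_castAdd_natAdd, hp.cont⟩)
  have hj := hap.comp hρ
  set j := (fun w : (Fin m → ℂ) × (Fin k → ℂ) => Fin.append w.1 w.2) ∘ Prod.map (rad r) (rad r)
  have h2 : ∀ w : (Fin m → ℂ) × (Fin k → ℂ), Prod.map (rad r) (rad r) w ∈ Metric.closedBall 0 r :=
    fun w => mem_closedBall_zero_iff.2 (norm_prod_le_iff.2 ⟨norm_rad_le hr _, norm_rad_le hr _⟩)
  have hrp : PosGerm (rad r : (Fin k → ℂ) → _) :=
    have hc := (isOpenEmbedding_rad (V := Fin k → ℂ) hr).continuous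
    ⟨⟨rad_zero, Eventually.of_forall fun z => ⟨hc.continuousAt, fun h => by_contra fun h0 =>
      rad_ne_zero hr h0 h⟩⟩, (locCo_iff_cls (cocycle_pull hc (tau_cocycle k)) fun z hz =>
        by_contra fun h0 => rad_ne_zero hr h0 (supp_tau k (supp_pull hc _ hz))).2 (by
          rw [cls_pull_rad hr (tau_cocycle k) (supp_tau k), one_smul])⟩
  let t₂ := P291Z.pull (fun (z : Fin (m + k) → ℂ) (i : Fin k) => z (Fin.natAdd m i)) (tau k)
  have h3 : ∀ w : (Fin m → ℂ) × (Fin k → ℂ), w.2 ≠ 0 → t₂ ∈ Van (j w) := fun w hw =>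
    Van.pull hp.cont₂.continuousAt (tau_van fun h0 => rad_ne_zero hr hw (by
      rw [← h0]; funext i; simp [j]))
  obtain ⟨e, h4, h5⟩ := exists_cohom_snd (t := P291Z.pull j (t - d • t₂))
    (supp_eq_empty.2 fun w => by
      rw [δ_pull, map_sub, map_smul]
      exact Van.pull hj.continuous.continuousAt ((Van _).sub_mem (h1 (h2 w)).1 ((Van _).smul_mem _
        (supp_eq_empty.1 (cocycle_pull hp.cont₂ (tau_cocycle k)) _))))
    (fun w hw => by_contra fun h0 => Van.pull hj.continuous.continuousAt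
      ((Van _).sub_mem ((h1 (h2 w)).2 (rad_ne_zero hr h0)) ((Van _).smul_mem _ (h3 w h0))) hw)
    ((hd.sub (((tau_deg k).pull _).smul d)).pull _) (x := 0) (d := 0) (by
      have e1 : j ∘ Prod.mk 0 = (fun w : Fin k → ℂ => Fin.append (0 : Fin m → ℂ) w) ∘ rad r :=
        funext fun w => by simp [j, rad_zero]
      have e2 : P291Z.pull (fun w : Fin k → ℂ => Fin.append (0 : Fin m → ℂ) w) t₂ = tau k := by
        rw [pull_pull]
        exact (congrArg (fun f => P291Z.pull f (tau k))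
          (funext fun w => funext fun i => Fin.append_right _ _ i)).trans (pull_id _)
      rw [pull_pull, e1, ← pull_pull, map_sub, map_smul, e2, ← sub_self d]
      exact (hd'.sub (locCo_smul_tau d)).pull_pos hrp)
  obtain ⟨e', -, h6, h7, -⟩ : ∃ b, True ∧ P291Z.pull j b = e ∧ (∀ x, e ∈ Van x → b ∈ Van (j x)) ∧
      True := by
    refine e.induction_comp (P := fun e => ∃ b, True ∧ P291Z.pull j b = e ∧
      (∀ x, P291Z.pull j b ∈ Van x → b ∈ Van (j x)) ∧ True) ⟨0, trivial, map_zero _,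
        fun x => van_of_pull hj, trivial⟩ ?_ (fun i => ?_) |>.imp fun b hb =>
          ⟨trivial, hb.2.1, fun x hx => hb.2.2.1 x (hb.2.1 ▸ hx), trivial⟩
    · rintro b b' ⟨u, -, h, -⟩ ⟨u', -, h', -⟩
      exact ⟨u + u', trivial, by rw [map_add, h, h'], fun x => van_of_pull hj, trivial⟩
    · obtain ⟨b, -, h, -⟩ := (Taut.of_isOpenEmbedding hj).surj (isDeg_comp i e)
      exact ⟨b, trivial, h, fun x => van_of_pull hj, trivial⟩
  have hj0 : j 0 = 0 := by simp [j, rad_zero, append_zero]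
  have h8 : ∀ᶠ z in 𝓝 (0 : Fin (m + k) → ℂ), t - d • t₂ - δ e' ∈ Van z ∧
      ((∀ v, z ≠ Fin.append v 0) → e' ∈ Van z) := by
    rw [← hj0, ← hj.map_nhds_eq, eventually_map]
    refine (continuousAt_fst.eventually h5).mono fun w hw => ⟨van_of_pull hj ?_, fun h0 =>
      h7 w fun h' => h0 (rad r w.1) ?_⟩
    · have := hw w.2
      rwa [zero_smul, sub_zero, ← h6, δ_pull, ← map_sub] at this
    · simp [j, show w.2 = 0 from h4 h', rad_zero]
  have h9 := (locCo_mul_tau ha hc).smul d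
  rw [mul_comm, ← mul_smul_comm] at h9
  have h10 : ∀ᶠ z in 𝓝 (0 : Fin (m + k) → ℂ), ∀ v, z = Fin.append v 0 →
      δ a ∈ Van z ∧ (z ≠ 0 → a ∈ Van z) := by
    have : Tendsto (fun (z : Fin (m + k) → ℂ) (i : Fin m) => z (Fin.castAdd k i)) (𝓝 0) (𝓝 0) :=
      hp.cont₁.tendsto' _ _ rfl
    refine (this.eventually ha).mono ?_
    rintro _ hz v rfl
    rw [show (fun i => Fin.append v (0 : Fin k → ℂ) (Fin.castAdd k i)) = v from
      funext fun i => Fin.append_left _ _ i] at hz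
    exact ⟨hz.1, fun h0 => hz.2 fun h => h0 (append_eq_zero.2 ⟨h, rfl⟩)⟩
  refine h9.of_cohom (b := par a * e') ((h8.and h10).mono fun z hz => ⟨?_, fun h0 => ?_⟩)
  · rw [δ_mul, par_par, show a * t - a * d • t₂ - (δ (par a) * e' + a * δ e') =
      a * (t - d • t₂ - δ e') - δ (par a) * e' by noncomm_ring]
    refine (Van z).sub_mem (Van.mul_left hz.1.1 _) ?_
    by_cases hz' : ∃ v, z = Fin.append v 0
    · obtain ⟨v, hv⟩ := hz'
      rw [δ_par]
      exact Van.mul_right ((Van z).neg_mem (Van.par (hz.2 v hv).1)) _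
    · exact Van.mul_left (hz.1.2 fun v h => hz' ⟨v, h⟩) _
  · by_cases hz' : ∃ v, z = Fin.append v 0
    · obtain ⟨v, hv⟩ := hz'
      exact Van.mul_right (Van.par ((hz.2 v hv).2 h0)) _
    · exact Van.mul_left (hz.1.2 fun v h => hz' ⟨v, h⟩) _

end Vale.Agent.P269.Orb
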