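import Vale.Agent.P269.Orb.Calc
import Vale.Agent.P269.Orb.Slice
import Vale.Agent.P269.Holo.Act

set_option linter.all false

/-!
# The fundamental class of a complex global quotient orbifold
-/

namespace Vale.Agent.P269.Orb

open Set Topology Filter Vale.Agent.P291Z MulAction Vale.Agent.P269.Holo

variable {G G₁ G₂ T T₁ T₂ X X₁ X₂ A A₁ A₂ : Type} [Group G] [TopologicalSpace G]
  [TopologicalSpace T] [MulAction G T] [TopologicalSpace X] [NormedAddCommGroup A] [NormedSpace ℂ A]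
  [Group G₁] [TopologicalSpace G₁] [TopologicalSpace T₁] [MulAction G₁ T₁] [TopologicalSpace X₁]
  [NormedAddCommGroup A₁] [NormedSpace ℂ A₁] [Group G₂] [TopologicalSpace G₂] [TopologicalSpace T₂]
  [MulAction G₂ T₂] [TopologicalSpace X₂] [NormedAddCommGroup A₂] [NormedSpace ℂ A₂] {n m k : ℕ}

/-- `[T / G]` is a complex orbifold of dimension `n`, for the holomorphic coordinates `ι` on `T` -/
structure HolOrb (G : Type) [Group G] [TopologicalSpace G] [MulAction G T] (ι : T → A) (n : ℕ) :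
    Prop where
  grp : IsTopologicalGroup G
  proper : ProperSMul G T
  nice : Nice T
  complete : CompleteSpace A
  slice : ∀ t, ∃ φ : (Fin n → ℂ) → T, IsSlice G ι φ ∧ φ 0 = t
  hol : ∀ (g : G) t, HolAt ι (fun s => ι (g • s)) t

/-- the order of the stabiliser -/
noncomputable def stab (G : Type) [Group G] [MulAction G T] (t : T) : ℕ :=
  Nat.card (stabilizer G t)

/-- the uniformizing charts given by slices, for any presentation `π` of the orbit space -/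
def slCh (G : Type) [Group G] [TopologicalSpace G] [MulAction G T] (ι : T → A) (π : T → X) (n : ℕ)
    (ψ : (Fin n → ℂ) → X) (m : ℕ) : Prop :=
  ∃ φ, IsSlice G ι φ ∧ ψ = π ∘ φ ∧ m = stab G (φ 0)

/-- the fundamental class, for any presentation `π` of the orbit space -/
noncomputable def fundQ (G : Type) [Group G] [TopologicalSpace G] [MulAction G T] (ι : T → A)
    (π : T → X) (n : ℕ) : BM X := Classical.epsilon (IsFund (slCh G ι π n))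

theorem fund_eq (ι : T → A) (n : ℕ) : fund G ι n = fundQ G ι (Q.mk G) n := rfl

omit [TopologicalSpace G] [TopologicalSpace T] in
theorem stab_smul (g : G) (t : T) : stab G (g • t) = stab G t :=
  (Nat.card_congr (stabilizerEquivStabilizer (rfl : g • t = g • t)).toEquiv).symm

omit [TopologicalSpace G] [TopologicalSpace T] in
theorem stab_eq_one {t : T} (h : ∀ g : G, g • t = t → g = 1) : stab G t = 1 :=
  Nat.card_eq_one_iff_unique.2 ⟨⟨fun a b => Subtype.ext ((h _ a.2).trans (h _ b.2).symm)⟩, ⟨1⟩⟩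

namespace IsSlice

variable {ι : T → A} {φ φ' : (Fin n → ℂ) → T}

theorem cont (h : IsSlice G ι φ) : ContinuousAt φ 0 := IsSl.cont (isSlice_iff.1 h)

theorem eventually [CompleteSpace A] (h : IsSlice G ι φ) :
    ∀ᶠ u in 𝓝 0, IsSlice G ι fun z => φ (z + u) := by
  obtain ⟨h1, h2, w, h3, h4⟩ := h
  have h5 : Tendsto (fun u : Fin n → ℂ => ((1 : G), u)) (𝓝 0) (𝓝 (1, 0)) :=
    (continuous_const.prodMk continuous_id).tendsto 0
  filter_upwards [h5.eventually (LH.eventually h1), h2.eventually_analyticAt,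
    h2.continuousAt.eventually h3.eventually_analyticAt, h5.eventually h4.eventually_nhds]
    with u h6 h7 h8 h9
  have h10 : Tendsto (fun x : G × (Fin n → ℂ) => (x.1, x.2 + u)) (𝓝 (1, 0)) (𝓝 (1, u)) :=
    (continuous_fst.prodMk (continuous_snd.add continuous_const)).tendsto' _ _ (by simp)
  refine ⟨LH.comp' h6 (((Homeomorph.refl G).prodCongr (Homeomorph.addRight u)).lh (1, 0))
    (by simp), ?_, fun a => w a - u, ?_, (h10.eventually h9).mono fun x hx => ?_⟩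
  · exact AnalyticAt.comp_of_eq (g := ι ∘ φ) h7 (analyticAt_id.add analyticAt_const) (zero_add u)
  · simp only [zero_add]
    exact h8.sub analyticAt_const
  · exact sub_eq_of_eq_add hx

theorem congr (h : IsSlice G ι φ) (e : ∀ᶠ z in 𝓝 0, φ' z = φ z) : IsSlice G ι φ' := by
  obtain ⟨h1, h2, w, h3, h4⟩ := h
  have h5 : ∀ᶠ x in 𝓝 ((1, 0) : G × (Fin n → ℂ)), φ' x.2 = φ x.2 :=
    (continuous_snd.tendsto' _ 0 rfl).eventually e
  exact ⟨LH.congr h1 (h5.mono fun x hx => congrArg (x.1 • ·) hx.symm),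
    h2.congr (e.mono fun z hz => congrArg ι hz.symm), w, e.self_of_nhds ▸ h3,
    (h4.and h5).mono fun x hx => hx.2 ▸ hx.1⟩

theorem exists_coord (h : IsSlice G ι φ) : ∃ (w : A → Fin n → ℂ) (κ : T → G),
    AnalyticAt ℂ w (ι (φ 0)) ∧ (∀ᶠ x in 𝓝 ((1, 0) : G × (Fin n → ℂ)), w (ι (x.1 • φ x.2)) = x.2) ∧
      Tendsto κ (𝓝 (φ 0)) (𝓝 1) ∧ ∀ᶠ t in 𝓝 (φ 0), κ t • φ (w (ι t)) = t := by
  obtain ⟨h1, -, w, h3, h4⟩ := h
  obtain ⟨r, h5, h6, -, h7⟩ := LH.exists_inv h1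
  have h8 := h6.cont
  rw [ContinuousAt, h5] at h8
  simp only [one_smul] at h7 h8
  exact ⟨w, fun t => (r t).1, h3, h4, (continuous_fst.tendsto _).comp h8,
    (h7.and (h8.eventually h4)).mono fun t ht => by
      have := ht.2
      rw [ht.1] at this
      rw [this]
      exact ht.1⟩

theorem exists_trans' [IsTopologicalGroup G] [ContinuousSMul G T] {φ' : (Fin m → ℂ) → T}
    (h : IsSlice G ι φ) (h' : IsSlice G ι φ') {g : G} (e : g • φ 0 = φ' 0)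
    (hg : HolAt ι (fun s => ι (g • s)) (φ 0)) (hg' : HolAt ι (fun s => ι (g⁻¹ • s)) (φ' 0)) :
    ∃ (θ : (Fin n → ℂ) → Fin m → ℂ) (θ' : (Fin m → ℂ) → Fin n → ℂ), θ 0 = 0 ∧ AnalyticAt ℂ θ 0 ∧
      AnalyticAt ℂ θ' 0 ∧ (∀ᶠ z in 𝓝 0, θ' (θ z) = z) ∧
      (∀ᶠ z in 𝓝 0, ∃ g' : G, g' • φ' (θ z) = g • φ z) ∧
      ∀ᶠ x in 𝓝 ((1, 0) : G × (Fin m → ℂ)), ∀ z, x.1 • φ' x.2 = g • φ z → θ z = x.2 := by
  obtain ⟨w, κ, h1, h2, -, -⟩ := h.exists_coord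
  obtain ⟨w', κ', h1', h2', h3', h4'⟩ := h'.exists_coord
  have an : ∀ {a b : ℕ} {φ : (Fin a → ℂ) → T} {t : T} {w : A → Fin b → ℂ} {g : G},
      IsSlice G ι φ → g • φ 0 = t → HolAt ι (fun s => ι (g • s)) (φ 0) → AnalyticAt ℂ w (ι t) →
      AnalyticAt ℂ (fun z => w (ι (g • φ z))) 0 := by
    rintro a b φ _ w g h rfl ⟨Φ, k1, k2⟩ k3
    exact AnalyticAt.comp_of_eq (g := w) k3 ((AnalyticAt.comp_of_eq k1 h.2.1 rfl).congr
      ((h.cont.eventually k2).mono fun z hz => hz.symm)) rfl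
  have h5 : Tendsto (fun z => g • φ z) (𝓝 0) (𝓝 (φ' 0)) := e ▸ h.cont.tendsto.const_smul g
  refine ⟨fun z => w' (ι (g • φ z)), fun z => w (ι (g⁻¹ • φ' z)), ?_, an h e hg h1',
    an h' (by rw [← e, inv_smul_smul]) hg' h1, ?_, (h5.eventually h4').mono fun z hz => ⟨_, hz⟩,
    h2'.mono fun x hx z hz => (congrArg (fun t => w' (ι t)) hz.symm).trans hx⟩
  · have := h2'.self_of_nhds
    rwa [one_smul, ← e] at this
  · have h6 : Tendsto (fun z => (g⁻¹ * (κ' (g • φ z))⁻¹ * g, z)) (𝓝 0) (𝓝 (1, 0)) := by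
      have := ((tendsto_const_nhds (x := g⁻¹)).mul (h3'.comp h5).inv).mul
        (tendsto_const_nhds (x := g))
      rw [inv_one, mul_one, inv_mul_cancel] at this
      exact this.prodMk_nhds tendsto_id
    filter_upwards [h6.eventually h2, h5.eventually h4'] with z h7 h8
    rwa [mul_smul, mul_smul, inv_smul_eq_iff.2 h8.symm] at h7

theorem dim_eq [IsTopologicalGroup G] [ContinuousSMul G T] {φ' : (Fin m → ℂ) → T}
    (h : IsSlice G ι φ) (h' : IsSlice G ι φ') {g : G} (e : g • φ 0 = φ' 0)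
    (hg : HolAt ι (fun s => ι (g • s)) (φ 0)) (hg' : HolAt ι (fun s => ι (g⁻¹ • s)) (φ' 0)) :
    n = m := by
  obtain ⟨θ, θ', h1, h2, h3, h4, -⟩ := h.exists_trans' h' e hg hg'
  obtain ⟨η, η', k1, k2, k3, k4, -⟩ := h'.exists_trans' h (g := g⁻¹) (by rw [← e, inv_smul_smul])
    hg' (by rwa [inv_inv])
  exact le_antisymm (le_of_left_inverse h2.differentiableAt (h1 ▸ h3.differentiableAt) h4)
    (le_of_left_inverse k2.differentiableAt (k1 ▸ k3.differentiableAt) k4)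

theorem exists_trans [IsTopologicalGroup G] [ContinuousSMul G T] (h : IsSlice G ι φ)
    (h' : IsSlice G ι φ') {g : G} (e : g • φ 0 = φ' 0) (hg : HolAt ι (fun s => ι (g • s)) (φ 0))
    (hg' : HolAt ι (fun s => ι (g⁻¹ • s)) (φ' 0)) : ∃ θ, PosGerm θ ∧
      (∀ᶠ z in 𝓝 0, ∃ g' : G, g' • φ' (θ z) = g • φ z) ∧
      ∀ᶠ x in 𝓝 ((1, 0) : G × (Fin n → ℂ)), ∀ z, x.1 • φ' x.2 = g • φ z → θ z = x.2 := by
  obtain ⟨θ, θ', h1, h2, h3, h4, h5⟩ := h.exists_trans' h' e hg hg'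
  exact ⟨θ, posGerm_of_left_inverse h1 h2 h3.differentiableAt h4, h5⟩

end IsSlice

namespace HolOrb

variable {ι : T → A} (h : HolOrb G ι n) {π : T → X}
include h

theorem orb : Orb G T := by
  haveI := h.grp
  haveI := h.proper
  haveI := h.nice
  refine orb_of_slices fun t => ?_
  obtain ⟨φ, h1, h2⟩ := h.slice t
  exact ⟨_, _, φ, 0, h2, h1.1⟩

theorem niceX (hπ : IsQuo G π) : Nice X := hπ.nice h.orb

theorem stab_ne_zero (t : T) : stab G t ≠ 0 :=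
  have := h.orb.finite_stabilizer t
  Nat.card_pos.ne'

theorem stab_cast_ne_zero (t : T) : (stab G t : ℂ) ≠ 0 := Nat.cast_ne_zero.2 (h.stab_ne_zero t)

theorem rep (hπ : IsQuo G π) {φ φ' : (Fin n → ℂ) → T} (h1 : IsSlice G ι φ) (h2 : IsSlice G ι φ')
    (e : π (φ 0) = π (φ' 0)) : Rep (π ∘ φ) (π ∘ φ') := by
  haveI := h.grp
  haveI := h.orb.contSMul
  obtain ⟨g, hg⟩ := (hπ.eq_iff _ _).1 e
  obtain ⟨θ, h3, h4, -⟩ := h1.exists_trans h2 hg (h.hol _ _) (h.hol _ _)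
  exact ⟨θ, h3, h4.mono fun z ⟨g', hz⟩ => by
    rw [Function.comp_apply, Function.comp_apply, ← hπ.smul g, ← hz, hπ.smul]⟩

theorem isAtlas (hπ : IsQuo G π) : IsAtlas (slCh G ι π n) := by
  haveI := h.grp
  haveI := h.proper
  haveI := h.orb.contSMul
  haveI := h.complete
  refine ⟨fun x => ?_, ?_⟩
  · obtain ⟨t, rfl⟩ := hπ.surj x
    obtain ⟨φ, h1, rfl⟩ := h.slice t
    obtain ⟨hf, U, a, c, h2, h0, h3, h4⟩ := exists_ts h1.1 h1.eventually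
    have h5 : ∀ γ, a γ ⟨0, h0⟩ = ⟨0, h0⟩ := fun γ => by
      obtain ⟨γ', rfl⟩ := (Subtype.val_injective.bijective_of_nat_card_le
        (h4.card_stab ⟨0, h0⟩).ge).2 γ
      exact γ'.2
    refine ⟨_, _, Fintype.ofFinite _, U, h0, a, π ∘ φ, rfl, ⟨h2, h4.isUC hπ, fun γ => ?_⟩,
      fun u => ⟨_, ⟨fun z => φ (z + u), h3 u.2, rfl, by rw [h4.card_stab]; simp only [zero_add]; rfl⟩,
        Eventually.of_forall fun _ => rfl⟩⟩
    obtain ⟨θ, h6, -, h7⟩ := h1.exists_trans h1 (g := c γ ⟨0, h0⟩) (by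
      have := h4.equiv γ ⟨0, h0⟩
      rw [h5] at this
      exact this.symm) (h.hol _ _) (h.hol _ _)
    have h8 : Tendsto (fun u : U => (c γ ⟨0, h0⟩ * (c γ u)⁻¹, (a γ u).1)) (𝓝 ⟨0, h0⟩) (𝓝 (1, 0)) :=
      ((continuous_const.mul (h4.cont_c γ).inv).prodMk
        (continuous_subtype_val.comp (h4.cont_a γ))).tendsto' _ _ (by simp [h5])
    exact ⟨θ, h6, (h8.eventually h7).mono fun u hu => (hu u (by
      rw [h4.equiv, mul_smul, inv_smul_smul])).symm⟩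
  · rintro _ _ _ _ ⟨φ, h1, rfl, rfl⟩ ⟨φ', h2, rfl, rfl⟩ e
    obtain ⟨g, hg⟩ := (hπ.eq_iff _ _).1 e
    exact ⟨by rw [← hg, stab_smul], h.rep hπ h1 h2 e⟩

theorem isFund (hπ : IsQuo G π) : IsFund (slCh G ι π n) (fundQ G ι π n) :=
  have := h.niceX hπ
  (h.isAtlas hπ).epsilon_spec

theorem deg (hπ : IsQuo G π) : BM.IsDeg (2 * n) (fundQ G ι π n) := (h.isFund hπ).1

theorem ori (hπ : IsQuo G π) : Ori (2 * n) (fundQ G ι π n) :=
  have := h.niceX hπ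
  (h.isAtlas hπ).ori (h.isFund hπ)

theorem val (hπ : IsQuo G π) {φ : (Fin n → ℂ) → T} (hφ : IsSlice G ι φ) :
    Val (fundQ G ι π n) (π ∘ φ) (stab G (φ 0)) := (h.isFund hπ).2 _ _ ⟨φ, hφ, rfl, rfl⟩

theorem gch (hπ : IsQuo G π) {φ : (Fin n → ℂ) → T} (hφ : IsSlice G ι φ) : GCh (π ∘ φ) :=
  have := h.niceX hπ
  (h.isAtlas hπ).gch ⟨φ, hφ, rfl, rfl⟩

theorem top (hπ : IsQuo G π) : Top X (2 * n) :=
  have := h.niceX hπ
  (h.ori hπ).top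

theorem pd_bijective (hπ : IsQuo G π) : Function.Bijective (pd (fundQ G ι π n)) :=
  have := h.niceX hπ
  (h.ori hπ).pd_bijective

omit h in
theorem _root_.Vale.Agent.P269.Orb.IsQuo.meets (hπ : IsQuo G π) {D : Set T} (hD : Dense D)
    (S : Set X) (hS : IsClopen S) (e : π '' D ⊆ S) : S = univ :=
  meets_of_dense (hπ.surj.denseRange.dense_image hπ.cont hD) S hS e

/-- **uniqueness** -/
theorem eq_smul (hπ : IsQuo G π) {γ : BM X} (hγ : BM.IsDeg (2 * n) γ) {l : ℂ} {D : Set T}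
    (hD : ∀ S, IsClopen S → π '' D ⊆ S → S = univ) (e : ∀ t ∈ D, ∃ (φ : (Fin n → ℂ) → T) (μ : ℂ),
      IsSlice G ι φ ∧ φ 0 = t ∧ Val γ (π ∘ φ) μ ∧ stab G t = l * μ) : γ = l • fundQ G ι π n :=
  have := h.niceX hπ
  (h.ori hπ).eq_smul_of_val hγ hD (by
    rintro _ ⟨t, ht, rfl⟩
    obtain ⟨φ, μ, h1, rfl, h2, h3⟩ := e t ht
    exact ⟨π ∘ φ, _, μ, rfl, h.gch hπ h1, h.val hπ h1, h2, h3⟩)

variable {ι₁ : T₁ → A₁} {π₁ : T₁ → X₁} {ι₂ : T₂ → A₂} {π₂ : T₂ → X₂}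

/-- **open embeddings, change of presentation** -/
theorem res_fund [Nice X] (hπ : IsQuo G π) (h₁ : HolOrb G₁ ι₁ n) (hπ₁ : IsQuo G₁ π₁) {F : X₁ → X}
    (hF : IsOpenEmbedding F) {l : ℂ} {D : Set T₁} (hD : ∀ S, IsClopen S → π₁ '' D ⊆ S → S = univ)
    (e : ∀ t ∈ D, ∃ (φ₁ : (Fin n → ℂ) → T₁) (φ : (Fin n → ℂ) → T), IsSlice G₁ ι₁ φ₁ ∧ φ₁ 0 = t ∧
      IsSlice G ι φ ∧ (∀ᶠ z in 𝓝 0, π (φ z) = F (π₁ (φ₁ z))) ∧
      (stab G₁ t : ℂ) = l * stab G (φ 0)) :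
    res F (fundQ G ι π n) = l • fundQ G₁ ι₁ π₁ n :=
  have := h₁.niceX hπ₁
  h₁.eq_smul hπ₁ ((h.deg hπ).res F) hD fun t ht => by
    obtain ⟨φ₁, φ, h1, h2, h3, h4, h5⟩ := e t ht
    exact ⟨φ₁, _, h1, h2, Val.res hF (h₁.gch hπ₁ h1).pch.cont ((h.val hπ h3).congr h4), h5⟩

/-- **Gysin pull-back to a suborbifold** -/
theorem gys_fund [Nice X₁] (hπ : IsQuo G π) {G₁ : Type} [Group G₁] [TopologicalSpace G₁]
    [MulAction G₁ T₁] (h₁ : HolOrb G₁ ι₁ (n + k)) (hπ₁ : IsQuo G₁ π₁) {i : X → X₁}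
    (hi : IsClosedEmbedding i) {t : Coch X₁} (ht : IsCo (range i) k t) {l : ℂ} {D : Set T}
    (hD : ∀ S, IsClopen S → π '' D ⊆ S → S = univ)
    (e : ∀ y ∈ D, ∃ (φ : (Fin n → ℂ) → T) (Φ : (Fin (n + k) → ℂ) → T₁) (d : ℂ), IsSlice G ι φ ∧
      φ 0 = y ∧ IsSlice G₁ ι₁ Φ ∧ (∀ᶠ v in 𝓝 0, i (π (φ v)) = π₁ (Φ (Fin.append v 0))) ∧
      (∀ᶠ w in 𝓝 (0 : (Fin n → ℂ) × (Fin k → ℂ)),
        π₁ (Φ (Fin.append w.1 w.2)) ∈ supp t → w.2 = 0) ∧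
      LocCo (pull (fun w => π₁ (Φ (Fin.append 0 w))) t) d ∧ d * stab G y = l * stab G₁ (Φ 0)) :
    gys i t (fundQ G₁ ι₁ π₁ (n + k)) = l • fundQ G ι π n := by
  haveI := h.niceX hπ
  rw [← cap_fn_const]
  refine (h.ori hπ).gys_eq hi ht (h₁.deg hπ₁) (IsLocallyConstant.const l) hD ?_
  rintro _ ⟨y, hy, rfl⟩
  obtain ⟨φ, Φ, d, h1, rfl, h2, h3, h4, h5, h6⟩ := e y hy
  exact ⟨π ∘ φ, π₁ ∘ Φ, _, _, d, rfl, h.gch hπ h1, h.val hπ h1, (h₁.gch hπ₁ h2).pch, h₁.val hπ₁ h2,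
    h₁.stab_cast_ne_zero _, h3, h4, h5, h6⟩

/-- **the degree formula** for a proper map which is etale over `D` -/
theorem push_fund (hπ : IsQuo G π) (h₁ : HolOrb G₁ ι₁ n) (hπ₁ : IsQuo G₁ π₁) {f : X₁ → X}
    (hf : IsPr f) {l : ℂ} {D : Set T} (hD : ∀ S, IsClopen S → π '' D ⊆ S → S = univ)
    (e : ∀ y ∈ D, ∃ (F : Finset X₁) (w : X₁ → ℂ), (∀ x, f x = π y → x ∈ F) ∧
      stab G y * ∑ x ∈ F, w x = l ∧ ∀ x ∈ F, ∃ (φ₁ : (Fin n → ℂ) → T₁) (φ : (Fin n → ℂ) → T),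
        IsSlice G₁ ι₁ φ₁ ∧ π₁ (φ₁ 0) = x ∧ IsSlice G ι φ ∧ π (φ 0) = π y ∧
        (∀ᶠ z in 𝓝 0, f (π₁ (φ₁ z)) = π (φ z)) ∧ stab G₁ (φ₁ 0) * w x = 1) :
    push f (fundQ G₁ ι₁ π₁ n) = l • fundQ G ι π n := by
  haveI := h.niceX hπ
  haveI := h₁.niceX hπ₁
  rw [← cap_fn_const]
  refine Ori.push_eq hf (h₁.deg hπ₁) (h.ori hπ) (IsLocallyConstant.const l) hD ?_
  rintro _ ⟨y, hy, rfl⟩
  obtain ⟨F, w, h1, h2, h3⟩ := e y hy
  obtain ⟨ψ, h4, rfl⟩ := h.slice y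
  refine ⟨π ∘ ψ, _, F, w, rfl, h.gch hπ h4, h.val hπ h4, h1, h2, fun x hx => ?_⟩
  obtain ⟨φ₁, φ, h5, h6, h7, h8, h9, h10⟩ := h3 x hx
  obtain ⟨θ, h11, h12⟩ := h.rep hπ h7 h4 h8
  exact ⟨π₁ ∘ φ₁, θ, _, 1, h6, (h₁.gch hπ₁ h5).pch.cont, h₁.val hπ₁ h5, h₁.stab_cast_ne_zero _,
    h11.germ, h11.co, (h9.and h12).mono fun z hz => hz.1.trans hz.2, h10.symm⟩

/-- **birational maps** -/
theorem push_fund_of_res [Nice X] (hπ : IsQuo G π) {Y V : Type} [TopologicalSpace Y]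
    [TopologicalSpace V] [Nice Y] [Nice V] {f : Y → X} (hf : IsPr f) {γ : BM Y}
    (hγ : BM.IsDeg (2 * n) γ) {j : V → Y} (hj : IsOpenEmbedding j) (hfj : IsOpenEmbedding (f ∘ j))
    (hr : f ⁻¹' range (f ∘ j) ⊆ range j) (hD : ∀ S, IsClopen S → range (f ∘ j) ⊆ S → S = univ)
    {l : ℂ} (e : res j γ = l • res (f ∘ j) (fundQ G ι π n)) : push f γ = l • fundQ G ι π n :=
  (h.ori hπ).eq_of_res (hγ.push f) (isDeg_smul (h.deg hπ) l) hfj hD (by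
    rw [res_push hfj hj hf IsPr.id (fun _ => rfl) hr, push_id', e, map_smul])

end HolOrb

/-- **products** -/
theorem HolOrb.cross_fund {ι : T → A} {π : T → X} {ι₁ : T₁ → A₁} {π₁ : T₁ → X₁} {ι₂ : T₂ → A₂}
    {π₂ : T₂ → X₂} (h : HolOrb G ι (m + k)) (hπ : IsQuo G π) (h₁ : HolOrb G₁ ι₁ m)
    (hπ₁ : IsQuo G₁ π₁) (h₂ : HolOrb G₂ ι₂ k) (hπ₂ : IsQuo G₂ π₂) {p₁ : X → X₁} {p₂ : X → X₂}
    (hp : IsHomeomorph fun x => (p₁ x, p₂ x)) {l : ℂ} {D : Set T}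
    (hD : ∀ S, IsClopen S → π '' D ⊆ S → S = univ)
    (e : ∀ t ∈ D, ∃ (Φ : (Fin (m + k) → ℂ) → T) (φ₁ : (Fin m → ℂ) → T₁) (φ₂ : (Fin k → ℂ) → T₂),
      IsSlice G ι Φ ∧ Φ 0 = t ∧ IsSlice G₁ ι₁ φ₁ ∧ IsSlice G₂ ι₂ φ₂ ∧
      (∀ᶠ z in 𝓝 0, p₁ (π (Φ z)) = π₁ (φ₁ fun i => z (Fin.castAdd k i)) ∧
        p₂ (π (Φ z)) = π₂ (φ₂ fun i => z (Fin.natAdd m i))) ∧
      (stab G t : ℂ) = l * (stab G₁ (φ₁ 0) * stab G₂ (φ₂ 0))) :
    cross p₁ p₂ (fundQ G₁ ι₁ π₁ m) (fundQ G₂ ι₂ π₂ k) = l • fundQ G ι π (m + k) := by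
  haveI := h.niceX hπ
  haveI := h₁.niceX hπ₁
  haveI := h₂.niceX hπ₂
  refine (h.ori hπ).cross_eq hp (h₁.deg hπ₁) (h₂.deg hπ₂) hD ?_
  rintro _ ⟨t, ht, rfl⟩
  obtain ⟨Φ, φ₁, φ₂, h1, rfl, h2, h3, h4, h5⟩ := e t ht
  exact ⟨π ∘ Φ, π₁ ∘ φ₁, π₂ ∘ φ₂, _, _, _, rfl, h₁.gch hπ₁ h2, h₂.gch hπ₂ h3, h.val hπ h1,
    h₁.val hπ₁ h2, h₂.val hπ₂ h3, h4, h5⟩

end Vale.Agent.P269.Orb
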