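import Vale.Agent.P269.Orb.Ext

set_option linter.all false

/-!
# Kuranishi presentations and their local Euler cocycles
-/

namespace Vale.Agent.P269.Ch

open Set Topology Filter Module Vale.Agent.P291Z Vale.Agent.P269.Orb

variable {Y'' Y' Y : Sp}

/-- A Kuranishi presentation: a section `s` of `P / van` whose normal cone along the zero set is
contained in the bundle `obs / van` of rank `r`. -/
structure KP (Y : Sp) where
  /-- the ambient bundle -/
  P : VB Y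
  /-- the subbundle that is divided out -/
  van : Y.T → Submodule ℂ P.W
  /-- the obstruction spaces -/
  obs : Y.T → Submodule ℂ P.W
  /-- the section -/
  s : Y.T → P.W
  /-- the rank of `van` -/
  v : ℕ
  /-- the rank of `obs / van` -/
  r : ℕ
  sec : P.IsSec s
  van_closed : IsClosed {x : Y.T × P.W | x.2 ∈ van x.1}
  van_rank : ∀ t, finrank ℂ (van t) = v
  van_inv : ∀ (g : Y.G) t w, w ∈ van t → g • w ∈ van (g • t)
  van_le : ∀ t, van t ≤ P.F t
  obs_closed : IsClosed {x : Y.T × P.W | s x.1 ∈ van x.1 ∧ x.2 ∈ obs x.1}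
  obs_rank : ∀ t, s t ∈ van t → finrank ℂ (obs t) = v + r
  obs_inv : ∀ (g : Y.G) t w, s t ∈ van t → w ∈ obs t → g • w ∈ obs (g • t)
  le_obs : ∀ t, s t ∈ van t → van t ≤ obs t
  obs_le : ∀ t, s t ∈ van t → obs t ≤ P.F t
  cone : ∀ t w, s t ∈ van t →
    (t, w) ∈ closure {x : Y.T × P.W | ∃ c : ℂ, x.2 - c • s x.1 ∈ van x.1} → w ∈ obs t

/-- the cone condition can be checked on sequences -/
theorem cone_of_seq {T W : Type} [TopologicalSpace T] [Nice T] [NormedAddCommGroup W]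
    [NormedSpace ℂ W] {van : T → Submodule ℂ W} {s : T → W} {t : T} {w : W} {p : Prop}
    (h : ∀ (x : ℕ → T) (c : ℕ → ℂ) (u : ℕ → W), Tendsto x atTop (𝓝 t) → (∀ n, u n ∈ van (x n)) →
      Tendsto (fun n => c n • s (x n) + u n) atTop (𝓝 w) → p)
    (e : (t, w) ∈ closure {x : T × W | ∃ c : ℂ, x.2 - c • s x.1 ∈ van x.1}) : p := by
  obtain ⟨x, h1, h2⟩ := mem_closure_iff_seq_limit.1 e
  choose c hc using h1
  exact h _ c _ (continuous_fst.tendsto _ |>.comp h2) hc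
    ((continuous_snd.tendsto _ |>.comp h2).congr fun n => (add_sub_cancel _ _).symm)

namespace KP

variable (k k₁ k₂ : KP Y)

/-- the zero set upstairs -/
def Zs : Set Y.T := {t | k.s t ∈ k.van t}

/-- the zero set -/
def Z : Set Y.X := Y.π '' k.Zs

/-- the subbundle that is divided out -/
@[reducible] def vanB : VB Y := k.P.sub k.van k.v k.van_closed k.van_rank k.van_inv

theorem isClosed_Zs : IsClosed k.Zs :=
  k.van_closed.preimage (f := fun t => (t, k.s t)) (continuous_id.prodMk k.sec.cont)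

theorem smul_mem_Zs (g : Y.G) (t : Y.T) (h : t ∈ k.Zs) : g • t ∈ k.Zs := by
  have := k.van_inv g t _ h
  rwa [← k.sec.eqv] at this

variable {k} in
theorem mem_Z {t : Y.T} : Y.π t ∈ k.Z ↔ t ∈ k.Zs := Y.isQuo.mem_image k.smul_mem_Zs

theorem isClosed_Z : IsClosed k.Z := Y.isQuo.isClosed_image k.smul_mem_Zs k.isClosed_Zs

/-- the zero set as an invariant subset -/
def ZS : SubMulAction Y.G Y.T := ⟨k.Zs, fun g t => k.smul_mem_Zs g t⟩

/-- the obstruction spaces as a bundle -/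
@[reducible] noncomputable def obsB (j : Mor Y' Y) (hj : ∀ t, j.f t ∈ k.Zs) : VB Y' :=
  (k.P.pb j).sub (fun t => k.obs (j.f t)) (k.v + k.r)
    (by
      have h0 : IsClosed {x : Y'.T × k.P.W | x.2 ∈ k.obs (j.f x.1)} := by
        convert k.obs_closed.preimage (j.cf.prodMap continuous_id) using 1
        exact Set.ext fun x => (and_iff_right (hj x.1)).symm
      exact h0)
    (fun t => k.obs_rank _ (hj t)) fun g t w hw => by
      rw [j.eqv]; exact k.obs_inv _ _ _ (hj t) hw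

/-- a projector with kernel `van` -/
noncomputable def q (t : Y.T) : k.P.W →L[ℂ] k.P.W := 1 - k.vanB.P t

theorem q_apply (t : Y.T) (w : k.P.W) : k.q t w = w - k.vanB.P t w := rfl

theorem q_cont : Continuous k.q := continuous_const.sub k.vanB.P_cont

theorem q_smul (g : Y.G) (t : Y.T) (w : k.P.W) : k.q (g • t) (g • w) = g • k.q t w := by
  rw [q_apply, q_apply, smul_sub, k.vanB.P_smul]

variable {k} in
theorem q_eq_zero {t : Y.T} {w : k.P.W} : k.q t w = 0 ↔ w ∈ k.van t := by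
  rw [q_apply, sub_eq_zero, eq_comm, k.vanB.P_eq_iff]

theorem sub_q (t : Y.T) (w : k.P.W) : w - k.q t w ∈ k.van t := by
  rw [q_apply, sub_sub_cancel]
  exact k.vanB.P_mem t w

theorem q_q (t : Y.T) (w : k.P.W) : k.q t (k.q t w) = k.q t w := by
  rw [eq_comm, ← sub_eq_zero, ← map_sub, q_eq_zero]
  exact k.sub_q t w

variable {k} in
theorem q_mem {t : Y.T} {S : Submodule ℂ k.P.W} (h : k.van t ≤ S) {w : k.P.W} (hw : w ∈ S) :
    k.q t w ∈ S := S.sub_mem hw (h (k.vanB.P_mem t w))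

/-- **the zeros of a reduction of `s` are the zeros of `s`** -/
theorem eventually_mem {α W : Type*} [NormedAddCommGroup W] [NormedSpace ℂ W] {l : Filter α}
    {f : α → Y.T} {t : Y.T} (ht : t ∈ k.Zs) (hf : Tendsto f l (𝓝 t)) {M : α → k.P.W →L[ℂ] W}
    {M₀ : k.P.W →L[ℂ] W} (hM : Tendsto M l (𝓝 M₀)) (hv : ∀ᶠ x in l, ∀ w ∈ k.van (f x), M x w = 0)
    (hi : ∀ w ∈ k.obs t, M₀ w = 0 → w ∈ k.van t) :
    ∀ᶠ x in l, M x (k.s (f x)) = 0 → f x ∈ k.Zs := by
  by_contra h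
  obtain ⟨l', c, w, h1, h2, h3, h4, h5⟩ := exists_lim (w := fun x => k.q (f x) (k.s (f x)))
    (P := fun x => M x (k.q (f x) (k.s (f x))) = 0) (((not_eventually.1 h).and_eventually hv).mono
      fun x hx => ⟨fun h1 => hx.1 fun _ => q_eq_zero.1 h1, by
        have := hx.2 _ (k.sub_q (f x) (k.s (f x)))
        rw [map_sub, (_root_.not_imp.1 hx.1).1, zero_sub, neg_eq_zero] at this
        exact this⟩)
  have h6 := hi w (k.cone t w ht (mem_closure_of_tendsto ((hf.mono_left h2).prodMk_nhds h5)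
    (Eventually.of_forall fun x => ⟨c x, by
      rw [← smul_sub, ← neg_sub]
      exact (k.van _).smul_mem _ ((k.van _).neg_mem (k.sub_q _ _))⟩)))
    (clm_eq_zero (hM.mono_left h2) h5 (h3.mono fun x hx => by rw [map_smul, hx, smul_zero]))
  refine h4 ((tendsto_nhds_unique h5 ((tendsto_clm ((k.q_cont.tendsto t).comp (hf.mono_left h2))
    h5).congr fun x => ?_)).trans (q_eq_zero.2 h6))
  simp only [Function.comp_apply, map_smul, q_q]

/-- the pull-back -/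
noncomputable def pb (m : Mor Y' Y) : KP Y' where
  P := k.P.pb m
  van t := k.van (m.f t)
  obs t := k.obs (m.f t)
  s t := k.s (m.f t)
  v := k.v
  r := k.r
  sec := k.sec.pb m
  van_closed := k.van_closed.preimage (m.cf.prodMap continuous_id)
  van_rank _ := k.van_rank _
  van_inv g t w h := by rw [m.eqv]; exact k.van_inv _ _ _ h
  van_le _ := k.van_le _
  obs_closed := k.obs_closed.preimage (m.cf.prodMap continuous_id)
  obs_rank _ := k.obs_rank _
  obs_inv g t w h h' := by rw [m.eqv]; exact k.obs_inv _ _ _ h h'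
  le_obs _ := k.le_obs _
  obs_le _ := k.obs_le _
  cone t w h h' := k.cone _ w h
    (map_mem_closure (f := Prod.map m.f id) (m.cf.prodMap continuous_id) h' fun _ hx => hx)

theorem Zs_pb (m : Mor Y' Y) : (k.pb m).Zs = m.f ⁻¹' k.Zs := rfl

variable {k} in
theorem mem_pre {m : Mor Y' Y} {t : Y'.T} : Y'.π t ∈ m.map ⁻¹' k.Z ↔ m.f t ∈ k.Zs := by
  rw [mem_preimage, m.map_π, mem_Z]

theorem Z_pb (m : Mor Y' Y) : (k.pb m).Z = m.map ⁻¹' k.Z := Set.ext fun x => by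
  obtain ⟨t, rfl⟩ := Y'.surj x
  rw [mem_Z, mem_pre]
  rfl

/-- the sum -/
noncomputable def sum : KP Y where
  P := k₁.P.sum k₂.P
  van t := (k₁.van t).prod (k₂.van t)
  obs t := (k₁.obs t).prod (k₂.obs t)
  s t := (k₁.s t, k₂.s t)
  v := k₁.v + k₂.v
  r := k₁.r + k₂.r
  sec := k₁.sec.sum k₂.sec
  van_closed := (k₁.vanB.sum k₂.vanB).closed
  van_rank := (k₁.vanB.sum k₂.vanB).rank
  van_inv := (k₁.vanB.sum k₂.vanB).inv
  van_le t _ h := ⟨k₁.van_le t h.1, k₂.van_le t h.2⟩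
  obs_closed := by
    convert (k₁.obs_closed.preimage (f := fun x : Y.T × k₁.P.W × k₂.P.W => (x.1, x.2.1))
      (by fun_prop)).inter (k₂.obs_closed.preimage
        (f := fun x : Y.T × k₁.P.W × k₂.P.W => (x.1, x.2.2)) (by fun_prop)) using 1
    exact Set.ext fun x => and_and_and_comm
  obs_rank t h := by rw [VB.finrank_prod, k₁.obs_rank t h.1, k₂.obs_rank t h.2]; ring
  obs_inv g t w h h' := ⟨k₁.obs_inv g t _ h.1 h'.1, k₂.obs_inv g t _ h.2 h'.2⟩
  le_obs t h _ h' := ⟨k₁.le_obs t h.1 h'.1, k₂.le_obs t h.2 h'.2⟩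
  obs_le t h _ h' := ⟨k₁.obs_le t h.1 h'.1, k₂.obs_le t h.2 h'.2⟩
  cone t w h h' :=
    ⟨k₁.cone t w.1 h.1 (map_mem_closure (f := fun x : Y.T × k₁.P.W × k₂.P.W => (x.1, x.2.1))
      (by fun_prop) h' fun _ ⟨c, hc⟩ => ⟨c, hc.1⟩),
    k₂.cone t w.2 h.2 (map_mem_closure (f := fun x : Y.T × k₁.P.W × k₂.P.W => (x.1, x.2.2))
      (by fun_prop) h' fun _ ⟨c, hc⟩ => ⟨c, hc.2⟩)⟩

theorem Zs_sum : (k₁.sum k₂).Zs = k₁.Zs ∩ k₂.Zs := rfl

theorem Z_sum : (k₁.sum k₂).Z = k₁.Z ∩ k₂.Z := Set.ext fun x => by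
  obtain ⟨t, rfl⟩ := Y.surj x
  rw [mem_Z, mem_inter_iff, mem_Z, mem_Z]
  rfl

/-- a section of a bundle -/
noncomputable def ofSec {E : VB Y} {s : Y.T → E.W} (h : E.IsSec s) : KP Y where
  P := E
  van _ := ⊥
  obs := E.F
  s := s
  v := 0
  r := E.r
  sec := h
  van_closed := isClosed_eq continuous_snd continuous_const
  van_rank _ := finrank_bot ℂ _
  van_inv g t w hw := by rw [(Submodule.mem_bot ℂ).1 hw, smul_zero]; exact zero_mem _
  van_le _ := bot_le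
  obs_closed := (isClosed_eq (h.cont.comp continuous_fst) continuous_const).inter E.closed
  obs_rank t _ := by rw [E.rank, zero_add]
  obs_inv g t w _ := E.inv g t w
  le_obs _ _ := bot_le
  obs_le _ _ := le_rfl
  cone t w _ h' := closure_minimal (t := {x : Y.T × E.W | x.2 ∈ E.F x.1}) (by
    rintro x ⟨c, hc⟩
    rw [mem_setOf_eq, sub_eq_zero.1 ((Submodule.mem_bot ℂ).1 hc)]
    exact (E.F _).smul_mem c (h.mem _)) E.closed h'

theorem Zs_ofSec {E : VB Y} {s : Y.T → E.W} (h : E.IsSec s) : (ofSec h).Zs = {t | s t = 0} := rfl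

theorem Z_ofSec {E : VB Y} {s : Y.T → E.W} (h : E.IsSec s) :
    (ofSec h).Z = Y.π '' {t | s t = 0} := rfl

/-- a bundle map that kills `van` and is injective on `obs / van` -/
structure Pre (m : Mor Y' Y) (E : VB Y') (M : Y'.T → k.P.W →ₗ[ℂ] E.W) : Prop where
  hom : Hom (Mor.id Y') (k.P.pb m) E M
  van : ∀ t, ∀ w ∈ k.van (m.f t), M t w = 0
  ker : ∀ t, m.f t ∈ k.Zs → ∀ w ∈ k.obs (m.f t), M t w = 0 → w ∈ k.van (m.f t)

/-- an extension `E` of the obstruction bundle with a projection from `P / van` -/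
structure Model (m : Mor Y' Y) (E : VB Y') (M : Y'.T → k.P.W →ₗ[ℂ] E.W) : Prop
    extends k.Pre m E M where
  rank : E.r = k.r

namespace Pre

variable {k} {m : Mor Y' Y} {E : VB Y'} {M M' : Y'.T → k.P.W →ₗ[ℂ] E.W} (h : k.Pre m E M)
include h

theorem isSec : E.IsSec fun t => M t (k.s (m.f t)) := h.hom.isSec (k.sec.pb m)

theorem exists_clm : ∃ N : Y'.T → k.P.W →L[ℂ] E.W, Continuous N ∧
    ∀ t, ∀ w ∈ k.P.F (m.f t), N t w = M t w :=
  ⟨h.hom.clm, h.hom.continuous_clm, fun _ _ => h.hom.clm_eq⟩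

theorem eventually {t : Y'.T} (ht : m.f t ∈ k.Zs) :
    ∀ᶠ x in 𝓝 t, M x (k.s (m.f x)) = 0 → m.f x ∈ k.Zs := by
  obtain ⟨N, h1, h2⟩ := h.exists_clm
  exact (k.eventually_mem ht (m.cf.tendsto t) (h1.tendsto t)
    (Eventually.of_forall fun x w hw => (h2 x w (k.van_le _ hw)).trans (h.van x w hw))
    fun w hw e => h.ker t ht w hw ((h2 t w (k.obs_le _ ht hw)).symm.trans e)).mono
    fun x hx e => hx ((h2 x _ (k.sec.mem _)).trans e)

theorem isol : Isol (m.map ⁻¹' k.Z) (Y'.π '' {t | M t (k.s (m.f t)) = 0}) :=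
  h.isSec.isol fun _ ht => (h.eventually (mem_pre.1 ht)).mono fun _ h1 h2 => mem_pre.2 (h1 h2)

theorem lco : LCo (m.map ⁻¹' k.Z) h.isSec.eul := LCo.of_isCo' h.isSec.isCo h.isol

theorem congr (h' : Hom (Mor.id Y') (k.P.pb m) E M') (hv : ∀ t, ∀ w ∈ k.van (m.f t), M' t w = 0)
    (e : ∀ t, m.f t ∈ k.Zs → ∀ w ∈ k.obs (m.f t), M t w = M' t w) : k.Pre m E M' :=
  ⟨h', hv, fun t ht w hw h1 => h.ker t ht w hw ((e t ht w hw).trans h1)⟩

theorem lcoh (h' : k.Pre m E M') (e : ∀ t, m.f t ∈ k.Zs → ∀ w ∈ k.obs (m.f t), M t w = M' t w) :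
    LCoh (m.map ⁻¹' k.Z) h.isSec.eul h'.isSec.eul := by
  obtain ⟨N, h1, h2⟩ := h.exists_clm
  obtain ⟨N', h3, h4⟩ := h'.exists_clm
  refine h.isSec.lcoh_lin h'.isSec (k.isClosed_Z.preimage m.map.continuous) fun p hp => ?_
  have ht := mem_pre.1 hp
  have h5 : Continuous fun q : unitInterval × Y'.T =>
    ((1 - q.1 : ℝ) : ℂ) • N q.2 + ((q.1 : ℝ) : ℂ) • N' q.2 := by fun_prop
  refine (k.eventually_mem ht ((m.cf.comp continuous_snd).tendsto p) (h5.tendsto p)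
    (Eventually.of_forall fun x w hw => ?_) fun w hw h6 => h.ker _ ht w hw ?_).mono
    fun x hx h6 => mem_pre.2 (hx ?_)
  · simp [h2 _ w (k.van_le _ hw), h4 _ w (k.van_le _ hw), h.van _ w hw, h'.van _ w hw]
  · rwa [ContinuousLinearMap.add_apply, ContinuousLinearMap.smul_apply,
      ContinuousLinearMap.smul_apply, h2 _ w (k.obs_le _ ht hw), h4 _ w (k.obs_le _ ht hw),
      ← e _ ht w hw, ← add_smul, ← Complex.ofReal_add, sub_add_cancel, Complex.ofReal_one,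
      one_smul] at h6
  · simpa [h2 _ _ (k.sec.mem _), h4 _ _ (k.sec.mem _)] using h6

theorem comp (n : Mor Y'' Y') : k.Pre (m.comp n) (E.pb n) fun t => M (n.f t) :=
  ⟨⟨fun t => h.hom.mem (n.f t), h.hom.continuous (n.cf.comp (by fun_prop)) (by fun_prop)
    fun z => z.2, fun g t w hw => by rw [n.eqv]; exact h.hom.eqv _ _ w hw⟩,
    fun _ => h.van _, fun _ => h.ker _⟩

theorem map {E' : VB Y'} {A : Y'.T → E.W →ₗ[ℂ] E'.W} (hA : Hom (Mor.id Y') E E' A)
    (inj : ∀ t, m.f t ∈ k.Zs → ∀ w ∈ E.F t, A t w = 0 → w = 0) :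
    k.Pre m E' fun t => A t ∘ₗ M t :=
  ⟨hA.comp h.hom, fun t w hw => by rw [LinearMap.comp_apply, h.van t w hw, map_zero],
    fun t ht w hw e => h.ker t ht w hw (inj t ht _ (h.hom.mem t w (k.obs_le _ ht hw)) e)⟩

theorem lcoh_comp (n : Mor Y'' Y') : LCoh ((m.comp n).map ⁻¹' k.Z) (h.comp n).isSec.eul
    (pull n.map h.isSec.eul) :=
  LCoh.of_cohom (h.comp n).isol ((iso_pb E n).cohom_eul (h.comp n).isSec h.isSec fun _ => rfl)

theorem lcoh_iso {E' : VB Y'} {M' : Y'.T → k.P.W →ₗ[ℂ] E'.W} (h' : k.Pre m E' M')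
    {A : Y'.T → E.W →ₗ[ℂ] E'.W} (hA : Iso (Mor.id Y') E E' A)
    (e : ∀ t, m.f t ∈ k.Zs → ∀ w ∈ k.obs (m.f t), A t (M t w) = M' t w) :
    LCoh (m.map ⁻¹' k.Z) h.isSec.eul h'.isSec.eul :=
  (LCoh.of_cohom h.isol (hA.cohom_eul' h.isSec (h.map hA.toHom fun t _ => hA.inj t).isSec
    fun _ => rfl)).trans ((h.map hA.toHom fun t _ => hA.inj t).lcoh h' e)

end Pre

theorem Model.comp {m : Mor Y' Y} {E : VB Y'} {M : Y'.T → k.P.W →ₗ[ℂ] E.W} (h : k.Model m E M)
    (n : Mor Y'' Y') : k.Model (m.comp n) (E.pb n) fun t => M (n.f t) := ⟨h.toPre.comp n, h.rank⟩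

theorem exists_isExt : ∃ p : SubMulAction Y.G Y.T × (Y.T → k.P.W →L[ℂ] k.P.W), k.P.IsExt k.Zs
    (fun t => k.obs t ⊓ LinearMap.ker (k.vanB.P t).toLinearMap) k.r p.1 p.2 := by
  obtain ⟨U, e, h⟩ := k.P.exists_isExt k.isClosed_Zs k.smul_mem_Zs
    (F := fun t => k.obs t ⊓ LinearMap.ker (k.vanB.P t).toLinearMap) (r := k.r)
    (by
      convert k.obs_closed.inter (isClosed_eq ((k.vanB.P_cont.comp continuous_fst).clm_apply
        continuous_snd) (continuous_const (y := 0))) using 1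
      exact Set.ext fun x => and_assoc.symm)
    (fun t ht => by
      have := finrank_inf_ker (k.obs t) (k.vanB.P t).toLinearMap
      rw [show (k.obs t).map (k.vanB.P t).toLinearMap = k.van t from le_antisymm
        (by rintro _ ⟨w, -, rfl⟩; exact k.vanB.P_mem t w)
        fun w hw => ⟨w, k.le_obs t ht hw, k.vanB.P_eq hw⟩, k.van_rank, k.obs_rank t ht] at this
      exact Nat.add_left_cancel this)
    fun g t ht w hw => ⟨k.obs_inv g t w ht hw.1, (k.vanB.P_smul g t w).trans (by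
      rw [show k.vanB.P t w = 0 from hw.2, smul_zero])⟩
  exact ⟨(U, e), h⟩

/-- the domain of the standard model -/
noncomputable def U : SubMulAction Y.G Y.T := k.exists_isExt.choose.1

/-- the projector onto the standard model -/
noncomputable def e : Y.T → k.P.W →L[ℂ] k.P.W := k.exists_isExt.choose.2

theorem isExt : k.P.IsExt k.Zs (fun t => k.obs t ⊓ LinearMap.ker (k.vanB.P t).toLinearMap) k.r
    k.U k.e := k.exists_isExt.choose_spec

/-- the projection to the standard model -/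
noncomputable def Ms (t : Y.T) : k.P.W →ₗ[ℂ] k.P.W := (k.e t ∘L k.q t).toLinearMap

variable {k} in
theorem mem_range_e {t : Y.T} (ht : t ∈ k.Zs) {w : k.P.W} :
    w ∈ LinearMap.range (k.e t).toLinearMap ↔ w ∈ k.obs t ∧ k.q t w = w := by
  rw [k.isExt.range t ht, q_apply, sub_eq_self]
  rfl

variable {k} in
theorem Ms_eq {t : Y.T} (ht : t ∈ k.Zs) {w : k.P.W} (hw : w ∈ k.obs t) : k.Ms t w = k.q t w :=
  (k.isExt.mem_iff (k.isExt.sub ht)).1 ((mem_range_e ht).2 ⟨q_mem (k.le_obs t ht) hw, k.q_q t w⟩)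

theorem model (m : Mor Y' Y) (hm : ∀ t, m.f t ∈ k.U) :
    k.Model m (k.isExt.vb m hm) fun t => k.Ms (m.f t) :=
  ⟨⟨Hom.of_continuous (fun _ _ _ => ⟨_, rfl⟩) (((k.isExt.continuous hm).comp continuous_fst).clm_apply
      ((k.q_cont.comp (m.cf.comp continuous_fst)).clm_apply continuous_snd)) fun g t w _ => by
        rw [m.eqv]
        exact (congrArg (k.e _) (k.q_smul _ _ w)).trans (k.isExt.eqv _ _ _),
    fun t w hw => (congrArg (k.e _) (q_eq_zero.2 hw)).trans (map_zero _),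
    fun t ht w hw e => q_eq_zero.1 ((Ms_eq ht hw).symm.trans e)⟩, rfl⟩

/-- the inclusion of the domain of the standard model -/
noncomputable abbrev jU : Mor (Y.sub k.U k.isExt.isOpen.isLocallyClosed) Y := Y.subI k.U _

/-- **the local Euler cocycle** -/
noncomputable def eul : Coch Y.X := Classical.epsilon fun t => IsDeg (2 * k.r) t ∧
  ∀ x, pull k.jU.map t - (k.model k.jU (Sp.subI_mem _)).isSec.eul ∈ Van x

theorem eul_spec : IsDeg (2 * k.r) k.eul ∧
    ∀ x, pull k.jU.map k.eul - (k.model k.jU (Sp.subI_mem _)).isSec.eul ∈ Van x := by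
  refine Classical.epsilon_spec (p := fun t => IsDeg (2 * k.r) t ∧
    ∀ x, pull k.jU.map t - (k.model k.jU (Sp.subI_mem _)).isSec.eul ∈ Van x) ?_
  rcases isEmpty_or_nonempty (Y.sub k.U k.isExt.isOpen.isLocallyClosed).X with h | h
  · exact ⟨0, isDeg_zero _, fun x => isEmptyElim x⟩
  · exact ⟨pull (Function.invFun k.jU.map) _, (k.model k.jU (Sp.subI_mem _)).isSec.isCo.deg.pull _,
      fun x => by
        rw [pull_pull, Function.invFun_comp (Sp.isEmbedding_subI _).injective, pull_id]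
        exact van_refl x _⟩

theorem eul_deg : IsDeg (2 * k.r) k.eul := k.eul_spec.1

theorem lco : LCo k.Z k.eul :=
  LCo.of_open (Sp.isOpenEmbedding_subI k.isExt.isOpen)
    (Sp.subset_range_subI _ fun _ ht => k.isExt.sub (mem_Z.1 ht))
    ((k.model k.jU (Sp.subI_mem _)).lco.congr fun x _ => k.eul_spec.2 x)

theorem lcoh_model (m : Mor Y' Y) (hm : ∀ t, m.f t ∈ k.U) :
    LCoh (m.map ⁻¹' k.Z) (pull m.map k.eul) (k.model m hm).isSec.eul := by
  have h1 : pull m.map k.eul = pull (m.cod k.U _ hm).map (pull k.jU.map k.eul) :=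
    k.jU.pull_comp (m.cod k.U _ hm) _
  rw [h1]
  exact (LCoh.of_van fun x _ => by
    rw [← map_sub]
    exact Van.pull (m.cod k.U _ hm).map.continuous.continuousAt (k.eul_spec.2 _)).trans
    ((k.model k.jU (Sp.subI_mem _)).lcoh_comp (m.cod k.U _ hm)).symm

variable {k}

theorem Pre.hom_e {m : Mor Y' Y} {E : VB Y'} {M : Y'.T → k.P.W →ₗ[ℂ] E.W}
    (h : Hom (Mor.id Y') (k.P.pb m) E M) (hm : ∀ t, m.f t ∈ k.U) :
    Hom (Mor.id Y') (k.isExt.vb m hm) E fun t => M t ∘ₗ (k.P.P (m.f t)).toLinearMap :=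
  Hom.of_continuous (fun t _ _ => h.mem t _ (k.P.P_mem _ _))
    (h.continuous continuous_fst ((k.P.P_cont.comp (m.cf.comp continuous_fst)).clm_apply
      continuous_snd) fun _ => k.P.P_mem _ _) fun g t w _ => by
    refine Eq.trans (congrArg (M (g • t)) ?_) (h.eqv g t _ (k.P.P_mem (m.f t) w))
    rw [m.eqv]
    exact k.P.P_smul _ _ w

theorem Pre.apply_Ms {m : Mor Y' Y} {W : Type} [AddCommGroup W] [Module ℂ W] {M : k.P.W →ₗ[ℂ] W}
    {t : Y'.T} (ht : m.f t ∈ k.Zs) (hv : ∀ w ∈ k.van (m.f t), M w = 0) {w : k.P.W}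
    (hw : w ∈ k.obs (m.f t)) : M (k.P.P (m.f t) (k.Ms (m.f t) w)) = M w := by
  rw [Ms_eq ht hw, k.P.P_eq (k.obs_le _ ht (q_mem (k.le_obs _ ht) hw)), eq_comm, ← sub_eq_zero,
    ← map_sub]
  exact hv _ (k.sub_q _ w)

/-- the open set where the standard model injects into a given one -/
theorem Pre.exists_open {m : Mor Y' Y} {E : VB Y'} {M : Y'.T → k.P.W →ₗ[ℂ] E.W} (h : k.Pre m E M) :
    ∃ U : SubMulAction Y'.G Y'.T, IsOpen (U : Set Y'.T) ∧ m.f ⁻¹' k.Zs ⊆ U ∧ ∀ t ∈ U,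
      m.f t ∈ k.U ∧ ∀ w ∈ LinearMap.range (k.e (m.f t)).toLinearMap,
        M t (k.P.P (m.f t) w) = 0 → w = 0 := by
  obtain ⟨N, h1, h2⟩ := h.exists_clm
  refine Sp.exists_open (fun g t ht => ⟨m.eqv g t ▸ k.U.smul_mem _ ht.1, ?_⟩) fun t ht => ?_
  · rintro _ ⟨w, rfl⟩ e
    obtain ⟨w, rfl⟩ : ∃ w', m.ρ g • w' = w := ⟨_, smul_inv_smul _ w⟩
    have e1 : k.e (m.f (g • t)) (m.ρ g • w) = m.ρ g • k.e (m.f t) w := by
      rw [m.eqv, k.isExt.eqv]
    have e2 := h.hom.eqv g t _ (k.P.P_mem (m.f t) (k.e (m.f t) w))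
    rw [ContinuousLinearMap.coe_coe, e1] at e ⊢
    rw [m.eqv, k.P.P_smul] at e
    rw [ht.2 (k.e (m.f t) w) ⟨w, rfl⟩ ((smul_eq_zero_iff_eq g).1 (e2.symm.trans e)), smul_zero]
  · have h3 : ∀ᶠ x in 𝓝 t, m.f x ∈ k.U :=
      m.cf.continuousAt.eventually (k.isExt.isOpen.mem_nhds (k.isExt.sub ht))
    refine (h3.and (eventually_inj ((k.isExt.cont _ (k.isExt.sub ht)).comp m.cf.continuousAt)
      (h1.clm_comp (k.P.P_cont.comp m.cf)).continuousAt fun w hw e => ?_)).mono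
      fun x hx => ⟨hx.1, fun w hw e => hx.2 w ((k.isExt.mem_iff hx.1).1 hw)
        ((h2 x _ (k.P.P_mem _ _)).trans e)⟩
    obtain ⟨h4, h5⟩ := (mem_range_e ht).1 ⟨w, hw⟩
    rw [← h5, q_eq_zero]
    refine h.ker t ht w h4 ?_
    rw [← h2 t w (k.obs_le _ ht h4), ← k.P.P_eq (k.obs_le _ ht h4)]
    exact e

theorem lcoh_of_sub {A : Set Y'.X} {U : SubMulAction Y'.G Y'.T} (hU : IsOpen (U : Set Y'.T))
    (hA : ∀ t, Y'.π t ∈ A → t ∈ U) {a b : Coch Y'.X}
    (h : LCoh ((Y'.subI U hU.isLocallyClosed).map ⁻¹' A) (pull (Y'.subI U hU.isLocallyClosed).map a)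
      (pull (Y'.subI U hU.isLocallyClosed).map b)) : LCoh A a b :=
  LCoh.of_open (Sp.isOpenEmbedding_subI hU) (Sp.subset_range_subI _ hA) h

/-- **every model computes the local Euler class** -/
theorem Model.lcoh {m : Mor Y' Y} {E : VB Y'} {M : Y'.T → k.P.W →ₗ[ℂ] E.W} (h : k.Model m E M) :
    LCoh (m.map ⁻¹' k.Z) (pull m.map k.eul) h.isSec.eul := by
  obtain ⟨U, h1, h2, h3⟩ := h.toPre.exists_open
  refine lcoh_of_sub h1 (fun t ht => h2 (mem_pre.1 ht)) ?_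
  have hm : ∀ t, (m.comp (Y'.subI U h1.isLocallyClosed)).f t ∈ k.U := fun t => (h3 _ t.2).1
  have h4 := h.toPre.comp (Y'.subI U h1.isLocallyClosed)
  rw [← Mor.preimage_comp, ← Mor.pull_comp]
  exact ((k.lcoh_model _ hm).trans ((k.model _ hm).lcoh_iso h4 (Iso.of_inj (Pre.hom_e h4.hom hm)
    (fun t => (h3 _ t.2).2) h.rank.symm) fun t ht w hw => Pre.apply_Ms ht (h4.van t) hw)).trans
    (h.toPre.lcoh_comp _)

theorem Model.lcoh' {E : VB Y} {M : Y.T → k.P.W →ₗ[ℂ] E.W} (h : k.Model (Mor.id Y) E M) :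
    LCoh k.Z k.eul h.isSec.eul := by
  have := h.lcoh
  rwa [Mor.preimage_id, Mor.pull_id] at this

/-- **existence of models**: the zero set is exactly `Zs`, and the projection is onto -/
theorem exists_model (k : KP Y) : ∃ (U : SubMulAction Y.G Y.T) (hU : IsOpen (U : Set Y.T))
    (E : VB (Y.sub U hU.isLocallyClosed)) (M : U → k.P.W →ₗ[ℂ] E.W), k.Zs ⊆ U ∧
    k.Model (Y.subI U _) E M ∧ (∀ t : U, M t (k.s t) = 0 ↔ t.1 ∈ k.Zs) ∧
    ∀ (t : U) w, w ∈ E.F t → ∃ w' ∈ k.P.F t, M t w' = w := by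
  refine (Sp.exists_open (A := k.Zs) (P := fun t => t ∈ k.U ∧
    (k.Ms t (k.s t) = 0 → t ∈ k.Zs) ∧ ∀ w ∈ LinearMap.range (k.e t).toLinearMap,
      k.Ms t (k.P.P t w) = 0 → w = 0) (fun g t ht => ⟨k.U.smul_mem g ht.1, fun e => ?_, ?_⟩)
    fun t ht => ?_).elim fun U ⟨h1, h2, h3⟩ => ?_
  rotate_right
  · have hm : ∀ t, (Y.subI U h1.isLocallyClosed).f t ∈ k.U := fun t => (h3 _ t.2).1
    refine ⟨U, h1, _, _, h2, k.model _ hm, fun t => ⟨(h3 _ t.2).2.1, (k.model _ hm).van t _⟩,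
      fun t w hw => ?_⟩
    obtain ⟨w', -, h4⟩ := (Iso.of_inj (Pre.hom_e (k.model _ hm).hom hm)
      (fun t => (h3 _ t.2).2.2) rfl).surj t w hw
    exact ⟨_, k.P.P_mem _ w', h4⟩
  · refine k.smul_mem_Zs g t (ht.2.1 ((smul_eq_zero_iff_eq g).1 (Eq.trans ?_ e)))
    exact ((congrArg (k.e _) ((congrArg (k.q _) (k.sec.eqv g t)).trans (k.q_smul g t _))).trans
      (k.isExt.eqv g t _)).symm
  · rintro _ ⟨w, rfl⟩ e
    obtain ⟨w, rfl⟩ : ∃ w', g • w' = w := ⟨_, smul_inv_smul _ w⟩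
    rw [ContinuousLinearMap.coe_coe, k.isExt.eqv] at e ⊢
    rw [k.P.P_smul] at e
    rw [ht.2.2 (k.e t w) ⟨w, rfl⟩ ((smul_eq_zero_iff_eq g).1 (Eq.trans ?_ e)), smul_zero]
    exact ((congrArg (k.e _) (k.q_smul g t _)).trans (k.isExt.eqv g t _)).symm
  · have hc : ContinuousAt (fun t => k.e t ∘L k.q t) t :=
      (k.isExt.cont t (k.isExt.sub ht)).clm_comp k.q_cont.continuousAt
    filter_upwards [k.isExt.isOpen.mem_nhds (k.isExt.sub ht), k.eventually_mem ht tendsto_id hc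
      (Eventually.of_forall fun x w hw => (congrArg (k.e _) (q_eq_zero.2 hw)).trans (map_zero _))
      fun w hw e => q_eq_zero.1 ((Ms_eq ht hw).symm.trans e), eventually_inj (k.isExt.cont t
        (k.isExt.sub ht)) (hc.clm_comp k.P.P_cont.continuousAt) fun w hw e => by
          obtain ⟨h4, h5⟩ := (mem_range_e ht).1 ⟨w, hw⟩
          rw [← h5, ← Ms_eq ht h4, ← k.P.P_eq (k.obs_le _ ht h4)]
          exact e] with x h1 h2 h3
    exact ⟨h1, h2, fun w hw => h3 w ((k.isExt.mem_iff h1).1 hw)⟩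

end KP

end Vale.Agent.P269.Ch
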