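import Vale.Agent.P269.Orb.Calc

set_option linter.all false

/-!
# Localised Gysin maps, homotopy invariance, the virtual push-forward formula
-/

namespace Vale.Agent.P269.Orb

open Set Topology Filter Vale.Agent.P291Z unitInterval

variable {X Y Z X' Y' Z' : Type} [TopologicalSpace X] [TopologicalSpace Y] [TopologicalSpace Z]
  [TopologicalSpace X'] [TopologicalSpace Y'] [TopologicalSpace Z']

/-- near `A` the set `B` is contained in `A` -/
def Isol (A B : Set X) : Prop := ∀ x ∈ A, ∀ᶠ y in 𝓝 x, y ∈ B → y ∈ A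

theorem Isol.of_subset {A B : Set X} (h : B ⊆ A) : Isol A B :=
  fun _ _ => Eventually.of_forall fun _ hy => h hy

theorem Isol.mono {A B B' : Set X} (h : Isol A B) (e : B' ⊆ B) : Isol A B' :=
  fun x hx => (h x hx).mono fun _ h1 h2 => h1 (e h2)

theorem Isol.union {A B B' : Set X} (h : Isol A B) (h' : Isol A B') : Isol A (B ∪ B') :=
  fun x hx => ((h x hx).and (h' x hx)).mono fun _ h1 h2 => h2.elim h1.1 h1.2

theorem Isol.preimage {A B : Set X} (h : Isol A B) {f : Y → X} (hf : Continuous f) :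
    Isol (f ⁻¹' A) (f ⁻¹' B) := fun x hx => hf.continuousAt.eventually (h _ hx)

theorem exists_open_of_eventually {A : Set X} {P : X → Prop} (h : ∀ x ∈ A, ∀ᶠ y in 𝓝 x, P y) :
    ∃ O, IsOpen O ∧ A ⊆ O ∧ ∀ y ∈ O, P y :=
  ⟨interior {y | P y}, isOpen_interior, fun x hx => mem_interior_iff_mem_nhds.2 (h x hx),
    fun _ hy => interior_subset hy⟩

/-- `t` is a cocycle near `A` whose support is contained in `A` near `A` -/
structure LCo (A : Set X) (t : Coch X) : Prop where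
  cyc : ∀ x ∈ A, δ t ∈ Van x
  isol : Isol A (supp t)

theorem LCo.of_cocycle {A : Set X} {t : Coch X} (h : supp (δ t) = ∅) (hs : Isol A (supp t)) :
    LCo A t := ⟨fun x _ => supp_eq_empty.1 h x, hs⟩

theorem LCo.of_supp {A : Set X} {t : Coch X} (h : supp (δ t) = ∅) (hs : supp t ⊆ A) : LCo A t :=
  LCo.of_cocycle h (Isol.of_subset hs)

theorem van_δ_mul {x : X} {a b : Coch X} (ha : δ a ∈ Van x) (hb : δ b ∈ Van x) :
    δ (a * b) ∈ Van x := by
  rw [δ_mul]
  exact (Van x).add_mem (Van.mul_right ha _) (Van.mul_left hb _)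

theorem van_δ_pull {f : X → Y} {x : X} (hf : ContinuousAt f x) {a : Coch Y} (ha : δ a ∈ Van (f x)) :
    δ (pull f a) ∈ Van x := by
  rw [δ_pull]
  exact Van.pull hf ha

theorem van_trans {x : X} {a b c : Coch X} (h : a - b ∈ Van x) (h' : b - c ∈ Van x) :
    a - c ∈ Van x := by
  rw [← sub_add_sub_cancel a b c]
  exact (Van x).add_mem h h'

theorem van_symm {x : X} {a b : Coch X} (h : a - b ∈ Van x) : b - a ∈ Van x := by
  rw [← neg_sub]
  exact (Van x).neg_mem h

theorem van_mul_congr {x : X} {a a' b b' : Coch X} (h : a - a' ∈ Van x) (h' : b - b' ∈ Van x) :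
    a * b - a' * b' ∈ Van x :=
  van_trans (b := a' * b) (by rw [← sub_mul]; exact Van.mul_right h _)
    (by rw [← mul_sub]; exact Van.mul_left h' _)

theorem van_refl (x : X) (a : Coch X) : a - a ∈ Van x := by
  rw [sub_self]
  exact (Van x).zero_mem

theorem van_of_sub {x : X} {a b : Coch X} (h : a - b ∈ Van x) (hb : b ∈ Van x) : a ∈ Van x := by
  simpa using (Van x).add_mem h hb

theorem van_δ_congr {x : X} {a b : Coch X} (h : a - b ∈ Van x) (hb : δ b ∈ Van x) : δ a ∈ Van x :=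
  van_of_sub (by rw [← map_sub]; exact Van.δ h) hb

theorem van_pull_sub {f : X → Y} {x : X} (hf : ContinuousAt f x) {a b : Coch Y}
    (h : a - b ∈ Van (f x)) : pull f a - pull f b ∈ Van x := by
  rw [← map_sub]
  exact Van.pull hf h

theorem LCo.mul_left {A : Set X} {s t : Coch X} (h : LCo A t) (hs : ∀ x ∈ A, δ s ∈ Van x) :
    LCo A (s * t) :=
  ⟨fun x hx => van_δ_mul (hs x hx) (h.cyc x hx), h.isol.mono fun _ hy => (supp_mul _ _ hy).2⟩

theorem LCo.mul_right {A : Set X} {s t : Coch X} (h : LCo A t) (hs : ∀ x ∈ A, δ s ∈ Van x) :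
    LCo A (t * s) :=
  ⟨fun x hx => van_δ_mul (h.cyc x hx) (hs x hx), h.isol.mono fun _ hy => (supp_mul _ _ hy).1⟩

theorem LCo.pull {A : Set X} {t : Coch X} (h : LCo A t) {f : Y → X} (hf : Continuous f) :
    LCo (f ⁻¹' A) (pull f t) :=
  ⟨fun x hx => van_δ_pull hf.continuousAt (h.cyc _ hx), (h.isol.preimage hf).mono (supp_pull hf t)⟩

theorem LCo.congr {A : Set X} {t t' : Coch X} (h : LCo A t) (e : ∀ x ∈ A, t' - t ∈ Van x) :
    LCo A t' :=
  ⟨fun x hx => van_δ_congr (e x hx) (h.cyc x hx), fun x hx =>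
    ((h.isol x hx).and (eventually_van (e x hx))).mono fun _ h1 h2 =>
      h1.1 (by_contra fun h3 => van_of_sub h1.2 h3 h2)⟩

/-- the part of `t` supported in `A` -/
noncomputable def loc (A : Set X) (t : Coch X) : Coch X :=
  cut (Classical.epsilon fun N => IsOpen N ∧ A ⊆ N ∧ closure N ∩ supp t ⊆ A) t

theorem loc_deg (A : Set X) {t : Coch X} {d : ℤ} (h : IsDeg d t) : IsDeg d (loc A t) := h.cut _

theorem supp_loc (A : Set X) (t : Coch X) : supp (loc A t) ⊆ supp t :=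
  (supp_cut _ _).trans inter_subset_right

theorem loc_spec [NormalSpace X] {A : Set X} (hA : IsClosed A) {t : Coch X} (h : Isol A (supp t)) :
    supp (loc A t) ⊆ A ∧ ∀ x ∈ A, t - loc A t ∈ Van x := by
  obtain ⟨O, h1, h2, h3⟩ := exists_open_of_eventually h
  obtain ⟨N, h4, h5, h6⟩ := normal_exists_closure_subset hA h1 h2
  obtain ⟨h7, h8, h9⟩ := Classical.epsilon_spec
    (p := fun N => IsOpen N ∧ A ⊆ N ∧ closure N ∩ supp t ⊆ A)
    ⟨N, h4, h5, fun x hx => h3 x (h6 hx.1) hx.2⟩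
  exact ⟨(supp_cut _ _).trans h9, fun x hx => cut_in (h7.mem_nhds (h8 hx)) t⟩

theorem cocycle_of_supp {A : Set X} {t c : Coch X} (h : ∀ x ∈ A, δ t ∈ Van x) (hc : supp c ⊆ A)
    (e : ∀ x ∈ A, t - c ∈ Van x) : supp (δ c) = ∅ := supp_eq_empty.2 fun x => by
  by_cases hx : x ∈ A
  · exact van_δ_congr (van_symm (e x hx)) (h x hx)
  · exact Van.δ fun h' => hx (hc h')

theorem van_of_supp {A : Set X} {c c' : Coch X} (hc : supp c ⊆ A) (hc' : supp c' ⊆ A)
    (e : ∀ x ∈ A, c - c' ∈ Van x) (x : X) : c - c' ∈ Van x := by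
  by_cases hx : x ∈ A
  · exact e x hx
  · exact (Van x).sub_mem (fun h => hx (hc h)) fun h => hx (hc' h)

theorem exists_ext_open [Nice X] {j : X' → X} (hj : IsOpenEmbedding j) {a' : Coch X'}
    (hK : IsCompact (supp a')) : ∃ a, supp a ⊆ j '' supp a' ∧ ∀ x, pull j a - a' ∈ Van x := by
  rcases isEmpty_or_nonempty X' with h | h
  · exact ⟨0, by rw [supp_zero]; exact empty_subset _, fun x => isEmptyElim x⟩
  obtain ⟨b, rfl⟩ := exists_pull_eq hj.injective a'
  obtain ⟨N, -, h2, h3⟩ := exists_cut_compact (hK.image hj.continuous) hj.isOpen_range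
    (image_subset_range _ _) b
  refine ⟨cut N b, fun x hx => ?_, fun x => van_symm (van_pull_sub hj.continuous.continuousAt
    (h3 _ (or_iff_not_imp_left.2 fun h => van_of_pull hj fun h' => h ⟨x, h', rfl⟩)))⟩
  obtain ⟨⟨y, rfl⟩, h4⟩ := h2 hx
  exact ⟨y, by_contra fun h => van_of_pull hj h h4, rfl⟩

section gys

variable [Nice X] {i : Z → X} {t : Coch X}

/-- the localised Gysin map -/
noncomputable def lgys (i : Z → X) (t : Coch X) : BM X →ₗ[ℂ] BM Z := gys i (loc (range i) t)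

theorem lgys_deg {k d : ℤ} {β : BM X} (h : BM.IsDeg k β) (i : Z → X) (ht : IsDeg d t) :
    BM.IsDeg (k - d) (lgys i t β) := BM.isDeg_iff.2 fun j hj c hc =>
  BM.isDeg_iff.1 h (j + d) (by omega) _ (cgys_deg i (loc_deg _ ht) hc)

variable (hi : IsClosedEmbedding i)
include hi

theorem ext_near {O : Set X} (hO : IsOpen O) (h : range i ⊆ O) {v v' : BM Z}
    (e : ∀ a ∈ Near i, supp a ⊆ O → ev v (pull i a) = ev v' (pull i a)) : v = v' :=
  BM.ext_ev fun c hc => by
    obtain ⟨a, h1, h2, h3⟩ := exists_near' hi hc hO ((image_subset_range _ _).trans h)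
    rw [← ev_congr v h3, ← ev_congr v' h3, e a h1 h2]

theorem ext_near' {P : X → Prop} (h : ∀ z, ∀ᶠ y in 𝓝 (i z), P y) {v v' : BM Z}
    (e : ∀ a ∈ Near i, (∀ y ∈ supp a, P y) → ev v (pull i a) = ev v' (pull i a)) : v = v' := by
  obtain ⟨O, h1, h2, h3⟩ := exists_open_of_eventually (forall_mem_range.2 h)
  exact ext_near hi h1 h2 fun a ha hs => e a ha fun y hy => h3 y (hs hy)

theorem exists_cut_near {a : Coch X} (ha : ∀ z, δ a ∈ Van (i z)) (hK : IsCompact (i ⁻¹' supp a)) :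
    ∃ b ∈ Near i, ∀ z, a - b ∈ Van (i z) := by
  obtain ⟨N, h1, -, h2⟩ := exists_cut_compact (hK.image hi.continuous) isOpen_univ (subset_univ _) a
  have h3 : ∀ z, a - cut N a ∈ Van (i z) := fun z =>
    h2 _ (or_iff_not_imp_right.2 fun h => ⟨z, not_not.1 h, rfl⟩)
  exact ⟨_, ⟨h1, fun z => van_δ_congr (van_symm (h3 z)) (ha z)⟩, h3⟩

variable (ht : LCo (range i) t)
include ht

theorem LCo.loc : supp (δ (loc (range i) t)) = ∅ ∧ supp (loc (range i) t) ⊆ range i ∧
    ∀ z, t - loc (range i) t ∈ Van (i z) :=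
  have h := loc_spec hi.isClosed_range ht.isol
  ⟨cocycle_of_supp ht.cyc h.1 h.2, h.1, fun z => h.2 _ ⟨z, rfl⟩⟩

/-- **the values of the localised Gysin map** -/
theorem ev_lgys (β : BM X) {a c : Coch X} (ha : ∀ z, δ a ∈ Van (i z))
    (hK : IsCompact (i ⁻¹' supp a)) (hc : supp c ⊆ range i) (e : ∀ z, a * t - c ∈ Van (i z)) :
    ev (lgys i t β) (pull i a) = ev β c := by
  obtain ⟨b, h1, h2⟩ := exists_cut_near hi ha hK
  obtain ⟨h3, h4, h5⟩ := ht.loc hi
  rw [ev_congr _ fun z => van_pull_sub hi.continuous.continuousAt (h2 z), lgys, ev_gys hi h3 h4 β h1]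
  exact ev_congr β (van_of_supp (fun x hx => h4 (supp_mul _ _ hx).2) hc (forall_mem_range.2 fun z =>
    van_trans (van_symm (van_mul_congr (h2 z) (h5 z))) (e z)))

theorem ev_lgys' (β : BM X) {a : Coch X} (ha : a ∈ Near i)
    (hs : ∀ y ∈ supp a, y ∈ supp t → y ∈ range i) : ev (lgys i t β) (pull i a) = ev β (a * t) :=
  ev_lgys hi ht β ha.2 (hi.isCompact_preimage ha.1)
    (fun y hy => hs y (supp_mul _ _ hy).1 (supp_mul _ _ hy).2) fun _ => van_refl _ _

theorem LCo.mul_Zc {a : Coch X} (ha : a ∈ Near i) (hs : ∀ y ∈ supp a, y ∈ supp t → y ∈ range i) :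
    a * t ∈ Zc X :=
  ⟨isCompact_supp_of_subset ha.1 fun _ hy => (supp_mul _ _ hy).1, cocycle_of_supp (A := range i)
    (forall_mem_range.2 fun z => van_δ_mul (ha.2 z) (ht.cyc _ ⟨z, rfl⟩))
    (fun y hy => hs y (supp_mul _ _ hy).1 (supp_mul _ _ hy).2) fun _ _ => van_refl _ _⟩

theorem eq_lgys {β : BM X} {v : BM Z} {P : X → Prop} (h : ∀ z, ∀ᶠ y in 𝓝 (i z), P y)
    (e : ∀ a ∈ Near i, (∀ y ∈ supp a, P y) → (∀ y ∈ supp a, y ∈ supp t → y ∈ range i) →
      ev v (pull i a) = ev β (a * t)) : v = lgys i t β :=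
  ext_near' hi (fun z => (h z).and (ht.isol _ ⟨z, rfl⟩)) fun a ha hs => by
    rw [e a ha (fun y hy => (hs y hy).1) fun y hy => (hs y hy).2,
      ev_lgys' hi ht β ha fun y hy => (hs y hy).2]

/-- only the germs along the image of `i` matter -/
theorem lgys_eq_of_ev {t' : Coch X} (ht' : LCo (range i) t') {β β' : BM X} {P : X → Prop}
    (h : ∀ z, ∀ᶠ y in 𝓝 (i z), P y) (e : ∀ a ∈ Near i, (∀ y ∈ supp a, P y) →
      (∀ y ∈ supp a, y ∈ supp t → y ∈ range i) → (∀ y ∈ supp a, y ∈ supp t' → y ∈ range i) →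
      ev β (a * t) = ev β' (a * t')) : lgys i t β = lgys i t' β' :=
  eq_lgys hi ht' (fun z => (h z).and (ht.isol _ ⟨z, rfl⟩)) fun a ha hs hs' => by
    rw [ev_lgys' hi ht β ha fun y hy => (hs y hy).2,
      e a ha (fun y hy => (hs y hy).1) (fun y hy => (hs y hy).2) hs']

/-- local cohomologies -/
theorem lgys_congr {t' c : Coch X} (ht' : LCo (range i) t') (hc : Isol (range i) (supp c))
    (e : ∀ z, t - t' - δ c ∈ Van (i z)) : lgys i t = lgys i t' := by
  obtain ⟨h1, h2, h3⟩ := ht.loc hi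
  obtain ⟨h4, h5, h6⟩ := ht'.loc hi
  obtain ⟨h7, h8⟩ := loc_spec hi.isClosed_range hc
  refine LinearMap.ext fun β => BM.ext_ev fun a ha => ?_
  obtain ⟨b, hb, h9⟩ := cls_surj_near' hi (cls a)
  rw [ev_eq, ev_eq, ← h9, ← ev_eq, ← ev_eq, lgys, lgys, ev_gys hi h1 h2 β hb, ev_gys hi h4 h5 β hb,
    ev_eq, ev_eq, cls_mul_congr (A := range i) ⟨_, h7, supp_eq_empty.2 (van_of_supp
      ((supp_sub _ _).trans (union_subset h2 h5)) ((supp_δ _).trans h7) ?_)⟩ hb.1 inter_subset_left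
      (forall_mem_range.2 hb.2)]
  rintro _ ⟨z, rfl⟩
  have := (Van _).add_mem ((Van _).add_mem ((Van _).sub_mem (e z) (h3 z)) (h6 z))
    (Van.δ (h8 _ ⟨z, rfl⟩))
  rw [map_sub] at this
  convert this using 1
  abel

theorem lgys_congr_van {t' : Coch X} (e : ∀ z, t' - t ∈ Van (i z)) : lgys i t' = lgys i t :=
  lgys_congr hi (ht.congr (forall_mem_range.2 e)) ht (c := 0)
    (Isol.of_subset (by rw [supp_zero]; exact empty_subset _)) (by rwa [map_zero, sub_zero])

theorem lgys_cohom {t' : Coch X} (ht' : LCo (range i) t') {A : Set X} (hA : Isol (range i) A)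
    (e : Cohom A t t') : lgys i t = lgys i t' :=
  let ⟨_, h1, h2⟩ := e
  lgys_congr hi ht ht' (hA.mono h1) fun _ => supp_eq_empty.1 h2 _

omit ht in
theorem lgys_eq_gys (h : supp (δ t) = ∅) (hs : supp t ⊆ range i) : lgys i t = gys i t :=
  LinearMap.ext fun β => (eq_lgys hi (LCo.of_supp h hs) (P := fun _ => True)
    (fun _ => Eventually.of_forall fun _ => trivial) fun _ ha _ _ => ev_gys hi h hs β ha).symm

theorem lgys_add {t' : Coch X} (ht' : LCo (range i) t') (β : BM X) :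
    lgys i (t + t') β = lgys i t β + lgys i t' β :=
  (eq_lgys hi ⟨fun x hx => by rw [map_add]; exact (Van x).add_mem (ht.cyc x hx) (ht'.cyc x hx),
    (ht.isol.union ht'.isol).mono (supp_add _ _)⟩
    (fun z => (ht.isol _ ⟨z, rfl⟩).and (ht'.isol _ ⟨z, rfl⟩)) fun a ha hs _ => by
      rw [add_ev, ev_lgys' hi ht β ha fun y hy => (hs y hy).1,
        ev_lgys' hi ht' β ha fun y hy => (hs y hy).2, mul_add, ev_add β
        (ht.mul_Zc hi ha fun y hy => (hs y hy).1) (ht'.mul_Zc hi ha fun y hy => (hs y hy).2)]).symm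

theorem lgys_smul (c : ℂ) (β : BM X) : lgys i (c • t) β = c • lgys i t β :=
  (eq_lgys hi ⟨fun x hx => by rw [map_smul]; exact (Van x).smul_mem c (ht.cyc x hx),
    ht.isol.mono (supp_smul _ _)⟩ (fun z => ht.isol _ ⟨z, rfl⟩) fun a ha hs _ => by
      rw [smul_ev, ev_lgys' hi ht β ha hs, mul_smul_comm, ev_smul β c (ht.mul_Zc hi ha hs)]).symm

/-- **proper base change** -/
theorem lgys_push [Nice X'] {i' : Z' → X'} (hi' : IsClosedEmbedding i') {f : X' → X} (hf : IsPr f)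
    {g : Z' → Z} (hg : IsPr g) (hsq : ∀ z, f (i' z) = i (g z)) (hr : f ⁻¹' range i ⊆ range i')
    (β : BM X') : lgys i t (push f β) = push g (lgys i' (pull f t) β) :=
  (eq_lgys hi ht (P := fun _ => True) (fun _ => Eventually.of_forall fun _ => trivial)
    fun a ha _ hs => by
      have h1 := ht.pull hf.cont
      rw [ev_push hg _ (Near.pull_Zc (IsPr.of_isClosedEmbedding hi) ha), pull_pull,
        show i ∘ g = f ∘ i' from (funext hsq).symm, ← pull_pull, ev_push hf _ (ht.mul_Zc hi ha hs),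
        map_mul, ev_lgys' hi' ⟨by rintro _ ⟨z, rfl⟩; exact h1.cyc _ ⟨_, (hsq z).symm⟩, by
          rintro _ ⟨z, rfl⟩
          exact (h1.isol _ ⟨_, (hsq z).symm⟩).mono fun y h2 h3 => hr (h2 h3)⟩ β
          (Near.pull hf hsq ha) fun y h2 h3 =>
            hr (hs _ (supp_pull hf.cont _ h2) (supp_pull hf.cont _ h3))]).symm

theorem LCo.pull_open {i' : Z' → X'} {j : X' → X} (hj : IsOpenEmbedding j) {g : Z' → Z}
    (hg : IsOpenEmbedding g) (hsq : ∀ z, j (i' z) = i (g z)) :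
    Isol (range i') (j ⁻¹' range i) ∧ LCo (range i') (P291Z.pull j t) := by
  have h1 : Isol (range i') (j ⁻¹' range i) := by
    rintro _ ⟨z, rfl⟩
    obtain ⟨O, h1, h2⟩ := hi.isInducing.isOpen_iff.1 hg.isOpen_range
    filter_upwards [(h1.preimage hj.continuous).mem_nhds
      (show j (i' z) ∈ O from hsq z ▸ h2.ge ⟨z, rfl⟩)]
    rintro y h3 ⟨w, hw⟩
    obtain ⟨w', rfl⟩ := h2.le (show i w ∈ O from hw ▸ h3)
    exact ⟨w', hj.injective ((hsq _).trans hw)⟩
  have h2 := ht.pull hj.continuous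
  exact ⟨h1, by rintro _ ⟨z, rfl⟩; exact h2.cyc _ ⟨_, (hsq z).symm⟩, by
    rintro _ ⟨z, rfl⟩
    exact ((h2.isol _ ⟨_, (hsq z).symm⟩).and (h1 _ ⟨z, rfl⟩)).mono fun y h3 h4 => h3.2 (h3.1 h4)⟩

/-- **open base change** -/
theorem res_lgys [Nice X'] [Nice Z] {i' : Z' → X'} (hi' : IsClosedEmbedding i') {j : X' → X}
    (hj : IsOpenEmbedding j) {g : Z' → Z} (hg : IsOpenEmbedding g) (hsq : ∀ z, j (i' z) = i (g z))
    (β : BM X) : res g (lgys i t β) = lgys i' (pull j t) (res j β) := by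
  obtain ⟨h1, h2⟩ := ht.pull_open hi hj hg hsq
  refine eq_lgys hi' h2 (fun z => (h1 _ ⟨z, rfl⟩).and (hj.continuous.continuousAt.eventually
    (ht.isol _ ⟨_, (hsq z).symm⟩))) fun a' ha' hs _ => ?_
  obtain ⟨a, h3, h4⟩ := exists_ext_open hj ha'.1
  have h5 : ∀ z, i z ∈ supp a → z ∈ range g := fun z hz => by
    obtain ⟨y, h5, h6⟩ := h3 hz
    obtain ⟨w, rfl⟩ := (hs y h5).1 ⟨z, h6.symm⟩
    exact ⟨w, hi.injective ((hsq w).symm.trans h6)⟩
  have h6 : a ∈ Near i := ⟨isCompact_supp_of_subset (ha'.1.image hj.continuous) h3, fun z => by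
    by_cases hz : i z ∈ supp a
    · obtain ⟨w, rfl⟩ := h5 z hz
      rw [← hsq]
      exact van_of_pull hj (by rw [← δ_pull]; exact van_δ_congr (h4 _) (ha'.2 w))
    · exact Van.δ hz⟩
  have h7 : ∀ y ∈ supp a, y ∈ supp t → y ∈ range i := fun y hy => by
    obtain ⟨x, hx, rfl⟩ := h3 hy
    exact (hs x hx).2
  rw [← ev_congr _ fun z => van_pull_sub hi'.continuous.continuousAt (h4 (i' z)), pull_pull,
    show j ∘ i' = i ∘ g from funext hsq, ← pull_pull,
    ev_res hg _ (Near.pull_Zc (IsPr.of_isClosedEmbedding hi) h6)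
      fun z hz => h5 z (supp_pull hi.continuous _ hz), ev_lgys' hi ht β h6 h7,
    ← ev_res hj β (ht.mul_Zc hi h6 h7) fun y hy => image_subset_range _ _ (h3 (supp_mul _ _ hy).1),
    map_mul]
  exact ev_congr _ fun x => van_mul_congr (h4 x) (van_refl _ _)

/-- **shrinking** -/
theorem lgys_res [Nice X'] {i' : Z → X'} {j : X' → X} (hj : IsOpenEmbedding j)
    (hsq : ∀ z, j (i' z) = i z) (β : BM X) : lgys i t β = lgys i' (pull j t) (res j β) := by
  haveI := Nice.of_isEmbedding hi.isEmbedding hi.isClosed_range.isLocallyClosed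
  have h1 : IsClosedEmbedding (j ∘ i') := by rwa [show j ∘ i' = i from funext hsq]
  rw [← res_lgys hi ht (IsClosedEmbedding.of_comp hj.isEmbedding h1) hj IsOpenEmbedding.id hsq,
    ← push_id' (res id _), push_res_homeo IsHomeomorph.id]

theorem lgys_cap {d : ℤ} (hd : IsDeg (2 * d) t) {c : Coch X} (hc : supp (δ c) = ∅) (β : BM X) :
    lgys i t (cap (hcls c) β) = cap (hcls (pull i c)) (lgys i t β) :=
  (eq_lgys hi ht (P := fun _ => True) (fun _ => Eventually.of_forall fun _ => trivial)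
    fun a ha _ hs => by
      have hc' := supp_eq_empty.1 hc
      rw [ev_cap (cocycle_pull hi.continuous hc) (Near.pull_Zc (IsPr.of_isClosedEmbedding hi) ha),
        ← map_mul, ev_cap hc (ht.mul_Zc hi ha hs)]
      obtain ⟨h1, h2, h3⟩ := ht.loc hi
      rw [ev_lgys hi ht β (Near.mul ha fun _ => hc' _).2 (hi.isCompact_preimage
        (Near.mul ha fun _ => hc' _).1) (c := a * (c * loc (range i) t))
        (fun y hy => h2 (supp_mul _ _ (supp_mul _ _ hy).2).2) fun z => by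
          rw [← mul_assoc]; exact van_mul_congr (van_refl _ _) (h3 z), ev_eq, cls_mul_congr
        (cohom_comm_even hc h1 (loc_deg _ hd)) ha.1 inter_subset_left (by
          rintro _ ⟨-, h⟩
          obtain ⟨z, rfl⟩ := h2 h
          exact ha.2 z), ← ev_eq, ← mul_assoc]
      exact ev_congr β fun x => van_mul_congr (van_of_supp (A := range i)
        (fun y hy => h2 (supp_mul _ _ hy).2) (fun y hy => hs y (supp_mul _ _ hy).1
          (supp_mul _ _ hy).2) (forall_mem_range.2 fun z =>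
            van_mul_congr (van_refl _ _) (van_symm (h3 z))) x) (van_refl _ _)).symm

theorem cap_lgys {c : Coch X} (hc : ∀ z, δ c ∈ Van (i z)) (β : BM X) :
    cap (hcls (pull i c)) (lgys i t β) = lgys i (c * t) β :=
  eq_lgys hi (ht.mul_left (forall_mem_range.2 hc)) (fun z => ht.isol _ ⟨z, rfl⟩) fun a ha hs _ => by
    rw [ev_cap (supp_eq_empty.2 fun z => van_δ_pull hi.continuous.continuousAt (hc z))
      (Near.pull_Zc (IsPr.of_isClosedEmbedding hi) ha), ← map_mul,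
      ev_lgys' hi ht β (Near.mul ha hc) fun y hy => hs y (supp_mul _ _ hy).1, mul_assoc]

omit ht in
/-- **functoriality**: `s` cuts `Z'` out of `Z`, and `t` has to be localised on `Z` near `Z'` -/
theorem lgys_lgys [Nice Z] (ht : LCo (range i) t) {k : Z' → Z} (hk : IsClosedEmbedding k)
    {s : Coch X} (hs : ∀ z, δ s ∈ Van (i (k z))) (hs' : Isol (range k) (i ⁻¹' supp s)) (β : BM X) :
    LCo (range (i ∘ k)) (s * t) ∧ lgys k (pull i s) (lgys i t β) = lgys (i ∘ k) (s * t) β := by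
  have h1 : ∀ z, ∀ᶠ y in 𝓝 (i (k z)), δ s ∈ Van y ∧ (y ∈ supp t → y ∈ range i) ∧
      ∀ w, i w = y → y ∈ supp s → w ∈ range k := fun z => by
    refine (eventually_van (hs z)).and ((ht.isol _ ⟨_, rfl⟩).and ?_)
    have := hs' _ ⟨z, rfl⟩
    rw [hi.isInducing.nhds_eq_comap, eventually_comap] at this
    exact this.mono fun y hy w hw h => hy w hw (by rwa [mem_preimage, hw])
  have h2 : LCo (range (i ∘ k)) (s * t) := ⟨forall_mem_range.2 fun z =>
    van_δ_mul (hs z) (ht.cyc _ ⟨_, rfl⟩), forall_mem_range.2 fun z => (h1 z).mono fun y hy h => by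
      obtain ⟨w, rfl⟩ := hy.2.1 (supp_mul _ _ h).2
      obtain ⟨v, rfl⟩ := hy.2.2 w rfl (supp_mul _ _ h).1
      exact ⟨v, rfl⟩⟩
  refine ⟨h2, eq_lgys (hi.comp hk) h2 h1 fun a ha h3 _ => ?_⟩
  have h4 : ∀ w, i w ∈ supp a → i w ∈ supp s → w ∈ range k := fun w h h' => (h3 _ h).2.2 w rfl h'
  rw [← pull_pull, ev_lgys' hk ⟨forall_mem_range.2 fun z => van_δ_pull hi.continuous.continuousAt
    (hs z), hs'.mono (supp_pull hi.continuous s)⟩ _
    (Near.pull (i' := k) (g := id) (IsPr.of_isClosedEmbedding hi) (fun _ => rfl) ha)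
    fun w h h' => h4 w (supp_pull hi.continuous _ h) (supp_pull hi.continuous _ h'), ← map_mul,
    ev_lgys' hi ht β ⟨isCompact_supp_of_subset ha.1 fun _ h => (supp_mul _ _ h).1, fun w => ?_⟩
      fun y hy => (h3 y (supp_mul _ _ hy).1).2.1, mul_assoc]
  by_cases h5 : i w ∈ supp (a * s)
  · obtain ⟨z, rfl⟩ := h4 w (supp_mul _ _ h5).1 (supp_mul _ _ h5).2
    exact van_δ_mul (ha.2 z) (hs z)
  · exact Van.δ h5

end gys

end Vale.Agent.P269.Orb
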