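import Vale.Agent.P269.Orb.Quot

set_option linter.all false

/-!
# Orbifold vector bundles: local structure, supports in the zero section, fibres
-/

namespace Vale.Agent.P269.Orb

open Set Topology Filter Vale.Agent.P291Z

section induce

variable {Γ Γ' U X U' X' : Type} [Group Γ] [Group Γ'] [TopologicalSpace U] [TopologicalSpace X]
  [TopologicalSpace U'] [TopologicalSpace X'] {a : Γ → U → U} {q : U → X}

theorem IsUC.induce (h : IsUC a q) (ι : Γ' →* Γ) {e : U' → U} (he : IsEmbedding e) {j : X' → X}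
    (hj : IsEmbedding j) {q' : U' → X'} (hsq : ∀ u, j (q' u) = q (e u))
    (hinv : ∀ γ u, a (ι γ) (e u) ∈ range e)
    (hfull : ∀ γ u u', a γ (e u) = e u' → ∃ γ', a (ι γ') (e u) = e u') {W : Set U} (hW : IsOpen W)
    (hW' : range e ⊆ W) (hr : W ∩ q ⁻¹' range j ⊆ range e) :
    ∃ a' : Γ' → U' → U', IsUC a' q' ∧ ∀ γ u, e (a' γ u) = a (ι γ) (e u) := by
  choose a' ha' using hinv
  refine ⟨a', ⟨fun u => he.injective (by rw [ha', map_one, h.one]),
    fun γ γ' u => he.injective (by rw [ha', ha', ha', map_mul, h.mul]), fun γ => ?_, ?_,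
    fun V hV => ?_, fun u u' => ?_⟩, ha'⟩
  · rw [he.continuous_iff, show e ∘ a' γ = a (ι γ) ∘ e from funext (ha' γ)]
    exact (h.cont_a _).comp he.continuous
  · rw [hj.continuous_iff, show j ∘ q' = q ∘ e from funext hsq]
    exact h.cont.comp he.continuous
  · obtain ⟨V', hV', rfl⟩ := he.isInducing.isOpen_iff.1 hV
    have : q' '' (e ⁻¹' V') = j ⁻¹' (q '' (V' ∩ W)) := by
      ext x
      constructor
      · rintro ⟨u, h1, rfl⟩
        exact ⟨e u, ⟨h1, hW' (mem_range_self u)⟩, (hsq u).symm⟩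
      · rintro ⟨v, ⟨h1, h2⟩, h3⟩
        obtain ⟨u, rfl⟩ := hr ⟨h2, x, h3.symm⟩
        exact ⟨u, h1, hj.injective ((hsq u).trans h3)⟩
    rw [this]
    exact (h.isOpen _ (hV'.inter hW)).preimage hj.continuous
  · rw [← hj.injective.eq_iff, hsq, hsq, h.fib]
    constructor
    · rintro ⟨γ, h1⟩
      obtain ⟨γ', h2⟩ := hfull γ u u' h1
      exact ⟨γ', he.injective ((ha' _ _).trans h2)⟩
    · rintro ⟨γ, rfl⟩
      exact ⟨ι γ, (ha' _ _).symm⟩

theorem IsUC.pullback (h : IsUC a q) {e : U' → U} (he : IsEmbedding e) {j : X' → X}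
    (hj : IsEmbedding j) {q' : U' → X'} (hsq : ∀ u, j (q' u) = q (e u))
    (hr : q ⁻¹' range j ⊆ range e) :
    ∃ a' : Γ → U' → U', IsUC a' q' ∧ ∀ γ u, e (a' γ u) = a γ (e u) :=
  h.induce (MonoidHom.id Γ) he hj hsq (fun γ u => hr ⟨q' u, by rw [hsq, h.q_a]⟩)
    (fun γ _ _ h1 => ⟨γ, h1⟩) isOpen_univ (subset_univ _) (inter_subset_right.trans hr)

/-- the isotropy group of a point -/
def IsUC.stab (h : IsUC a q) (u : U) : Subgroup Γ where
  carrier := {γ | a γ u = u}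
  one_mem' := h.one u
  mul_mem' {γ γ'} h1 h2 := by
    show a (γ * γ') u = u
    rw [h.mul, h2, h1]
  inv_mem' {γ} h1 := by
    show a γ⁻¹ u = u
    conv_lhs => rw [← show a γ u = u from h1]
    exact h.inv_a γ u

theorem IsUC.isClosed_image [Fintype Γ] (h : IsUC a q) (hs : Function.Surjective q) {C : Set U}
    (hC : IsClosed C) : IsClosed (q '' C) := by
  rw [← (h.isOpen.isQuotientMap h.cont hs).isClosed_preimage, h.preimage_image]
  exact isClosed_iUnion_of_finite fun γ => (h.homeo γ).isClosedMap C hC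

theorem IsUC.exists_sep [Fintype Γ] [T1Space U] (h : IsUC a q) (u : U) :
    ∃ N, IsOpen N ∧ u ∈ N ∧ ∀ u' ∈ N, q u' = q u → u' = u :=
  ⟨(q ⁻¹' {q u} \ {u})ᶜ, ((h.finite_fib _).subset diff_subset).isClosed.isOpen_compl,
    fun h1 => h1.2 rfl, fun u' h1 h2 => by_contra fun h3 => h1 ⟨h2, h3⟩⟩

end induce

variable {E B F : Type} [TopologicalSpace E] [TopologicalSpace B] [TopologicalSpace F]

/-- cochains with proper support can be pushed into `Z`, locally over the base -/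
structure Retr (p : E → B) (Z : Set E) : Prop where
  cont : Continuous p
  prop : (Fam.prop p).mem Z
  retr : ∀ (x : B) (n : ℤ) (b : Coch E), IsDeg n b → (Fam.prop p).mem (supp b) →
    (∀ᶠ y in 𝓝 x, ∀ e, p e = y → e ∉ Z → δ b ∈ Van e) →
    ∃ c, IsDeg (n - 1) c ∧ IsCompact (supp c) ∧
      ∀ᶠ y in 𝓝 x, ∀ e, p e = y → e ∉ Z → b - δ c ∈ Van e

namespace Retr

variable {p : E → B} {Z : Set E} (h : Retr p Z)
include h

theorem prop_of_subset {a : Coch E} (ha : supp a ⊆ Z) : (Fam.prop p).mem (supp a) :=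
  (Fam.prop p).mono h.prop (isClosed_supp a) ha

theorem isMap :
    (asSoft h.cont (Fam.sub Z)).IsMap (asSoft h.cont (Fam.prop p)) 0 LinearMap.id where
  deg n a ha := ⟨IsDeg.cast ha.1 (add_zero n).symm, h.prop_of_subset ha.2⟩
  van _ _ ha := ha
  comm a x := by
    show δ a - δ a ∈ _
    rw [sub_self]
    exact Submodule.zero_mem _

theorem exists_cut [RegularSpace B] {x : B} {b : Coch E}
    (hb : ∀ᶠ y in 𝓝 x, ∀ e, p e = y → e ∉ Z → b ∈ Van e) :
    ∃ S, supp (cut S b) ⊆ Z ∧ b - cut S b ∈ VanB p x := by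
  obtain ⟨C, hC, hCc, hCs⟩ := exists_mem_nhds_isClosed_subset hb
  refine ⟨p ⁻¹' C, fun e he => by_contra fun hZ => ?_,
    (asSoft h.cont (Fam.all E)).cut_in C x b hC⟩
  obtain ⟨h1, h2⟩ := supp_cut _ _ he
  rw [(hCc.preimage h.cont).closure_eq] at h1
  exact hCs h1 e rfl hZ h2

variable [Nice B]

theorem cone_exact (n : ℤ) (C : Set B) (hC : IsCompact C) : (Soft.cone h.isMap).ExactOn C n := by
  refine Soft.cone_exactOn_of_stalk h.isMap (U := univ) (n₀ := -1) (k := n)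
    (fun n hn a ha => asSoft_low _ _ (by omega) ha _)
    (fun n hn b hb => asSoft_low _ _ (by omega) hb _) (fun x _ n _ _ b hb hd => ?_)
    (fun x _ n _ _ a ha hd c hc e => ?_) n le_rfl C (subset_univ _) hC
  · obtain ⟨c, h1, h2, h3⟩ := h.retr x n b hb.1 hb.2
      (Eventually.mono (hd x rfl) fun y hy e he _ => hy e he)
    obtain ⟨S, h4, h5⟩ := h.exists_cut h3
    refine ⟨cut S (b - δ c), ⟨((IsDeg.sub hb.1 (h1.δ.cast (sub_add_cancel _ _))).cut S).cast
      (sub_zero n).symm, h4⟩, ?_, c, ⟨h1, Fam.prop_of_isCompact h.cont h2⟩, ?_⟩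
    · rintro _ rfl
      have := (VanB p _).sub_mem (hd _ rfl) (VanB.of_imp h5 fun _ => Van.δ)
      rwa [map_sub, map_sub, δ_δ, sub_zero, asSoft_δ, sub_sub_cancel] at this
    · rintro _ rfl
      show b - cut S (b - δ c) - δ c ∈ _
      rwa [sub_right_comm]
  · obtain ⟨u, h1, -, h3⟩ := h.retr x _ c hc.1 hc.2
      (Eventually.mono (e x rfl) fun y hy w hw hZ => by
        have := (Van w).sub_mem (show a ∈ Van w from fun h' => hZ (ha.2 h')) (hy w hw)
        rwa [LinearMap.id_apply, asSoft_δ, sub_sub_cancel] at this)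
    obtain ⟨S, h4, h5⟩ := h.exists_cut h3
    refine ⟨cut S (c - δ u), ⟨((IsDeg.sub hc.1 (h1.δ.cast (sub_add_cancel _ _))).cut S).cast
      (by ring), h4⟩, ?_⟩
    rintro _ rfl
    have := (VanB p _).add_mem (e _ rfl) (VanB.of_imp h5 fun _ => Van.δ)
    rwa [map_sub, map_sub, δ_δ, sub_zero, LinearMap.id_apply, asSoft_δ, sub_add_sub_cancel] at this

theorem cone_exact_univ (n : ℤ) : (Soft.cone h.isMap).ExactOn univ n :=
  Soft.exact_univ _ (Soft.cone_glue h.isMap (asSoft_glue _ _ (Fam.local_sub _ _))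
    (asSoft_glue _ _ (Fam.local_prop h.cont))) (h.cone_exact n) (h.cone_exact _)

/-- a cocycle with proper support is cohomologous to a cocycle with support in `Z` -/
theorem surj {n : ℤ} {b : Coch E} (hn : IsDeg n b) (hb : (Fam.prop p).mem (supp b))
    (hd : supp (δ b) = ∅) : ∃ a, IsDeg n a ∧ supp a ⊆ Z ∧ supp (δ a) = ∅ ∧
      ∃ c, IsDeg (n - 1) c ∧ (Fam.prop p).mem (supp c) ∧ ∀ e, b - a - δ c ∈ Van e := by
  obtain ⟨a, h1, h2, c, h3, h4⟩ := Soft.surjOn_of_cone h.isMap (h.cone_exact_univ n) b ⟨hn, hb⟩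
    ((asSoft_vanOn_univ _ _).2 (supp_eq_empty.1 hd))
  exact ⟨a, IsDeg.cast h1.1 (sub_zero n), h1.2, supp_eq_empty.2 ((asSoft_vanOn_univ _ _).1 h2), c,
    h3.1, h3.2, (asSoft_vanOn_univ _ _).1 h4⟩

/-- a cocycle with support in `Z` which has a primitive with proper support has a primitive with
support in `Z` -/
theorem inj {a c : Coch E} (ha : supp a ⊆ Z) (hc : (Fam.prop p).mem (supp c))
    (e : ∀ x, a - δ c ∈ Van x) : ∃ c', supp c' ⊆ Z ∧ ∀ x, a - δ c' ∈ Van x := by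
  refine a.induction_comp (P := fun b => ∃ c', supp c' ⊆ Z ∧ ∀ x, b - δ c' ∈ Van x)
    ⟨0, by rw [supp_zero]; exact empty_subset _, fun u => by simp⟩ ?_ fun n => ?_
  · rintro b b' ⟨c, h1, h3⟩ ⟨c', h1', h3'⟩
    refine ⟨c + c', (supp_add _ _).trans (union_subset h1 h1'), fun u => ?_⟩
    rw [map_add, add_sub_add_comm]
    exact (Van _).add_mem (h3 u) (h3' u)
  · have e' : ∀ x, comp n a - δ (comp (n - 1) c) ∈ Van x := fun x => by
      have := Van.comp (e x) n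
      rwa [map_sub, comp_δ'] at this
    obtain ⟨c', h1, h2⟩ := Soft.injOn_of_cone h.isMap (n := n) (h.cone_exact_univ _) (comp n a)
      ⟨(isDeg_comp n a).cast (sub_zero n).symm, (supp_comp n a).trans ha⟩
      ((asSoft_vanOn_univ _ _).2 fun x => by
        have := Van.δ (e' x)
        rwa [map_sub, δ_δ, sub_zero] at this)
      (comp (n - 1) c) ⟨isDeg_comp _ c, Fam.coch_mono hc (supp_comp _ c)⟩
      ((asSoft_vanOn_univ _ _).2 e')
    exact ⟨c', h1.2, (asSoft_vanOn_univ _ _).1 h2⟩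

end Retr

/-- `ψ` is a finite cover of the fibre of `p` over `x` -/
def IsOFib (p : E → B) (x : B) (ψ : F → E) : Prop :=
  ∃ (ψ' : F → p ⁻¹' {x}) (h : IsPr ψ'), (∀ f, (ψ' f).1 = ψ f) ∧ Function.Surjective ψ' ∧
    Function.Injective (Hc.pull h)

namespace IsOFib

variable {p : E → B} {x : B} {ψ : F → E} (h : IsOFib p x ψ)
include h

theorem apply (f : F) : p (ψ f) = x := by
  obtain ⟨ψ', -, h1, -⟩ := h
  rw [← h1]
  exact (ψ' f).2

theorem exists_eq {e : E} (he : p e = x) : ∃ f, ψ f = e := by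
  obtain ⟨ψ', -, h1, h2, -⟩ := h
  obtain ⟨f, hf⟩ := h2 ⟨e, he⟩
  exact ⟨f, by rw [← h1, hf]⟩

theorem cont : Continuous ψ := by
  obtain ⟨ψ', h0, h1, -⟩ := h
  rw [show ψ = Subtype.val ∘ ψ' from funext fun f => (h1 f).symm]
  exact continuous_subtype_val.comp h0.cont

theorem pull_van {a : Coch E} (ha : a ∈ VanB p x) (f : F) : pull ψ a ∈ Van f :=
  Van.pull h.cont.continuousAt (VanB.van (p := p) (by rwa [h.apply]))

theorem comp_homeo {F' : Type} [TopologicalSpace F'] (g : F' ≃ₜ F) : IsOFib p x (ψ ∘ g) := by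
  obtain ⟨ψ', h0, h1, h2, h3⟩ := h
  refine ⟨ψ' ∘ g, h0.comp (IsPr.of_homeomorph g), fun f => h1 _, h2.comp g.surjective,
    fun c c' e => h3 ((Hc.equiv g).injective ?_)⟩
  rwa [Hc.equiv_apply, Hc.equiv_apply, Hc.pull_pull, Hc.pull_pull]

variable [T2Space B] (hp : Continuous p)
include hp

theorem pull_mem_Zc {a : Coch E} (ha : (Fam.prop p).mem (supp a)) (hd : δ a ∈ VanB p x) :
    pull ψ a ∈ Zc F := by
  obtain ⟨ψ', h0, h1, -⟩ := h
  rw [show ψ = Subtype.val ∘ ψ' from funext fun f => (h1 f).symm, ← pull_pull]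
  exact h0.pull_Zc ((isFib_val hp x).pull_mem_Zc ha hd)

theorem pull_mem_Bc {a c : Coch E} (hc : (Fam.prop p).mem (supp c)) (hd : a - δ c ∈ VanB p x) :
    pull ψ a ∈ Bc F := by
  obtain ⟨ψ', h0, h1, -⟩ := h
  rw [show ψ = Subtype.val ∘ ψ' from funext fun f => (h1 f).symm, ← pull_pull]
  exact h0.pull_Bc ((isFib_val hp x).pull_mem_Bc hc hd)

theorem isGen {d : ℤ} {t : Coch E} (hd : IsDeg d t) (ht : (Fam.prop p).mem (supp t))
    (ht' : δ t ∈ VanB p x) (hg : IsGen d (pull ψ t)) :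
    IsGen d (pull (Subtype.val : p ⁻¹' {x} → E) t) := by
  obtain ⟨ψ', h0, h1, h2, h3⟩ := h
  have h4 := (isFib_val hp x).pull_mem_Zc ht ht'
  rw [show ψ = Subtype.val ∘ ψ' from funext fun f => (h1 f).symm, ← pull_pull] at hg
  refine ⟨h4, hd.pull _, fun h5 => hg.ne (by rw [← Hc.pull_cls h0 h4, h5, map_zero]), fun c => ?_⟩
  obtain ⟨z, hz⟩ := hg.span (Hc.pull h0 c)
  exact ⟨z, h3 (by rw [hz, map_smul, Hc.pull_cls h0 h4])⟩

theorem inj [LocallyCompactSpace B] [Nice E] {n : ℤ} {b : Coch E} (hn : IsDeg n b)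
    (hb : (Fam.prop p).mem (supp b)) (hd : δ b ∈ VanB p x) (h0 : pull ψ b ∈ Bc F) :
    ∃ c, IsDeg (n - 1) c ∧ IsCompact (supp c) ∧ b - δ c ∈ VanB p x := by
  obtain ⟨ψ', h5, h1, h2, h3⟩ := h
  have h4 := (isFib_val hp x).pull_mem_Zc hb hd
  refine (isFib_val hp x).inj hp hn hb hd ((cls_eq_zero h4).1 (h3 ?_))
  rw [Hc.pull_cls h5 h4, map_zero, pull_pull, show Subtype.val ∘ ψ' = ψ from funext h1]
  exact cls_of_mem_Bc h0

end IsOFib

variable {V : Type} [NormedAddCommGroup V] [NormedSpace ℂ V]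

/-- a uniformizing trivialization of `p` with fibre `V` and zero section `Z` -/
structure IsOTriv {Γ U : Type} [Group Γ] [TopologicalSpace U] (p : E → B) (Z : Set E)
    (a : Γ → U → U) (q : U → B) (a' : Γ → U × V → U × V) (Φ : U × V → E) : Prop where
  uc : IsUC a q
  uc' : IsUC a' Φ
  lin : ∀ γ u, ∃ g : V ≃ₗ[ℂ] V, ∀ v, a' γ (u, v) = (a γ u, g v)
  range_eq : range Φ = p ⁻¹' range q
  proj : ∀ w, p (Φ w) = q w.1
  zero : ∀ w, Φ w ∈ Z ↔ w.2 = 0

namespace IsOTriv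

variable {Γ U : Type} [Group Γ] [Fintype Γ] [TopologicalSpace U] {p : E → B} {Z : Set E}
  {a : Γ → U → U} {q : U → B} {a' : Γ → U × V → U × V} {Φ : U × V → E}
  (h : IsOTriv p Z a q a' Φ)
include h

theorem exists_eq {e : E} (he : p e ∈ range q) : ∃ w, Φ w = e := by
  have : e ∈ range Φ := h.range_eq ▸ he
  exact this

theorem fst_a (γ : Γ) (w : U × V) : (a' γ w).1 = a γ w.1 := by
  obtain ⟨g, hg⟩ := h.lin γ w.1
  rw [show w = (w.1, w.2) from rfl, hg]

theorem exists_eq' {e : E} {u : U} (he : p e = q u) : ∃ v, Φ (u, v) = e := by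
  obtain ⟨w, rfl⟩ := h.exists_eq ⟨u, he.symm⟩
  obtain ⟨γ, hγ⟩ := (h.uc.fib _ _).1 ((h.proj w).symm.trans he)
  exact ⟨(a' γ w).2, by rw [← hγ, ← h.fst_a]; exact h.uc'.q_a γ w⟩

theorem isOFib [FiniteDimensional ℂ V] [Nice U] [Nice E] [T1Space B] (hp : Continuous p) (u : U) :
    IsOFib p (q u) fun v => Φ (u, v) := by
  classical
  haveI := FiniteDimensional.proper ℂ V
  haveI : Nice (p ⁻¹' {q u}) :=
    Nice.of_isLocallyClosed (isClosed_singleton.preimage hp).isLocallyClosed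
  obtain ⟨N, h1, h2, h3⟩ := h.uc.exists_sep u
  let ψ' : V → p ⁻¹' {q u} := fun v => ⟨Φ (u, v), h.proj _⟩
  obtain ⟨a'', h4, -⟩ := h.uc'.induce (h.uc.stab u).subtype (isEmbedding_prodMkRight u)
    IsEmbedding.subtypeVal (q' := ψ') (fun v => rfl) (fun γ v => ⟨(a' γ (u, v)).2,
      Prod.ext (by rw [Subgroup.subtype_apply, h.fst_a]; exact Eq.symm γ.2) rfl⟩)
    (fun γ v v' e => ⟨⟨γ, by
      have := congrArg Prod.fst e
      rwa [h.fst_a] at this⟩, e⟩) (h1.preimage continuous_fst)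
    (by rintro _ ⟨v, rfl⟩; exact h2) (by
      rintro ⟨u', v⟩ ⟨h5, e, he⟩
      have h6 : p (Φ (u', v)) = q u := he ▸ e.2
      rw [h.proj] at h6
      exact ⟨v, Prod.ext (h3 u' h5 h6).symm rfl⟩)
  have hs : Function.Surjective ψ' := fun e => by
    obtain ⟨v, hv⟩ := h.exists_eq' e.2
    exact ⟨v, Subtype.ext hv⟩
  exact ⟨ψ', h4.isPr hs, fun _ => rfl, hs, h4.pull_injective hs _⟩

theorem isCompact_image [T2Space B] [LocallyCompactSpace U] {K : Set B} (hK : IsCompact K)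
    (hKq : K ⊆ range q) {C : Set V} (hC : IsCompact C) : IsCompact (Φ '' ((q ⁻¹' K) ×ˢ C)) :=
  ((h.uc.isCompact_preimage hK hKq).prod hC).image h.uc'.cont

/-- the chart over a subset of the base -/
theorem above {K : Set B} {C : Set V} (hC : ∀ γ w, w.2 ∈ C → (a' γ w).2 ∈ C) {Y : Set E}
    (hY : ∀ w, Φ w ∈ Y ↔ q w.1 ∈ K ∧ w.2 ∈ C) (hY' : Y ⊆ range Φ) :
    ∃ (a'' : Γ → (q ⁻¹' K) × C → (q ⁻¹' K) × C) (Φ' : (q ⁻¹' K) × C → Y), IsUC a'' Φ' ∧
      Function.Surjective Φ' ∧ (∀ w, (Φ' w).1 = Φ (w.1, w.2)) ∧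
      ∀ γ w, (((a'' γ w).1.1, (a'' γ w).2.1) : U × V) = a' γ (w.1, w.2) := by
  let Φ' : (q ⁻¹' K) × C → Y := fun w => ⟨Φ (w.1, w.2), (hY _).2 ⟨w.1.2, w.2.2⟩⟩
  obtain ⟨a'', h1, h2⟩ := h.uc'.pullback (e := Prod.map Subtype.val Subtype.val)
    (IsEmbedding.subtypeVal.prodMap IsEmbedding.subtypeVal) IsEmbedding.subtypeVal (q' := Φ')
    (fun w => rfl) (by
      rintro w ⟨y, hy⟩
      obtain ⟨h3, h4⟩ := (hY w).1 (hy ▸ y.2)
      exact ⟨(⟨w.1, h3⟩, ⟨w.2, h4⟩), rfl⟩)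
  refine ⟨a'', Φ', h1, fun y => ?_, fun _ => rfl, h2⟩
  obtain ⟨w, hw⟩ := hY' y.2
  obtain ⟨h3, h4⟩ := (hY w).1 (hw ▸ y.2)
  exact ⟨(⟨w.1, h3⟩, ⟨w.2, h4⟩), Subtype.ext hw⟩

theorem retr [FiniteDimensional ℂ V] [Nice U] [Nice E] [Nice B] (hp : Continuous p)
    (hZ : IsClosed Z) {x : B} (hx : x ∈ range q) {n : ℤ} {b : Coch E} (hn : IsDeg n b)
    (hb : (Fam.prop p).mem (supp b))
    (hd : ∀ᶠ y in 𝓝 x, ∀ e, p e = y → e ∉ Z → δ b ∈ Van e) :
    ∃ c, IsDeg (n - 1) c ∧ IsCompact (supp c) ∧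
      ∀ᶠ y in 𝓝 x, ∀ e, p e = y → e ∉ Z → b - δ c ∈ Van e := by
  haveI := FiniteDimensional.proper ℂ V
  letI : NormedSpace ℝ V := NormedSpace.restrictScalars ℝ ℂ V
  obtain ⟨K, hKx, hKs, hK⟩ := local_compact_nhds (inter_mem (h.uc.isOpen_range.mem_nhds hx) hd)
  have hKq : K ⊆ range q := hKs.trans inter_subset_left
  haveI : CompactSpace (q ⁻¹' K) := isCompact_iff_compactSpace.1 (h.uc.isCompact_preimage hK hKq)
  obtain ⟨ρ, hρ, hρ'⟩ := ((h.uc'.isCompact_preimage (hb K hK) (by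
    rw [h.range_eq]
    exact inter_subset_right.trans (preimage_mono hKq))).image
      continuous_snd).isBounded.subset_ball_lt 0 0
  let Y : Set E := p ⁻¹' K ∩ Zᶜ
  have hYc : IsLocallyClosed Y :=
    (hK.isClosed.preimage hp).isLocallyClosed.inter hZ.isOpen_compl.isLocallyClosed
  haveI : Nice Y := Nice.of_isLocallyClosed hYc
  obtain ⟨a'', Φ', h1, h2, h3, -⟩ := h.above (K := K) (C := {v | v ≠ 0}) (fun γ w hw => by
      obtain ⟨g, hg⟩ := h.lin γ w.1
      rw [show w = (w.1, w.2) from rfl, hg]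
      exact fun h0 => hw (g.map_eq_zero_iff.1 h0)) (Y := Y)
    (fun w => by simp only [Y, mem_inter_iff, mem_preimage, h.proj, mem_compl_iff, h.zero]; rfl)
    (by rw [h.range_eq]; exact inter_subset_left.trans (preimage_mono hKq))
  have hY := Taut.of_isLocallyClosed IsEmbedding.subtypeVal (by rwa [Subtype.range_val])
  have h4 : ∀ y : Y, δ b ∈ Van y.1 := fun y => (hKs y.2.1).2 _ rfl y.2.2
  have h5 : ∀ w : (q ⁻¹' K) × {v : V | v ≠ 0}, ρ ≤ ‖w.2.1‖ → b ∈ Van (Φ' w).1 := fun w hw h' => by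
    have := hρ' ⟨(w.1, w.2), ⟨h3 w ▸ h', by rw [mem_preimage, h.proj]; exact w.1.2⟩, rfl⟩
    rw [mem_ball_zero_iff] at this
    exact not_lt.2 hw this
  have h6 : supp (δ (pull (Subtype.val : Y → E) b)) = ∅ := supp_eq_empty.2 fun y => by
    rw [δ_pull]; exact Van.pull continuous_subtype_val.continuousAt (h4 y)
  obtain ⟨c, -, h7, h8⟩ := rel_prim (Taut.of_isClosedEmbedding (shell_closed (q ⁻¹' K) V hρ))
    (shell_bijective (q ⁻¹' K) hρ) (a := pull Φ' (pull Subtype.val b))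
    (cocycle_pull h1.cont h6) ((hn.pull _).pull _)
    fun z => Van.pull h1.cont.continuousAt
      (Van.pull continuous_subtype_val.continuousAt (h5 _ z.2.2))
  let C : Set ((q ⁻¹' K) × {v : V | v ≠ 0}) := {w | ‖w.2.1‖ ≤ ρ}
  have hC : IsClosed C := isClosed_le (by fun_prop) continuous_const
  have h9 : ∀ y : Y, y ∉ Φ' '' C → b ∈ Van y.1 := fun y hy => by
    obtain ⟨w, rfl⟩ := h2 y
    exact h5 w (le_of_lt (not_le.1 fun h' => hy ⟨w, h', rfl⟩))
  obtain ⟨c₁, h10, h11, h12⟩ := Cohom.comp (h1.inj (h1.isClosed_image h2 hC)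
    (image_subset_range _ _) h6 (fun y hy => by_contra fun h' =>
      Van.pull continuous_subtype_val.continuousAt (h9 y h') hy)
    ⟨c, fun w hw => ⟨w, by_contra fun h' => h7 (w.1, ⟨w.2,
      show ρ ≤ ‖w.2.1‖ from le_of_lt (not_le.1 h')⟩) hw, rfl⟩,
      supp_eq_empty.2 fun w => by rw [sub_zero]; exact h8 w⟩) n
  rw [(hn.pull _).comp_eq, map_zero, sub_zero] at h12
  obtain ⟨c', h13, h14, h15⟩ := hY.inj hn h10
  refine ⟨cut (p ⁻¹' K) c', h13.cut _, isCompact_supp_of_subset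
    (h.isCompact_image hK hKq (isCompact_closedBall (0 : V) ρ)) fun e he => ?_, ?_⟩
  · obtain ⟨he1, he2⟩ := supp_cut _ _ he
    rw [(hK.isClosed.preimage hp).closure_eq] at he1
    by_cases hz : e ∈ Z
    · obtain ⟨w, rfl⟩ := h.exists_eq (hKq he1)
      exact ⟨w, ⟨by rwa [mem_preimage, h.proj] at he1, by
        rw [(h.zero w).1 hz]; exact Metric.mem_closedBall_self hρ.le⟩, rfl⟩
    · have : (⟨e, he1, hz⟩ : Y) ∈ Φ' '' C := by_contra fun h' =>
        h14 ⟨e, he1, hz⟩ (h9 _ h') (fun h'' => h' (h11 h'')) he2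
      obtain ⟨w, h16, h17⟩ := this
      exact ⟨(w.1, w.2), ⟨w.1.2, mem_closedBall_zero_iff.2 h16⟩,
        (h3 w).symm.trans (congrArg Subtype.val h17)⟩
  · filter_upwards [eventually_mem_nhds_iff.2 hKx] with y hy e he hZ'
    subst he
    have h16 : b - δ c' ∈ Van e := h15 ⟨e, show p e ∈ K from mem_of_mem_nhds hy, hZ'⟩ (h4 _) (h12 _)
    have := (Van e).add_mem h16 (Van.δ (cut_in (hp.continuousAt hy) c'))
    rwa [map_sub, sub_add_sub_cancel] at this

end IsOTriv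

end Vale.Agent.P269.Orb
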