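import Vale.Agent.P269.Orb.SoftO

set_option linter.all false

/-!
# Uniformizing charts and the cohomology of finite quotients
-/

namespace Vale.Agent.P269.Orb

open Set Topology Filter Vale.Agent.P291Z

variable {Γ U X U' X' : Type} [Group Γ] [TopologicalSpace U] [TopologicalSpace X]
  [TopologicalSpace U'] [TopologicalSpace X']

/-- `q` identifies the quotient of `U` by the action `a` of `Γ` with an open subset of `X` -/
structure IsUC (a : Γ → U → U) (q : U → X) : Prop where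
  one : ∀ u, a 1 u = u
  mul : ∀ γ γ' u, a (γ * γ') u = a γ (a γ' u)
  cont_a : ∀ γ, Continuous (a γ)
  cont : Continuous q
  isOpen : IsOpenMap q
  fib : ∀ u u', q u = q u' ↔ ∃ γ, a γ u = u'

/-- the average of a cochain -/
noncomputable def avg [Fintype Γ] (a : Γ → U → U) : Coch U →ₗ[ℂ] Coch U :=
  (Fintype.card Γ : ℂ)⁻¹ • ∑ γ, (pull (a γ)).toLinearMap

theorem avg_apply [Fintype Γ] (a : Γ → U → U) (b : Coch U) :
    avg a b = (Fintype.card Γ : ℂ)⁻¹ • ∑ γ, pull (a γ) b := by
  simp [avg, LinearMap.sum_apply]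

theorem δ_avg [Fintype Γ] (a : Γ → U → U) (b : Coch U) : δ (avg a b) = avg a (δ b) := by
  simp only [avg_apply, map_smul, map_sum, δ_pull]

theorem isDeg_avg [Fintype Γ] (a : Γ → U → U) {n : ℤ} {b : Coch U} (h : IsDeg n b) :
    IsDeg n (avg a b) := by
  rw [avg_apply]
  exact (IsDeg.sum fun γ _ => h.pull _).smul _

theorem comp_avg [Fintype Γ] (a : Γ → U → U) (n : ℤ) (b : Coch U) :
    comp n (avg a b) = avg a (comp n b) := by
  simp only [avg_apply, map_smul, map_sum, comp_pull]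

theorem avg_of_inv [Fintype Γ] {a : Γ → U → U} {b : Coch U} (h : ∀ γ, pull (a γ) b = b) :
    avg a b = b := by
  rw [avg_apply, Finset.sum_congr rfl fun γ _ => h γ, Finset.sum_const, Finset.card_univ,
    ← Nat.cast_smul_eq_nsmul ℂ, smul_smul, inv_mul_cancel₀ (by
      exact_mod_cast Fintype.card_ne_zero), one_smul]

namespace IsUC

variable {a : Γ → U → U} {q : U → X} (h : IsUC a q)
include h

theorem q_a (γ : Γ) (u : U) : q (a γ u) = q u := ((h.fib u _).2 ⟨γ, rfl⟩).symm

theorem inv_a (γ : Γ) (u : U) : a γ⁻¹ (a γ u) = u := by rw [← h.mul, inv_mul_cancel, h.one]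

theorem a_inv (γ : Γ) (u : U) : a γ (a γ⁻¹ u) = u := by rw [← h.mul, mul_inv_cancel, h.one]

/-- the action of an element as a homeomorphism -/
def homeo (γ : Γ) : U ≃ₜ U where
  toFun := a γ
  invFun := a γ⁻¹
  left_inv := h.inv_a γ
  right_inv := h.a_inv γ
  continuous_toFun := h.cont_a γ
  continuous_invFun := h.cont_a γ⁻¹

theorem isHomeomorph (γ : Γ) : IsHomeomorph (a γ) := (h.homeo γ).isHomeomorph

theorem injective (γ : Γ) : Function.Injective (a γ) := (h.homeo γ).injective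

theorem isOpen_range : IsOpen (range q) := h.isOpen.isOpen_range

theorem pull_pull_q (γ : Γ) (c : Coch X) : pull (a γ) (pull q c) = pull q c := by
  rw [pull_pull, show q ∘ a γ = q from funext (h.q_a γ)]

theorem preimage_a (γ : Γ) (S : Set X) : a γ ⁻¹' (q ⁻¹' S) = q ⁻¹' S := by
  ext u; simp [h.q_a]

theorem preimage_image (S : Set U) : q ⁻¹' (q '' S) = ⋃ γ, a γ '' S := by
  ext u
  simp only [mem_preimage, mem_image, mem_iUnion]
  constructor
  · rintro ⟨u', h1, h2⟩
    obtain ⟨γ, h3⟩ := (h.fib _ _).1 h2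
    exact ⟨γ, u', h1, h3⟩
  · rintro ⟨γ, u', h1, rfl⟩
    exact ⟨u', h1, (h.q_a γ u').symm⟩

/-- the restriction over a subset -/
theorem restrict (S : Set X) : IsUC (fun γ (u : q ⁻¹' S) => (⟨a γ u, by
    rw [mem_preimage, h.q_a]; exact u.2⟩ : q ⁻¹' S)) (S.restrictPreimage q) where
  one u := Subtype.ext (h.one u)
  mul γ γ' u := Subtype.ext (h.mul γ γ' u)
  cont_a γ := ((h.cont_a γ).comp continuous_subtype_val).subtype_mk _
  cont := h.cont.restrictPreimage
  isOpen := h.isOpen.restrictPreimage S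
  fib u u' := by
    rw [Subtype.ext_iff]
    exact (h.fib u u').trans (exists_congr fun γ => (Subtype.ext_iff (a1 := ⟨a γ u, _⟩)).symm)

/-- composition with an open embedding -/
theorem comp_open {j : X → X'} (hj : IsOpenEmbedding j) : IsUC a (j ∘ q) where
  one := h.one
  mul := h.mul
  cont_a := h.cont_a
  cont := hj.continuous.comp h.cont
  isOpen := hj.isOpenMap.comp h.isOpen
  fib u u' := hj.injective.eq_iff.trans (h.fib u u')

/-- factorization through an embedding -/
theorem of_comp {j : X' → X} (hj : IsEmbedding j) {q' : U → X'} (e : ∀ u, j (q' u) = q u) :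
    IsUC a q' where
  one := h.one
  mul := h.mul
  cont_a := h.cont_a
  cont := hj.continuous_iff.2 (by rw [show j ∘ q' = q from funext e]; exact h.cont)
  isOpen V hV := by
    have : q' '' V = j ⁻¹' (q '' V) := by
      rw [← show j ∘ q' = q from funext e, image_comp, hj.injective.preimage_image]
    rw [this]
    exact (h.isOpen V hV).preimage hj.continuous
  fib u u' := by rw [← h.fib, ← e, ← e, hj.injective.eq_iff]

variable [Fintype Γ]

theorem finite_fib (x : X) : (q ⁻¹' {x}).Finite := by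
  by_cases hx : x ∈ range q
  · obtain ⟨u, rfl⟩ := hx
    refine (finite_range fun γ => a γ u).subset fun u' hu' => ?_
    exact (h.fib u u').1 (Eq.symm hu')
  · rw [preimage_eq_empty (disjoint_singleton_left.2 hx)]
    exact finite_empty

theorem pull_avg (γ : Γ) (b : Coch U) : pull (a γ) (avg a b) = avg a b := by
  rw [avg_apply, map_smul, map_sum]
  congr 1
  refine Fintype.sum_equiv (Equiv.mulRight γ) _ _ fun γ' => ?_
  rw [pull_pull, show a γ' ∘ a γ = a (γ' * γ) from funext fun u => (h.mul γ' γ u).symm]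
  rfl

theorem avg_pull (c : Coch X) : avg a (pull q c) = pull q c := avg_of_inv fun γ => h.pull_pull_q γ c

theorem avg_avg (b : Coch U) : avg a (avg a b) = avg a b := avg_of_inv fun γ => h.pull_avg γ b

theorem avg_pull_mul (c : Coch X) (b : Coch U) : avg a (pull q c * b) = pull q c * avg a b := by
  simp only [avg_apply, map_mul, h.pull_pull_q, Finset.mul_sum, mul_smul_comm]

theorem avg_mul_pull (c : Coch X) (b : Coch U) : avg a (b * pull q c) = avg a b * pull q c := by
  simp only [avg_apply, map_mul, h.pull_pull_q, Finset.sum_mul, smul_mul_assoc]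

theorem van_avg {b : Coch U} {u : U} (hb : ∀ γ, b ∈ Van (a γ u)) : avg a b ∈ Van u := by
  rw [avg_apply]
  exact (Van u).smul_mem _ (Submodule.sum_mem _ fun γ _ =>
    Van.pull (h.cont_a γ).continuousAt (hb γ))

theorem supp_avg {b : Coch U} {S : Set X} (hb : supp b ⊆ q ⁻¹' S) : supp (avg a b) ⊆ q ⁻¹' S :=
  fun u hu => by_contra fun h1 => h.van_avg (fun γ h2 => h1 (by
    have := hb h2
    rwa [mem_preimage, h.q_a] at this)) hu

theorem null_avg {b : Coch U} (hb : ∀ u, b ∈ Van u) (u : U) : avg a b ∈ Van u :=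
  h.van_avg fun _ => hb _

theorem cocycle_avg {b : Coch U} (hb : supp (δ b) = ∅) : supp (δ (avg a b)) = ∅ := by
  rw [δ_avg]
  exact supp_eq_empty.2 (h.null_avg (supp_eq_empty.1 hb))

theorem cohom_avg {S : Set X} {b b' : Coch U} (hb : Cohom (q ⁻¹' S) b b') :
    Cohom (q ⁻¹' S) (avg a b) (avg a b') := by
  obtain ⟨c, h1, h2⟩ := hb
  refine ⟨avg a c, h.supp_avg h1, supp_eq_empty.2 fun u => ?_⟩
  rw [δ_avg, ← map_sub, ← map_sub]
  exact h.null_avg (supp_eq_empty.1 h2) u

theorem vanB {b : Coch U} {x : X} (hx : x ∈ range q) (hb : ∀ u, q u = x → b ∈ Van u) :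
    b ∈ VanB q x := by
  obtain ⟨u, rfl⟩ := hx
  have h1 : ∀ᶠ u' in 𝓝 u, ∀ γ, b ∈ Van (a γ u') := eventually_all.2 fun γ =>
    (h.cont_a γ).continuousAt.eventually (eventually_van (hb _ (h.q_a γ u)))
  refine mem_of_superset (h.isOpen.image_mem_nhds h1) ?_
  rintro _ ⟨u', h2, rfl⟩ e he
  obtain ⟨γ, rfl⟩ := (h.fib u' e).1 he.symm
  exact h2 γ

theorem vanB_avg {b : Coch U} {x : X} (hb : b ∈ VanB q x) : avg a b ∈ VanB q x :=
  Eventually.mono hb fun y hy e he => h.van_avg fun γ => hy _ ((h.q_a γ e).trans he)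

theorem isCompact_preimage_image {K : Set U} (hK : IsCompact K) : IsCompact (q ⁻¹' (q '' K)) := by
  rw [h.preimage_image]
  exact isCompact_iUnion fun γ => hK.image (h.cont_a γ)

theorem isCompact_preimage [T2Space X] [LocallyCompactSpace U] {K : Set X} (hK : IsCompact K)
    (hKq : K ⊆ range q) : IsCompact (q ⁻¹' K) := by
  have key : ∃ L, IsCompact L ∧ K ⊆ q '' L := by
    refine hK.induction_on (p := fun s => ∃ L, IsCompact L ∧ s ⊆ q '' L)
      ⟨∅, isCompact_empty, empty_subset _⟩ ?_ ?_ ?_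
    · rintro s t hst ⟨L, h1, h2⟩
      exact ⟨L, h1, hst.trans h2⟩
    · rintro s t ⟨L, h1, h2⟩ ⟨L', h1', h2'⟩
      exact ⟨L ∪ L', h1.union h1', by rw [image_union]; exact union_subset_union h2 h2'⟩
    · intro x hx
      obtain ⟨u, rfl⟩ := hKq hx
      obtain ⟨L, h1, h2⟩ := exists_compact_mem_nhds u
      exact ⟨q '' L, mem_nhdsWithin_of_mem_nhds (h.isOpen.image_mem_nhds h2), L, h1, subset_rfl⟩
  obtain ⟨L, h1, h2⟩ := key
  exact (h.isCompact_preimage_image h1).of_isClosed_subset (hK.isClosed.preimage h.cont)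
    (preimage_mono h2)

theorem isPr [T2Space X] [LocallyCompactSpace U] (hs : Function.Surjective q) : IsPr q :=
  ⟨h.cont, fun K hK => h.isCompact_preimage hK (by rw [hs.range_eq]; exact subset_univ _)⟩

/-- invariant cochains -/
def invS (a : Γ → U → U) : Submodule ℂ (Coch U) where
  carrier := {b | ∀ γ, pull (a γ) b = b}
  zero_mem' γ := map_zero _
  add_mem' hb hc γ := by rw [map_add, hb γ, hc γ]
  smul_mem' z b hb γ := by rw [map_smul, hb γ]

/-- the soft complex of invariant cochains -/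
noncomputable def invSoft : Soft ℂ X (Coch U) :=
  { asSoft h.cont (Fam.all U) with
    deg := fun n => degS U n ⊓ invS a
    δ_deg := fun n b hb => ⟨IsDeg.δ hb.1, fun γ => by
      show pull (a γ) (δ b) = δ b
      rw [← δ_pull, hb.2 γ]⟩
    cut_deg := fun S n b hb => ⟨IsDeg.cut hb.1 _, fun γ => by
      show pull (a γ) (cut (q ⁻¹' S) b) = cut (q ⁻¹' S) b
      rw [pull_cut, h.preimage_a, hb.2 γ]⟩ }

theorem invSoft_glueO : GlueO h.invSoft := by
  intro n A b h1 h2 h3 h4 h5
  obtain ⟨c, hc, e⟩ := asSoft_glueO h.cont n A b h1 h2 h3 (fun k => ⟨(h4 k).1, trivial⟩) h5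
  refine ⟨avg a c, ⟨isDeg_avg a hc.1, fun γ => h.pull_avg γ c⟩, fun k x hx => ?_⟩
  have := h.vanB_avg (e k x hx)
  rwa [map_sub, avg_of_inv (h4 k).2] at this

theorem isMap : (asSoft continuous_id (Fam.all X)).IsMap h.invSoft 0 (pull q).toLinearMap where
  deg n c hc := ⟨IsDeg.cast (IsDeg.pull hc.1 q) (add_zero n).symm, fun γ => h.pull_pull_q γ c⟩
  van x c hc := VanB.pull h.cont (vanB_id.1 hc)
  comm c x := by
    show δ (pull q c) - pull q (δ c) ∈ VanB q x
    rw [δ_pull, sub_self]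
    exact Submodule.zero_mem _

theorem stalk_surj [T2Space U] {x : X} (hx : x ∈ range q) (n : ℤ) :
    Soft.SurjOn (asSoft continuous_id (Fam.all X)) h.invSoft 0 (pull q).toLinearMap {x} n := by
  classical
  intro b hb hd
  have hd' : ∀ u, q u = x → δ b ∈ Van u := fun u hu => VanB.van (p := q) (hu ▸ hd x rfl)
  obtain ⟨u₀, rfl⟩ := hx
  have hF := h.finite_fib (q u₀)
  obtain ⟨N, hN, hdis⟩ := hF.t2_separation
  have hval : ∀ u, q u = q u₀ → b.1 [u] = b.1 [u₀] := fun u hu => by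
    obtain ⟨γ, rfl⟩ := (h.fib u₀ u).1 hu.symm
    conv_rhs => rw [← hb.2 γ]
    rfl
  let c := ∑ u ∈ hF.toFinset, cut (N u) (coneOp u b)
  have hc : IsDeg (n - 1) c := IsDeg.sum fun u _ => (coneOp_deg u hb.1).cut _
  have hz : IsDeg n (b.1 [u₀] • (1 : Coch X)) := by
    by_cases hn : n = 0
    · rw [hn]; exact isDeg_one.smul _
    · rw [IsDeg.val_single hb.1 hn, zero_smul]; exact isDeg_zero _
  have key : ∀ u, q u = q u₀ → b - b.1 [u₀] • (1 : Coch U) - δ c ∈ Van u := fun u hu => by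
    have hu' : u ∈ hF.toFinset := hF.mem_toFinset.2 hu
    have h1 : coneOp u b - c ∈ Van u := by
      simp only [c]
      rw [← Finset.add_sum_erase _ _ hu', ← sub_sub]
      refine (Van u).sub_mem (cut_in ((hN u).2.mem_nhds (hN u).1) _)
        (Submodule.sum_mem _ fun u' hu'' => cut_out (mem_of_superset
          ((hN u).2.mem_nhds (hN u).1) ?_) _)
      exact (hdis hu (hF.mem_toFinset.1 (Finset.mem_of_mem_erase hu''))
        (Finset.ne_of_mem_erase hu'').symm).subset_compl_right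
    have := (Van u).add_mem (local_cocycle (hd' u hu)) (Van.δ h1)
    rwa [map_sub, sub_add_sub_cancel, hval u hu] at this
  refine ⟨b.1 [u₀] • 1, ⟨hz.cast (sub_zero n).symm, trivial⟩, ?_, avg a c,
    ⟨isDeg_avg a hc, fun γ => h.pull_avg γ c⟩, ?_⟩
  · rintro _ rfl
    rw [asSoft_δ, map_smul, δ_one_eq_zero, smul_zero]
    exact Submodule.zero_mem _
  · rintro _ rfl
    have := h.vanB_avg (h.vanB ⟨u₀, rfl⟩ key)
    rw [map_sub, map_sub, avg_of_inv hb.2, ← δ_avg, avg_of_inv fun γ => by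
      rw [map_smul, map_one]] at this
    show b - pull q (b.1 [u₀] • 1) - δ (avg a c) ∈ VanB q (q u₀)
    rwa [map_smul, map_one]

theorem stalk_inj {x : X} (hx : x ∈ range q) (n : ℤ) :
    Soft.InjOn' (asSoft continuous_id (Fam.all X)) h.invSoft 0 (pull q).toLinearMap {x} n := by
  intro c hc hd b hb e
  obtain ⟨u, rfl⟩ := hx
  have h0 := local_cocycle (vanB_id.1 (hd _ rfl))
  have h1 : (pull q c - δ b).1 [u] = 0 := Van.val_single (VanB.van (p := q) (e _ rfl))
  rw [Coch.sub_val, Pi.sub_apply, δ_val_single, sub_zero, pull_val, List.map_singleton] at h1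
  rw [h1, zero_smul, sub_zero] at h0
  refine ⟨coneOp (q u) c, ⟨coneOp_deg _ hc.1, trivial⟩, ?_⟩
  rintro _ rfl
  exact vanB_id.2 h0

variable [T2Space U] [Nice X]

theorem cone_exact {O : Set X} (hO : IsOpen O) (hOq : O ⊆ range q) (n : ℤ) :
    (Soft.cone h.isMap).ExactOn O n := by
  have key : ∀ n, ∀ A ⊆ O, IsCompact A → (Soft.cone h.isMap).ExactOn A n := fun n =>
    Soft.cone_exactOn_of_stalk h.isMap (U := O) (n₀ := -1) (k := n)
      (fun n hn a ha => asSoft_low _ _ (by omega) ha _)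
      (fun n hn b hb => by
        rw [IsDeg.eq_zero hb.1 (by omega)]; exact Submodule.zero_mem _)
      (fun x hx n _ _ => h.stalk_surj (hOq hx) n) (fun x hx n _ _ => h.stalk_inj (hOq hx) _) n le_rfl
  exact exactOn_open _ (GlueO.cone h.isMap (asSoft_glueO continuous_id) h.invSoft_glueO) hO
    (key n) (key _)

/-- **Finite quotients**, surjectivity with supports -/
theorem surj {A : Set X} (hA : IsClosed A) (hAq : A ⊆ range q) {n : ℤ} {b : Coch U}
    (hn : IsDeg n b) (hb : supp (δ b) = ∅) (hs : supp b ⊆ q ⁻¹' A) :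
    ∃ c, IsDeg n c ∧ supp (δ c) = ∅ ∧ supp c ⊆ A ∧ Cohom (q ⁻¹' A) (avg a b) (pull q c) := by
  obtain ⟨c, h1, h2, h3, e, h4, h5, h6⟩ := surj_supp h.isMap (O := range q) (O' := range q \ A)
    diff_subset (h.cone_exact h.isOpen_range subset_rfl n)
    (h.cone_exact (h.isOpen_range.sdiff hA) diff_subset _) (b := avg a b)
    ⟨isDeg_avg a hn, fun γ => h.pull_avg γ b⟩
    (fun x _ => VanB.of_null (supp_eq_empty.1 (h.cocycle_avg hb)) x)
    fun x hx => h.vanB hx.1 fun u hu h' => hx.2 (hu ▸ h.supp_avg hs h')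
  obtain ⟨N, hN⟩ := exists_cut_closed hA h.isOpen_range hAq
  obtain ⟨h7, h8⟩ := hN c fun x hx => vanB_id.1 (h3 x hx)
  refine ⟨cut N c, IsDeg.cut (IsDeg.cast h1.1 (sub_zero n)) N, supp_eq_empty.2 fun x => ?_, h7, e,
    fun u hu => by_contra fun h' => VanB.van (p := q) (h5 (q u) ⟨⟨u, rfl⟩, h'⟩) hu,
    supp_eq_empty.2 fun u => ?_⟩
  · by_cases hx : x ∈ A
    · have := (Van x).sub_mem (vanB_id.1 (h2 x (hAq hx))) (Van.δ (h8 x (hAq hx)))
      rwa [map_sub, asSoft_δ, sub_sub_cancel] at this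
    · exact Van.δ fun h' => hx (h7 h')
  · have := (Van u).add_mem (VanB.van (p := q) (h6 (q u) ⟨u, rfl⟩))
      (Van.pull h.cont.continuousAt (h8 (q u) ⟨u, rfl⟩))
    rw [map_sub] at this
    convert this using 1
    show _ = avg a b - pull q c - δ e + _
    abel

/-- **Finite quotients**, injectivity with supports -/
theorem inj {A : Set X} (hA : IsClosed A) (hAq : A ⊆ range q) {c : Coch X}
    (hc : supp (δ c) = ∅) (hs : supp c ⊆ A) (e : Cohom (q ⁻¹' A) (pull q c) 0) : Cohom A c 0 := by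
  refine cohom_zero_of_comp fun n => ?_
  obtain ⟨b, h1, h2, h3⟩ := Cohom.comp e n
  obtain ⟨c', h4, h5, h6⟩ := inj_supp h.isMap (O := range q) (O' := range q \ A) diff_subset
    (h.cone_exact h.isOpen_range subset_rfl (n - 1))
    (h.cone_exact (h.isOpen_range.sdiff hA) diff_subset _) (a := comp n c)
    ⟨(isDeg_comp n c).cast (sub_zero n).symm, trivial⟩
    (fun x _ => vanB_id.2 (supp_eq_empty.1 (cocycle_comp hc n) x))
    (fun x hx => vanB_id.2 (Van.comp (fun h' => hx.2 (hs h')) n)) (c := avg a b)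
    ⟨isDeg_avg a h1, fun γ => h.pull_avg γ b⟩
    (fun x hx => h.vanB hx.1 fun u hu h' => hx.2 (hu ▸ h.supp_avg h2 h'))
    fun x _ => VanB.of_null (fun u => by
      have := h.null_avg h3 u
      rwa [map_zero, sub_zero, map_sub, comp_pull, h.avg_pull, ← δ_avg] at this) x
  obtain ⟨N, hN⟩ := exists_cut_closed hA h.isOpen_range hAq
  obtain ⟨h7, h8⟩ := hN c' fun x hx => vanB_id.1 (h5 x hx)
  refine ⟨cut N c', h7, supp_eq_empty.2 fun x => ?_⟩
  rw [sub_zero]
  by_cases hx : x ∈ A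
  · have := (Van x).add_mem (vanB_id.1 (h6 x (hAq hx))) (Van.δ (h8 x (hAq hx)))
    rwa [map_sub, asSoft_δ, sub_add_sub_cancel] at this
  · exact (Van x).sub_mem (Van.comp (fun h' => hx (hs h')) n) (Van.δ fun h' => hx (h7 h'))

theorem inj' {A : Set X} (hA : IsClosed A) (hAq : A ⊆ range q) {c c' : Coch X}
    (hc : supp (δ c) = ∅) (hs : supp c ⊆ A) (hc' : supp (δ c') = ∅) (hs' : supp c' ⊆ A)
    (e : Cohom (q ⁻¹' A) (pull q c) (pull q c')) : Cohom A c c' :=
  cohom_iff_sub.2 (h.inj hA hAq (cocycle_sub hc hc') ((supp_sub _ _).trans (union_subset hs hs'))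
    (by rw [map_sub]; exact cohom_iff_sub.1 e))

/-- injectivity with compact supports -/
theorem prim_c {c : Coch X} (hc : c ∈ Zc X) (hs : supp c ⊆ range q) {b : Coch U}
    (hb : IsCompact (supp b)) (e : ∀ u, pull q c - δ b ∈ Van u) :
    Cohom (supp c ∪ q '' supp b) c 0 :=
  h.inj (hc.1.union (hb.image h.cont)).isClosed (union_subset hs (image_subset_range _ _)) hc.2
    subset_union_left ⟨b, (subset_preimage_image q _).trans (preimage_mono subset_union_right),
      supp_eq_empty.2 fun u => by rw [sub_zero]; exact e u⟩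

theorem mem_Bc {c : Coch X} (hc : c ∈ Zc X) (hs : supp c ⊆ range q) (e : pull q c ∈ Bc U) :
    c ∈ Bc X := by
  obtain ⟨b, h1, h2⟩ := e
  obtain ⟨c', h3, h4⟩ := h.prim_c hc hs h1 (supp_eq_empty.1 h2)
  exact ⟨c', isCompact_supp_of_subset (hc.1.union (h1.image h.cont)) h3, by rwa [sub_zero] at h4⟩

theorem pull_injective (hs : Function.Surjective q) (hp : IsPr q) :
    Function.Injective (Hc.pull hp) := (injective_iff_map_eq_zero _).2 fun c hc => by
  obtain ⟨c, h1, rfl⟩ := cls_surj c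
  rw [Hc.pull_cls hp h1, cls_eq_zero (hp.pull_Zc h1)] at hc
  exact cls_of_mem_Bc (h.mem_Bc h1 (by rw [hs.range_eq]; exact subset_univ _) hc)

theorem map_injective (hs : Function.Surjective q) :
    Function.Injective (H.map ⟨q, h.cont⟩) := (injective_iff_map_eq_zero _).2 fun c hc => by
  obtain ⟨c, h1, rfl⟩ := hcls_surj c
  rw [H.map_hcls _ h1] at hc
  obtain ⟨b, hb⟩ := (hcls_eq_zero (cocycle_pull h.cont h1)).1 hc
  obtain ⟨c', -, h2⟩ := h.inj isClosed_univ hs.range_eq.ge h1 (subset_univ _)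
    ⟨b, subset_univ _, by rwa [sub_zero]⟩
  exact (hcls_eq_zero h1).2 ⟨c', by rwa [sub_zero] at h2⟩

theorem isGen (hs : Function.Surjective q) (hp : IsPr q) {d : ℤ} {t : Coch X} (ht : t ∈ Zc X)
    (hd : IsDeg d t) (hg : IsGen d (pull q t)) : IsGen d t := by
  refine ⟨ht, hd, fun h0 => hg.ne (by rw [← Hc.pull_cls hp ht, h0, map_zero]), fun c => ?_⟩
  obtain ⟨z, hz⟩ := hg.span (Hc.pull hp c)
  exact ⟨z, h.pull_injective hs hp (by rw [hz, map_smul, Hc.pull_cls hp ht])⟩

/-- surjectivity with compact supports -/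
theorem surj_c {n : ℤ} {b : Coch U} (hn : IsDeg n b) (hb : b ∈ Zc U) :
    ∃ c ∈ Zc X, IsDeg n c ∧ supp c ⊆ q '' supp b ∧
      Cohom (q ⁻¹' (q '' supp b)) (avg a b) (pull q c) := by
  obtain ⟨c, h1, h2, h3, h4⟩ := h.surj (hb.1.image h.cont).isClosed (image_subset_range _ _) hn hb.2
    (subset_preimage_image q _)
  exact ⟨c, ⟨isCompact_supp_of_subset (hb.1.image h.cont) h3, h2⟩, h1, h3, h4⟩

omit [T2Space U] [Nice X] in
theorem avg_Zc {b : Coch U} (hb : b ∈ Zc U) : avg a b ∈ Zc U :=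
  ⟨isCompact_supp_of_subset (h.isCompact_preimage_image hb.1)
    (h.supp_avg (subset_preimage_image q _)), h.cocycle_avg hb.2⟩

omit [T2Space U] [Nice X] in
theorem cls_avg {b : Coch U} (hb : b ∈ Zc U) :
    cls (avg a b) = (Fintype.card Γ : ℂ)⁻¹ • ∑ γ, cls (pull (a γ) b) := by
  have : ∀ γ, pull (a γ) b ∈ Zc U := fun γ => (IsPr.of_isHomeomorph (h.isHomeomorph γ)).pull_Zc hb
  rw [avg_apply, cls_smul _ (Submodule.sum_mem _ fun γ _ => this γ), cls_sum _ fun γ _ => this γ]

omit [T2Space U] in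
theorem pull_Zc [LocallyCompactSpace U] {c : Coch X} (hc : c ∈ Zc X) (hs : supp c ⊆ range q) :
    pull q c ∈ Zc U :=
  ⟨isCompact_supp_of_subset (h.isCompact_preimage hc.1 hs) (supp_pull h.cont c),
    cocycle_pull h.cont hc.2⟩

end IsUC

end Vale.Agent.P269.Orb
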