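import Vale.Agent.P269.Z.Ops
import Vale.Agent.P291Z.T16

set_option linter.all false

/-!
# Soft complexes over open subsets; supports in closed subsets
-/

namespace Vale.Agent.P269.Orb

open Set Topology Filter Vale.Agent.P291Z

section soft

variable {R : Type*} [CommRing R] {B : Type} [TopologicalSpace B] {K : Type*} [AddCommGroup K]
  [Module R K] {L : Type*} [AddCommGroup L] [Module R L]

/-- gluing along an exhaustion of an open set by closed sets -/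
def GlueO (S : Soft R B K) : Prop :=
  ∀ (n : ℤ) (A : ℕ → Set B) (a : ℕ → K), (∀ k, IsClosed (A k)) → Monotone A →
    (∀ k, ∀ x ∈ A k, ∃ j, A j ∈ 𝓝 x) → (∀ k, a k ∈ S.deg n) →
    (∀ k, a (k + 1) - a k ∈ S.VanOn (A k)) → ∃ b ∈ S.deg n, ∀ k, b - a k ∈ S.VanOn (A k)

theorem GlueO.glue {S : Soft R B K} (h : GlueO S) : S.Glue :=
  fun n A a h1 h2 h3 => h n A a h1 h2 fun _ x _ => h3 x

theorem GlueO.cone {S : Soft R B K} {T : Soft R B L} {r : ℤ} {φ : K →ₗ[R] L} (h : S.IsMap T r φ)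
    (hS : GlueO S) (hT : GlueO T) : GlueO (Soft.cone h) := by
  intro n A a h1 h2 h3 h4 h5
  obtain ⟨b, hb, e⟩ := hS _ A (fun k => (a k).1) h1 h2 h3 (fun k => (h4 k).1)
    fun k => ((Soft.cone_vanOn h).1 (h5 k)).1
  obtain ⟨c, hc, e'⟩ := hT _ A (fun k => (a k).2) h1 h2 h3 (fun k => (h4 k).2)
    fun k => ((Soft.cone_vanOn h).1 (h5 k)).2
  exact ⟨(b, c), ⟨hb, hc⟩, fun k => (Soft.cone_vanOn h).2 ⟨e k, e' k⟩⟩

theorem exists_exhaustion [Nice B] {O : Set B} (hO : IsOpen O) :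
    ∃ A : ℕ → Set B, (∀ k, IsCompact (A k)) ∧ Monotone A ∧ (∀ k, A k ⊆ O) ∧
      ∀ x ∈ O, ∃ j, A j ∈ 𝓝 x := by
  haveI : LocallyCompactSpace O := hO.locallyCompactSpace
  let E := CompactExhaustion.choice O
  refine ⟨fun k => Subtype.val '' E k, fun k => (E.isCompact k).image continuous_subtype_val,
    fun i j h => image_mono (E.subset h), fun k => by
      rintro _ ⟨x, -, rfl⟩; exact x.2, fun x hx => ?_⟩
  obtain ⟨j, hj⟩ := E.exists_mem_nhds ⟨x, hx⟩
  exact ⟨j, hO.isOpenMap_subtype_val.image_mem_nhds hj⟩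

theorem exactOn_open [Nice B] (S : Soft R B K) (hG : GlueO S) {O : Set B} (hO : IsOpen O) {n : ℤ}
    (h1 : ∀ A ⊆ O, IsCompact A → S.ExactOn A n)
    (h0 : ∀ A ⊆ O, IsCompact A → S.ExactOn A (n - 1)) : S.ExactOn O n := by
  obtain ⟨A, hc, hm, hs, hn⟩ := exists_exhaustion hO
  intro a ha hd
  have step : ∀ k, ∀ b : {b // b ∈ S.deg (n - 1) ∧ a - S.δ b ∈ S.VanOn (A k)},
      ∃ b' : {b // b ∈ S.deg (n - 1) ∧ a - S.δ b ∈ S.VanOn (A (k + 1))},
        b'.1 - b.1 ∈ S.VanOn (A k) := by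
    rintro k ⟨b, hb, e⟩
    obtain ⟨b', hb', e'⟩ := h1 _ (hs (k + 1)) (hc _) a ha (Soft.VanOn.mono hd (hs _))
    obtain ⟨c, hc', ec⟩ := h0 _ (hs k) (hc k) (b' - b) ((S.deg _).sub_mem hb' hb) (by
      have := (S.VanOn (A k)).sub_mem e (Soft.VanOn.mono e' (hm (Nat.le_succ k)))
      rw [map_sub]
      convert this using 1
      abel)
    have hc'' : S.δ c ∈ S.deg (n - 1) := by
      have := S.δ_deg _ _ hc'
      rwa [sub_add_cancel] at this
    refine ⟨⟨b' - S.δ c, (S.deg _).sub_mem hb' hc'', ?_⟩, ?_⟩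
    · have := (S.VanOn (A (k + 1))).add_mem e' (S.δδ_vanOn _ c)
      rw [map_sub]
      convert this using 1
      abel
    · convert ec using 1
      show b' - S.δ c - b = _
      abel
  choose nx hnx using step
  obtain ⟨b₀, hb₀, e₀⟩ := h1 _ (hs 0) (hc 0) a ha (Soft.VanOn.mono hd (hs _))
  let seq : ∀ k, {b // b ∈ S.deg (n - 1) ∧ a - S.δ b ∈ S.VanOn (A k)} := fun k =>
    Nat.rec ⟨b₀, hb₀, e₀⟩ (fun k b => nx k b) k
  obtain ⟨b, hb, e⟩ := hG (n - 1) A (fun k => (seq k).1) (fun k => (hc k).isClosed) hm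
    (fun k x hx => hn x (hs k hx)) (fun k => (seq k).2.1) fun k => hnx k (seq k)
  refine ⟨b, hb, fun x hx => ?_⟩
  obtain ⟨k, hk⟩ := hn x hx
  have hx := mem_of_mem_nhds hk
  have := (S.Van x).sub_mem ((seq k).2.2 x hx) (S.δ_van x _ (e k x hx))
  rw [map_sub] at this
  convert this using 1
  abel

/-- exactness with supports -/
theorem exact_supp (S : Soft R B K) {O O' : Set B} (hO : O' ⊆ O) {n : ℤ} (h1 : S.ExactOn O n)
    (h0 : S.ExactOn O' (n - 1)) {a : K} (ha : a ∈ S.deg n) (hd : S.δ a ∈ S.VanOn O)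
    (hv : a ∈ S.VanOn O') : ∃ b ∈ S.deg (n - 1), a - S.δ b ∈ S.VanOn O ∧ b ∈ S.VanOn O' := by
  obtain ⟨b, hb, e⟩ := h1 a ha hd
  obtain ⟨c, hc, e'⟩ := h0 b hb (by
    have := (S.VanOn O').sub_mem hv (Soft.VanOn.mono e hO)
    rwa [sub_sub_cancel] at this)
  have hc' : S.δ c ∈ S.deg (n - 1) := by
    have := S.δ_deg _ _ hc
    rwa [sub_add_cancel] at this
  refine ⟨b - S.δ c, (S.deg _).sub_mem hb hc', ?_, e'⟩
  have := (S.VanOn O).add_mem e (S.δδ_vanOn _ c)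
  rw [map_sub]
  convert this using 1
  abel

variable {S : Soft R B K} {T : Soft R B L} {r : ℤ} {φ : K →ₗ[R] L} (h : S.IsMap T r φ)

theorem surj_supp {O O' : Set B} (hO : O' ⊆ O) {n : ℤ} (h1 : (Soft.cone h).ExactOn O n)
    (h0 : (Soft.cone h).ExactOn O' (n - 1)) {b : L} (hb : b ∈ T.deg n) (hd : T.δ b ∈ T.VanOn O)
    (hv : b ∈ T.VanOn O') : ∃ a ∈ S.deg (n - r), S.δ a ∈ S.VanOn O ∧ a ∈ S.VanOn O' ∧
      ∃ c ∈ T.deg (n - 1), c ∈ T.VanOn O' ∧ b - φ a - T.δ c ∈ T.VanOn O := by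
  obtain ⟨⟨a, c⟩, ⟨ha, hc⟩, e, e'⟩ := exact_supp (Soft.cone h) hO h1 h0 (a := (0, b))
    ⟨Submodule.zero_mem _, hb⟩ ((Soft.cone_vanOn h).2 ⟨by
      show -S.δ 0 ∈ _
      rw [map_zero, neg_zero]
      exact Submodule.zero_mem _, by
      show φ 0 + T.δ b ∈ _
      rwa [map_zero, zero_add]⟩) ((Soft.cone_vanOn h).2 ⟨Submodule.zero_mem _, hv⟩)
  obtain ⟨e1, e2⟩ := (Soft.cone_vanOn h).1 e
  obtain ⟨e3, e4⟩ := (Soft.cone_vanOn h).1 e'
  refine ⟨a, by simpa using ha, ?_, e3, c, hc, e4, ?_⟩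
  · have : (0 : K) - -S.δ a ∈ S.VanOn O := e1
    rwa [zero_sub, neg_neg] at this
  · have : b - (φ a + T.δ c) ∈ T.VanOn O := e2
    rwa [← sub_sub] at this

theorem inj_supp {O O' : Set B} (hO : O' ⊆ O) {n : ℤ} (h1 : (Soft.cone h).ExactOn O (n - 1))
    (h0 : (Soft.cone h).ExactOn O' (n - 1 - 1)) {a : K} (ha : a ∈ S.deg (n - r))
    (hd : S.δ a ∈ S.VanOn O) (hv : a ∈ S.VanOn O') {c : L} (hc : c ∈ T.deg (n - 1))
    (hv' : c ∈ T.VanOn O') (e : φ a - T.δ c ∈ T.VanOn O) :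
    ∃ a' ∈ S.deg (n - r - 1), a' ∈ S.VanOn O' ∧ a - S.δ a' ∈ S.VanOn O := by
  obtain ⟨⟨a', c'⟩, ⟨ha', -⟩, e1, e2⟩ := exact_supp (Soft.cone h) hO h1 h0 (a := (a, -c))
    ⟨by simpa using ha, (T.deg _).neg_mem hc⟩ ((Soft.cone_vanOn h).2 ⟨(S.VanOn O).neg_mem hd, by
      show φ a + T.δ (-c) ∈ _
      rwa [map_neg, ← sub_eq_add_neg]⟩)
    ((Soft.cone_vanOn h).2 ⟨hv, (T.VanOn O').neg_mem hv'⟩)
  refine ⟨-a', (S.deg _).neg_mem (by
    have : a' ∈ S.deg (n - 1 - 1 + 1 - r) := ha'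
    rwa [show n - 1 - 1 + 1 - r = n - r - 1 by ring] at this),
    (S.VanOn O').neg_mem ((Soft.cone_vanOn h).1 e2).1, ?_⟩
  have : a - -S.δ a' ∈ S.VanOn O := ((Soft.cone_vanOn h).1 e1).1
  rwa [map_neg]

/-- Lawson-Spanier lemma in low degrees, for locally finite dimensional bases -/
theorem exactOn_low [T3Space B] (S : Soft R B K) {U : Set B} (hU : Soft.LocFin U) {k : ℤ}
    (hs : ∀ x ∈ U, ∀ n ≤ k, S.StalkExact x n) :
    ∀ A ⊆ U, IsCompact A → ∀ n ≤ k, S.ExactOn A n := by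
  intro A hAU hA
  have key : ∃ A', IsCompact A' ∧ A ⊆ A' ∧ ∀ C ⊆ A', IsCompact C → ∀ n ≤ k, S.ExactOn C n := by
    refine hA.induction_on (p := fun s => ∃ A', IsCompact A' ∧ s ⊆ A' ∧
      ∀ C ⊆ A', IsCompact C → ∀ n ≤ k, S.ExactOn C n) ?_ ?_ ?_ ?_
    · refine ⟨∅, isCompact_empty, subset_rfl, fun C hC _ n _ => ?_⟩
      rw [subset_empty_iff.1 hC]
      exact S.exactOn_empty n
    · rintro s t hst ⟨A', h1, h2, h3⟩
      exact ⟨A', h1, hst.trans h2, h3⟩
    · rintro s t ⟨A₁, c₁, s₁, e₁⟩ ⟨A₂, c₂, s₂, e₂⟩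
      refine ⟨A₁ ∪ A₂, c₁.union c₂, union_subset_union s₁ s₂, fun C hC hc n hn => ?_⟩
      have e : C = C ∩ A₁ ∪ C ∩ A₂ := by rw [← inter_union_distrib_left, inter_eq_left.2 hC]
      rw [e]
      exact S.exactOn_union (e₁ _ inter_subset_right (hc.inter c₁) n hn)
        (e₂ _ inter_subset_right (hc.inter c₂) n hn)
        (e₁ _ (inter_subset_left.trans inter_subset_right) ((hc.inter c₁).inter (hc.inter c₂)) _
          (by omega))
        (Soft.sep_compact (hc.inter c₁) (hc.inter c₂))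
    · intro x hx
      obtain ⟨N, hN, d, f, hf, hi⟩ := hU x (hAU hx)
      obtain ⟨C, hC, hCc, hCs⟩ := exists_mem_nhds_isClosed_subset hN
      refine ⟨A ∩ C, inter_mem self_mem_nhdsWithin (mem_nhdsWithin_of_mem_nhds hC), A ∩ C,
        hA.inter_right hCc, subset_rfl, fun D hD hc n hn => ?_⟩
      have hDN : D ⊆ N := fun y hy => hCs (hD hy).2
      exact S.exactOn_of_inj d D hc f (hf.mono hDN) (hi.mono hDN) n
        fun y hy m _ h2 => hs y (hAU (hD hy).1) m (h2.trans hn)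
  obtain ⟨A', -, h1, h2⟩ := key
  exact h2 A h1 hA

end soft

variable {X Y E B : Type} [TopologicalSpace X] [TopologicalSpace Y] [TopologicalSpace E]
  [TopologicalSpace B]

theorem van_of_pull {j : X → Y} (hj : IsOpenEmbedding j) {a : Coch Y} {x : X}
    (h : pull j a ∈ Van x) : a ∈ Van (j x) := by
  obtain ⟨U, hU, h1⟩ := notMem_supp.1 h
  refine notMem_supp.2 ⟨j '' U, hj.isOpenMap.image_mem_nhds hU, fun l hl => ?_⟩
  have : ∃ l' : List X, (∀ y ∈ l', y ∈ U) ∧ l'.map j = l := by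
    clear h1
    induction l with
    | nil => exact ⟨[], by simp, rfl⟩
    | cons y l ih =>
      obtain ⟨l', h2, rfl⟩ := ih fun z hz => hl z (List.mem_cons_of_mem _ hz)
      obtain ⟨x', h3, rfl⟩ := hl y List.mem_cons_self
      exact ⟨x' :: l', by
        intro z hz
        rcases List.mem_cons.1 hz with rfl | hz
        · exact h3
        · exact h2 z hz, rfl⟩
  obtain ⟨l', h2, rfl⟩ := this
  exact h1 l' h2

theorem van_pull_iff {j : X → Y} (hj : IsOpenEmbedding j) {a : Coch Y} {x : X} :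
    pull j a ∈ Van x ↔ a ∈ Van (j x) :=
  ⟨van_of_pull hj, Van.pull hj.continuous.continuousAt⟩

theorem asSoft_glueO {p : E → B} (hp : Continuous p) : GlueO (asSoft hp (Fam.all E)) := by
  intro n A a hc hm hn ha hs
  let O : Set B := ⋃ k, A k
  have hO : IsOpen O := isOpen_iff_mem_nhds.2 fun x hx => by
    obtain ⟨k, hk⟩ := mem_iUnion.1 hx
    obtain ⟨j, hj⟩ := hn k x hk
    exact mem_of_superset hj (subset_iUnion A j)
  let p' : p ⁻¹' O → O := O.restrictPreimage p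
  have hp' : Continuous p' := hp.restrictPreimage
  have hj : IsOpenEmbedding (Subtype.val : p ⁻¹' O → E) :=
    (hO.preimage hp).isOpenEmbedding_subtypeVal
  obtain ⟨b, hb, e⟩ := asSoft_glue hp' (Fam.all _) (Fam.local_all _) n
    (fun k => Subtype.val ⁻¹' A k) (fun k => pull Subtype.val (a k))
    (fun k => (hc k).preimage continuous_subtype_val) (fun i j h => preimage_mono (hm h))
    (fun x => by
      obtain ⟨k, hk⟩ := mem_iUnion.1 x.2
      obtain ⟨j, hj⟩ := hn k x hk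
      exact ⟨j, continuous_subtype_val.continuousAt hj⟩)
    (fun k => ⟨IsDeg.pull (ha k).1 _, trivial⟩) fun k x hx => by
      have h1 : a (k + 1) - a k ∈ VanB p x.1 := hs k x hx
      refine (continuous_subtype_val.continuousAt.eventually h1).mono fun y hy e he => ?_
      rw [← map_sub]
      exact Van.pull continuous_subtype_val.continuousAt (hy e (congrArg Subtype.val he))
  obtain ⟨b', h1, h2, -⟩ := (Taut.of_isOpenEmbedding hj).surj hb.1
  refine ⟨b', ⟨h1, trivial⟩, fun k x hx => ?_⟩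
  have hxO : x ∈ O := mem_iUnion.2 ⟨k, hx⟩
  have h3 : ∀ᶠ y in 𝓝 (⟨x, hxO⟩ : O), ∀ e, p' e = y → b - pull Subtype.val (a k) ∈ Van e :=
    e k ⟨x, hxO⟩ hx
  have h4 := hO.isOpenEmbedding_subtypeVal.map_nhds_eq ⟨x, hxO⟩
  show ∀ᶠ y in 𝓝 x, ∀ e, p e = y → b' - a k ∈ Van e
  rw [← show map Subtype.val (𝓝 (⟨x, hxO⟩ : O)) = 𝓝 x from h4, eventually_map]
  refine h3.mono fun y hy e he => ?_
  have he' : e ∈ p ⁻¹' O := by rw [mem_preimage, he]; exact y.2
  refine van_of_pull hj (x := ⟨e, he'⟩) ?_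
  rw [map_sub, h2]
  exact hy ⟨e, he'⟩ (Subtype.ext he)

theorem dualSoft_glueO [T2Space Y] [LocallyCompactSpace Y] (n : ℤ) : GlueO (dualSoft Y n) := by
  intro m A φ hc hm hn hd hs
  have diff : ∀ j k, j ≤ k → ∀ a, IsCompact (supp a) → supp a ⊆ A j → (φ k).1 a = (φ j).1 a := by
    intro j k hjk a h1 h2
    induction k, hjk using Nat.le_induction with
    | base => rfl
    | succ k hk ih =>
      rw [← ih, ← sub_eq_zero]
      exact kills_of_van (φ := φ (k + 1) - φ k) h1 fun x hx => hs k x (hm hk (h2 hx))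
  let C := ((Fam.cpt Y).inf (Fam.sub (⋃ k, A k))).coch
  have ex : ∀ a : C, ∃ j, supp a.1 ⊆ A j := fun a => by
    refine IsCompact.induction_on (p := fun s => ∃ j, s ⊆ A j) a.2.1 ⟨0, empty_subset _⟩ ?_ ?_ ?_
    · rintro s t hst ⟨j, h⟩
      exact ⟨j, hst.trans h⟩
    · rintro s t ⟨j, h⟩ ⟨k, h'⟩
      exact ⟨max j k, union_subset (h.trans (hm (le_max_left _ _)))
        (h'.trans (hm (le_max_right _ _)))⟩
    · intro x hx
      obtain ⟨k, hk⟩ := mem_iUnion.1 (a.2.2 hx)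
      obtain ⟨j, hj⟩ := hn k x hk
      exact ⟨A j, mem_nhdsWithin_of_mem_nhds hj, j, subset_rfl⟩
  choose J hJ using ex
  have val : ∀ a : C, ∀ k, supp a.1 ⊆ A k → (φ (J a)).1 a = (φ k).1 a :=
    fun a k hk => by
      rw [← diff _ _ (le_max_left (J a) k) a a.2.1 (hJ a),
        diff _ _ (le_max_right (J a) k) a a.2.1 hk]
  let g : C →ₗ[ℂ] ℂ := ⟨⟨fun a => (φ (J a)).1 a, fun a b => by
      have h1 := (hJ a).trans (hm (le_max_left (J a) (J b)))
      have h2 := (hJ b).trans (hm (le_max_right (J a) (J b)))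
      rw [val a _ h1, val b _ h2, val (a + b) _ ((supp_add _ _).trans (union_subset h1 h2)),
        Submodule.coe_add, map_add]⟩, fun c a => by
      show (φ (J (c • a))).1 (c • a : C) = c • (φ (J a)).1 a
      rw [val (c • a) _ ((supp_smul c _).trans (hJ a)), Submodule.coe_smul, map_smul]⟩
  obtain ⟨ψ, h1, h2⟩ := exists_dualC _ g (n - m) fun a ha =>
    ⟨Fam.coch_of_null _ ha, DualC.null _ ha⟩
  refine ⟨ψ, h1, fun k x hx => ?_⟩
  obtain ⟨k', hk'⟩ := hn k x hx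
  have h3 : ψ - φ (max k k') ∈ VanD x := ⟨A k', hk', fun a h4 h5 => by
    have h6 : comp (n - m) a ∈ C := ⟨isCompact_supp_of_subset h4 (supp_comp _ a),
      (supp_comp _ a).trans (h5.trans (subset_iUnion A k'))⟩
    rw [Submodule.coe_sub, LinearMap.sub_apply, h2 a h6, sub_eq_zero, ← degD_comp (hd _) a]
    exact val ⟨_, h6⟩ _ ((supp_comp _ a).trans (h5.trans (hm (le_max_right _ _))))⟩
  have h4 : ∀ j, k ≤ j → φ j - φ k ∈ VanD x := fun j hj => by
    induction j, hj using Nat.le_induction with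
    | base => rw [sub_self]; exact Submodule.zero_mem _
    | succ j hj ih =>
      have := (VanD x).add_mem (hs j x (hm hj hx)) ih
      rwa [sub_add_sub_cancel] at this
  have := (VanD x).add_mem h3 (h4 _ (le_max_left k k'))
  rwa [sub_add_sub_cancel] at this

/-- a cochain which vanishes on `O \ A` can be cut off to have support in `A` -/
theorem exists_cut_closed [NormalSpace X] {A O : Set X} (hA : IsClosed A) (hO : IsOpen O)
    (hAO : A ⊆ O) : ∃ N : Set X, ∀ a : Coch X, (∀ x ∈ O \ A, a ∈ Van x) →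
      supp (cut N a) ⊆ A ∧ ∀ x ∈ O, a - cut N a ∈ Van x := by
  obtain ⟨N, hN, h1, h2⟩ := normal_exists_closure_subset hA hO hAO
  refine ⟨N, fun a ha => ⟨fun x hx => by_contra fun hxA => ?_, fun x hx => ?_⟩⟩
  · obtain ⟨h3, h4⟩ := supp_cut _ _ hx
    exact ha x ⟨h2 h3, hxA⟩ h4
  · by_cases hxA : x ∈ A
    · exact cut_in (hN.mem_nhds (h1 hxA)) a
    · exact (Van x).sub_mem (ha x ⟨hx, hxA⟩) (Van.cut (ha x ⟨hx, hxA⟩) N)

theorem cohom_zero_of_comp {A : Set X} {a : Coch X} (h : ∀ k, Cohom A (comp k a) 0) :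
    Cohom A a 0 :=
  a.induction_comp (P := fun b => Cohom A b 0) (Cohom.refl A 0) (by
    rintro b b' ⟨c, h1, h3⟩ ⟨c', h1', h3'⟩
    refine ⟨c + c', (supp_add _ _).trans (union_subset h1 h1'), ?_⟩
    rw [← supp_add_eq_empty h3 h3', map_add]
    congr 1
    abel) h

theorem cohom_iff_sub {A : Set X} {a b : Coch X} : Cohom A a b ↔ Cohom A (a - b) 0 := by
  simp only [Cohom, sub_zero]

theorem Cohom.comp {A : Set X} {a b : Coch X} (h : Cohom A a b) (k : ℤ) :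
    ∃ c, IsDeg (k - 1) c ∧ supp c ⊆ A ∧ ∀ x, P291Z.comp k a - P291Z.comp k b - δ c ∈ Van x := by
  obtain ⟨c, h1, h2⟩ := h
  refine ⟨P291Z.comp (k - 1) c, isDeg_comp _ c, (supp_comp _ c).trans h1, fun x => ?_⟩
  have := Van.comp (supp_eq_empty.1 h2 x) k
  rwa [map_sub, map_sub, comp_δ'] at this

theorem Cohom.add {A : Set X} {a b a' b' : Coch X} (h : Cohom A a b) (h' : Cohom A a' b') :
    Cohom A (a + a') (b + b') := by
  obtain ⟨c, h1, h3⟩ := h
  obtain ⟨c', h1', h3'⟩ := h'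
  refine ⟨c + c', (supp_add _ _).trans (union_subset h1 h1'), ?_⟩
  rw [← supp_add_eq_empty h3 h3', map_add]
  congr 1
  abel

theorem Cohom.smul {A : Set X} {a b : Coch X} (h : Cohom A a b) (z : ℂ) :
    Cohom A (z • a) (z • b) := by
  obtain ⟨c, h1, h3⟩ := h
  refine ⟨z • c, (supp_smul _ _).trans h1, ?_⟩
  rw [← supp_smul_eq_empty z h3, map_smul, smul_sub, smul_sub]

theorem Cohom.sum {A : Set X} {ι : Type*} (s : Finset ι) {a b : ι → Coch X}
    (h : ∀ i ∈ s, Cohom A (a i) (b i)) : Cohom A (∑ i ∈ s, a i) (∑ i ∈ s, b i) := by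
  classical
  induction s using Finset.induction_on with
  | empty => simpa using P291Z.Cohom.refl A 0
  | insert i s hi ih =>
    rw [Finset.sum_insert hi, Finset.sum_insert hi]
    exact Cohom.add (h i (Finset.mem_insert_self i s))
      (ih fun j hj => h j (Finset.mem_insert_of_mem hj))

theorem cohom_of_null {A : Set X} {a b : Coch X} (h : ∀ x, a - b ∈ Van x) : Cohom A a b :=
  ⟨0, by rw [supp_zero]; exact empty_subset _, supp_eq_empty.2 fun x => by
    rw [map_zero, sub_zero]; exact h x⟩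

end Vale.Agent.P269.Orb
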