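import Vale.Agent.P269.Orb.OVB

set_option linter.all false

/-!
# Thom cocycles of orbifold vector bundles
-/

namespace Vale.Agent.P269.Orb

open Set Topology Filter Vale.Agent.P291Z

variable {X E B E₁ E₂ : Type} [TopologicalSpace X] [TopologicalSpace E] [TopologicalSpace B]
  [TopologicalSpace E₁] [TopologicalSpace E₂]

/-- an orbifold complex vector bundle of rank `r` with zero section `Z` and linear
parametrizations `chart` of its fibres -/
structure IsOVB (r : ℕ) (p : E → B) (Z : Set E) (chart : (r : ℕ) → ((Fin r → ℂ) → E) → Prop) :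
    Prop where
  cont : Continuous p
  triv : ∀ x, ∃ (Γ U : Type) (_ : Group Γ) (_ : Fintype Γ) (_ : TopologicalSpace U) (_ : Nice U)
    (a : Γ → U → U) (q : U → B) (a' : Γ → U × (Fin r → ℂ) → U × (Fin r → ℂ))
    (Φ : U × (Fin r → ℂ) → E), x ∈ range q ∧ IsOTriv p Z a q a' Φ ∧
      ∀ u, chart r fun v => Φ (u, v)
  rank : ∀ r' φ, chart r' φ → r' = r
  trans : ∀ φ φ', chart r φ → chart r φ' → p (φ 0) = p (φ' 0) →
    ∃ g : (Fin r → ℂ) ≃ₗ[ℂ] (Fin r → ℂ), φ = φ' ∘ g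

theorem isUC_of_isOpenEmbedding {U : Type} [TopologicalSpace U] {q : U → X}
    (h : IsOpenEmbedding q) : IsUC (fun (_ : PUnit.{1}) u => u) q :=
  ⟨fun _ => rfl, fun _ _ _ => rfl, fun _ => continuous_id, h.continuous, h.isOpenMap,
    fun u u' => ⟨fun e => ⟨PUnit.unit, h.injective e⟩, fun ⟨_, e⟩ => congrArg q e⟩⟩

/-- a vector bundle is an orbifold vector bundle -/
theorem IsOVB.of_isVB [Nice B] {r : ℕ} {p : E → B} {Z : Set E}
    {chart : (r : ℕ) → ((Fin r → ℂ) → E) → Prop} (h : IsVB r p Z chart) : IsOVB r p Z chart := by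
  refine ⟨h.cont, fun x => ?_, h.rank, h.trans⟩
  obtain ⟨N, Φ, h1, h2, h3⟩ := h.triv x
  exact ⟨PUnit, N, inferInstance, inferInstance, inferInstance,
    Nice.of_isLocallyClosed h2.isOpen.isLocallyClosed, _, Subtype.val, _, Φ, ⟨⟨x, h1⟩, rfl⟩,
    ⟨isUC_of_isOpenEmbedding h2.isOpen.isOpenEmbedding_subtypeVal, isUC_of_isOpenEmbedding h2.emb,
      fun _ _ => ⟨LinearEquiv.refl _ _, fun _ => rfl⟩, by rw [h2.range_eq, Subtype.range_val],
      h2.proj, h2.zero⟩, h3⟩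

namespace IsOVB

variable {r : ℕ} {p : E → B} {Z : Set E} {chart : (r : ℕ) → ((Fin r → ℂ) → E) → Prop}
  (h : IsOVB r p Z chart)
include h

theorem exists_chart (x : B) : ∃ φ, chart r φ ∧ p (φ 0) = x := by
  obtain ⟨Γ, U, _, _, _, _, a, q, a', Φ, ⟨u, rfl⟩, h2, h3⟩ := h.triv x
  exact ⟨_, h3 u, h2.proj _⟩

theorem chart_zero {φ : (Fin r → ℂ) → E} (hφ : chart r φ) (v : Fin r → ℂ) : φ v ∈ Z ↔ v = 0 := by
  obtain ⟨Γ, U, _, _, _, _, a, q, a', Φ, ⟨u, hu⟩, h2, h3⟩ := h.triv (p (φ 0))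
  obtain ⟨g, hg⟩ := h.trans φ _ hφ (h3 u) (hu.symm.trans (h2.proj (u, 0)).symm)
  rw [congrFun hg v]
  exact (h2.zero _).trans g.map_eq_zero_iff

theorem isClosed : IsClosed Z := by
  rw [← isOpen_compl_iff, isOpen_iff_mem_nhds]
  intro e he
  obtain ⟨Γ, U, _, _, _, _, a, q, a', Φ, h1, h2, h3⟩ := h.triv (p e)
  obtain ⟨w, rfl⟩ := h2.exists_eq h1
  have h4 : IsOpen (Φ '' {w | w.2 ≠ 0}) := h2.uc'.isOpen _ (isOpen_ne.preimage continuous_snd)
  refine mem_of_superset (h4.mem_nhds ⟨w, fun h0 => he ((h2.zero _).2 h0), rfl⟩) ?_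
  rintro _ ⟨w, hw, rfl⟩ hZ
  exact hw ((h2.zero w).1 hZ)

theorem prop [Nice B] : (Fam.prop p).mem Z := by
  refine Fam.local_prop h.cont Z h.isClosed fun x => ?_
  obtain ⟨Γ, U, _, _, _, _, a, q, a', Φ, h1, h2, h3⟩ := h.triv x
  obtain ⟨K, hKx, hKN, hK⟩ := local_compact_nhds (h2.uc.isOpen_range.mem_nhds h1)
  refine ⟨K, hKx, _, Fam.prop_of_isCompact h.cont (h2.isCompact_image hK hKN
    (isCompact_singleton (x := 0))), fun e he => ?_⟩
  obtain ⟨w, rfl⟩ := h2.exists_eq (hKN he.2)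
  exact ⟨w, ⟨by simpa [h2.proj] using he.2, (h2.zero _).1 he.1⟩, rfl⟩

variable [Nice E] [Nice B]

theorem retr : Retr p Z :=
  ⟨h.cont, h.prop, fun x n b hn hb hd => by
    obtain ⟨Γ, U, _, _, _, _, a, q, a', Φ, h1, h2, h3⟩ := h.triv x
    exact h2.retr h.cont h.isClosed h1 hn hb hd⟩

theorem chart_fib {φ : (Fin r → ℂ) → E} (hφ : chart r φ) : IsOFib p (p (φ 0)) φ := by
  obtain ⟨Γ, U, _, _, _, _, a, q, a', Φ, ⟨u, hu⟩, h2, h3⟩ := h.triv (p (φ 0))
  obtain ⟨g, hg⟩ := h.trans φ _ hφ (h3 u) (hu.symm.trans (h2.proj (u, 0)).symm)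
  have := (h2.isOFib h.cont u).comp_homeo g.toContinuousLinearEquiv.toHomeomorph
  rw [← hu]
  convert this using 1
  exact hg

theorem chart_cont {φ : (Fin r → ℂ) → E} (hφ : chart r φ) : Continuous φ := (h.chart_fib hφ).cont

theorem chart_proj {φ : (Fin r → ℂ) → E} (hφ : chart r φ) (v : Fin r → ℂ) : p (φ v) = p (φ 0) :=
  (h.chart_fib hφ).apply v

theorem exists_chart_mem (e : E) : ∃ φ v, chart r φ ∧ φ v = e := by
  obtain ⟨φ, h1, h2⟩ := h.exists_chart (p e)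
  obtain ⟨v, hv⟩ := (h.chart_fib h1).exists_eq h2.symm
  exact ⟨φ, v, h1, hv⟩

theorem thom_deg {t : Coch E} (ht : IsThom Z chart t) : IsDeg (2 * r) t := by
  intro l hl
  cases l with
  | nil => exact t.2.1
  | cons e l =>
    obtain ⟨φ, v, h1, rfl⟩ := h.exists_chart_mem e
    exact (ht.2.2 r φ h1).2 v l fun h' => hl (by simp [h'])

theorem thom_isCo {t : Coch E} (ht : IsThom Z chart t) : IsCo Z r t :=
  ⟨ht.1, h.thom_deg ht, ht.2.1⟩

theorem supp_chart {t : Coch E} (hs : supp t ⊆ Z) {φ : (Fin r → ℂ) → E}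
    (hφ : chart r φ) : supp (pull φ t) ⊆ {0} := fun v hv =>
  (h.chart_zero hφ v).1 (hs (supp_pull (h.chart_cont hφ) t hv))

omit [Nice E] [Nice B] in
theorem cls_trans {t : Coch E} {φ φ' : (Fin r → ℂ) → E} (hφ : chart r φ)
    (hφ' : chart r φ') (e : p (φ 0) = p (φ' 0)) (h1 : pull φ' t ∈ Zc _)
    (h2 : cls (pull φ' t) = cls (tau r)) : cls (pull φ t) = cls (tau r) := by
  obtain ⟨g, rfl⟩ := h.trans φ φ' hφ hφ' e
  have hg : IsPr g := IsPr.of_homeomorph g.toContinuousLinearEquiv.toHomeomorph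
  rw [← pull_pull, ← Hc.pull_cls hg h1, h2, Hc.pull_cls hg (isGen_tau r).mem,
    cls_pull_linearEquiv g (tau_cocycle r) (supp_tau r)]

/-- it is enough to check one parametrization of each fibre, with compact supports -/
theorem isThom_of {t : Coch E} (ht : supp (δ t) = ∅) (hs : supp t ⊆ Z) (hd : IsDeg (2 * r) t)
    (hc : ∀ x, ∃ φ, chart r φ ∧ p (φ 0) = x ∧ cls (pull φ t) = cls (tau r)) :
    IsThom Z chart t := by
  refine ⟨ht, hs, fun r' φ hφ => ?_⟩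
  obtain rfl := h.rank r' φ hφ
  refine ⟨?_, fun z l hl => hd _ (by simp only [List.length_cons]; omega)⟩
  obtain ⟨φ', h1, h2, h3⟩ := hc (p (φ 0))
  exact cohom_zero_of_cls (cocycle_pull (h.chart_cont hφ) ht) (tau_cocycle _)
    (h.supp_chart hs hφ) (supp_tau _) (h.cls_trans hφ h1 h2.symm
      ⟨isCompact_supp_of_subset isCompact_singleton (h.supp_chart hs h1),
        cocycle_pull (h.chart_cont h1) ht⟩ h3)

theorem isGen_chart {t : Coch E} (ht : IsThom Z chart t) {φ : (Fin r → ℂ) → E}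
    (hφ : chart r φ) : IsGen (2 * r) (pull φ t) :=
  (isGen_tau r).of_ne ⟨isCompact_supp_of_subset isCompact_singleton (h.supp_chart ht.2.1 hφ),
    cocycle_pull (h.chart_cont hφ) ht.1⟩ ((h.thom_deg ht).pull φ) (by
      rw [ht.cls_chart hφ]; exact (isGen_tau r).ne)

theorem exists_fib :
    ∃ ψ : B → (Fin r → ℂ) → E, ∀ x, chart r (ψ x) ∧ p (ψ x 0) = x ∧ IsOFib p x (ψ x) := by
  choose ψ h1 h2 using h.exists_chart
  exact ⟨ψ, fun x => ⟨h1 x, h2 x, by
    have := h.chart_fib (h1 x)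
    rwa [h2 x] at this⟩⟩

theorem thom_prop {t : Coch E} (ht : IsThom Z chart t) : (Fam.prop p).mem (supp t) :=
  h.retr.prop_of_subset ht.2.1

theorem isGen_fib {t : Coch E} (ht : IsThom Z chart t) (x : B) :
    IsGen (2 * r) (pull (Subtype.val : p ⁻¹' {x} → E) t) := by
  obtain ⟨ψ, hψ⟩ := h.exists_fib
  exact (hψ x).2.2.isGen h.cont (h.thom_deg ht) (h.thom_prop ht)
    (VanB.of_null (supp_eq_empty.1 ht.1) x) (h.isGen_chart ht (hψ x).1)

/-- **The Thom isomorphism** -/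
theorem thom_iso {t : Coch E} (ht : IsThom Z chart t) :
    Function.Bijective (Hc.pullMul h.cont ht.1 (h.thom_prop ht)) :=
  Hc.pullMul_bijective_of_isGen h.cont (isFib_val h.cont) ht.1 _ (h.thom_deg ht)
    (by omega) (h.isGen_fib ht)

/-- the Gysin map of the zero section is bijective -/
theorem gys_bijective {t : Coch E} (ht : IsThom Z chart t)
    {s : B → E} (hi : IsClosedEmbedding s) (hps : ∀ x, p (s x) = x) (hs : supp t ⊆ range s) :
    Function.Bijective (Hc.gys hi ht.1 hs) := by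
  rw [Hc.gys_eq_pullMul h.cont hi hps ht.1 hs (h.thom_prop ht)]
  exact h.thom_iso ht

theorem exists_loc (x : B) : ∃ b, IsDeg (2 * r) b ∧ IsCompact (supp b) ∧ ∀ᶠ y in 𝓝 x,
    δ b ∈ VanB p y ∧ ∃ φ, chart r φ ∧ p (φ 0) = y ∧ cls (pull φ b) = cls (tau r) := by
  obtain ⟨Γ, U, _, _, _, _, a, q, a', Φ, h1, h2, h3⟩ := h.triv x
  obtain ⟨K, hKx, hKq, hK⟩ := local_compact_nhds (h2.uc.isOpen_range.mem_nhds h1)
  have hY : IsClosed (p ⁻¹' K) := hK.isClosed.preimage h.cont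
  haveI : Nice (p ⁻¹' K) := Nice.of_isLocallyClosed hY.isLocallyClosed
  haveI : CompactSpace (q ⁻¹' K) := isCompact_iff_compactSpace.1 (h2.uc.isCompact_preimage hK hKq)
  let Φ' : (q ⁻¹' K) × (Fin r → ℂ) → p ⁻¹' K := fun w => ⟨Φ (w.1, w.2), by
    rw [mem_preimage, h2.proj]; exact w.1.2⟩
  obtain ⟨a'', h4, h5⟩ := h2.uc'.pullback (e := Prod.map Subtype.val id)
    (IsEmbedding.subtypeVal.prodMap IsEmbedding.id) IsEmbedding.subtypeVal (q' := Φ')
    (fun w => rfl) (by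
      rintro w ⟨y, hy⟩
      exact ⟨(⟨w.1, by rw [mem_preimage, ← h2.proj, ← hy]; exact y.2⟩, w.2), rfl⟩)
  have h6 : pull (Prod.snd : (q ⁻¹' K) × (Fin r → ℂ) → _) (tau r) ∈ Zc _ :=
    isPr_snd.pull_Zc (isGen_tau r).mem
  obtain ⟨c, h7, h8, -, h9⟩ := h4.surj_c ((tau_deg r).pull _) h6
  obtain ⟨b, h10, h11, -, h12, -, h13⟩ := (Taut.of_isClosedEmbedding
    hY.isClosedEmbedding_subtypeVal).surj_c h8 h7.1 isOpen_univ (subset_univ _)
  refine ⟨b, h10, h11, ?_⟩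
  filter_upwards [eventually_mem_nhds_iff.2 hKx] with y hy
  refine ⟨Eventually.mono hy fun z hz e he => h13 ⟨e, by rwa [mem_preimage, he]⟩
    (supp_eq_empty.1 h7.2 _), ?_⟩
  obtain ⟨u, rfl⟩ := hKq (mem_of_mem_nhds hy)
  let u' : q ⁻¹' K := ⟨u, show q u ∈ K from mem_of_mem_nhds hy⟩
  have hm : IsPr (Prod.mk u' : (Fin r → ℂ) → _) := isPr_mk u'
  refine ⟨_, h3 u, h2.proj _, ?_⟩
  have e1 : cls (pull (fun v => Φ (u, v)) b) = cls (pull (Prod.mk u') (pull Φ' c)) :=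
    cls_eq_of_null fun v => by
      rw [show (fun v => Φ (u, v)) = Subtype.val ∘ Φ' ∘ Prod.mk u' from rfl, ← pull_pull,
        ← pull_pull, ← map_sub, ← map_sub]
      exact Van.pull hm.cont.continuousAt (Van.pull h4.cont.continuousAt (h12 _))
  rw [e1, ← cls_eq_of_cohom (hm.pre _ (h4.isCompact_preimage_image h6.1)) (h9.pull hm.cont),
    ← Hc.pull_cls hm (h4.avg_Zc h6), h4.cls_avg h6, map_smul, map_sum,
    Finset.sum_congr rfl (g := fun _ => cls (tau r)) fun γ _ => ?_, Finset.sum_const,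
    Finset.card_univ, ← Nat.cast_smul_eq_nsmul ℂ, smul_smul, inv_mul_cancel₀ (by
      exact_mod_cast Fintype.card_ne_zero), one_smul]
  obtain ⟨g, hg⟩ := h2.lin γ u
  rw [Hc.pull_cls hm ((IsPr.of_isHomeomorph (h4.isHomeomorph γ)).pull_Zc h6), pull_pull, pull_pull,
    show Prod.snd ∘ a'' γ ∘ Prod.mk u' = g from funext fun v =>
      (congrArg Prod.snd (h5 γ (u', v))).trans (congrArg Prod.snd (hg v)),
    cls_pull_linearEquiv g (tau_cocycle r) (supp_tau r)]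

/-- **Existence of Thom cocycles** -/
theorem exists_thom : ∃ t, IsThom Z chart t := by
  obtain ⟨ψ, hψ⟩ := h.exists_fib
  suffices key : ∃ b ∈ (asSoft h.cont (Fam.prop p)).deg (2 * r), ∀ y,
      δ b ∈ VanB p y ∧ cls (pull (ψ y) b) = cls (tau r) by
    obtain ⟨b, hb, hP⟩ := key
    obtain ⟨a, h1, h2, h3, c, -, h4, h5⟩ := h.retr.surj hb.1 hb.2
      (supp_eq_empty.2 fun e => VanB.van (hP (p e)).1)
    refine ⟨a, h.isThom_of h3 h2 h1 fun x => ⟨ψ x, (hψ x).1, (hψ x).2.1, ?_⟩⟩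
    rw [← (hP x).2]
    refine (cls_eq_of_Bc ?_).symm
    rw [← map_sub]
    exact (hψ x).2.2.pull_mem_Bc h.cont h4 (VanB.of_null h5 x)
  refine (asSoft h.cont (Fam.prop p)).exists_section
    (asSoft_glue _ _ (Fam.local_prop h.cont)) (n := 2 * r)
    (fun y a => δ a ∈ VanB p y ∧ cls (pull (ψ y) a) = cls (tau r)) (fun x => ?_)
    (fun y a ha a' ha' h1 h2 => ?_) (fun y a ha a' ha' c hc h1 h2 => ?_) (fun A hA => ?_)
  · obtain ⟨b, h1, h2, h3⟩ := h.exists_loc x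
    have h4 := Fam.prop_of_isCompact h.cont h2
    refine ⟨b, ⟨h1, h4⟩, h3.mono ?_⟩
    rintro y ⟨h5, φ, h6, h7, h8⟩
    exact ⟨h5, h.cls_trans (hψ y).1 h6 ((hψ y).2.1.trans h7.symm)
      ((h.chart_fib h6).pull_mem_Zc h.cont h4 (h7 ▸ h5)) h8⟩
  · obtain ⟨c, h3, h4, h5⟩ := (hψ y).2.2.inj h.cont (IsDeg.sub ha.1 ha'.1)
      ((Fam.prop p).coch.sub_mem ha.2 ha'.2) (by rw [map_sub]; exact (VanB p y).sub_mem h1.1 h2.1)
      (by
        rw [map_sub, ← cls_eq_iff ((hψ y).2.2.pull_mem_Zc h.cont ha.2 h1.1)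
          ((hψ y).2.2.pull_mem_Zc h.cont ha'.2 h2.1), h1.2, h2.2])
    exact ⟨c, ⟨h3, Fam.prop_of_isCompact h.cont h4⟩, h5⟩
  · refine ⟨?_, ?_⟩
    · have := (VanB p y).add_mem (VanB.of_imp h2 fun _ => Van.δ) h1.1
      rwa [asSoft_δ, map_sub, map_sub, δ_δ, sub_zero, sub_add_cancel] at this
    · rw [← h1.2]
      refine cls_eq_of_Bc ?_
      rw [← map_sub]
      exact (hψ y).2.2.pull_mem_Bc h.cont hc.2 h2
  · refine (asSoft h.cont (Fam.prop p)).exactOn_of_stalk (U := univ) (n₀ := 0) (k := 2 * r - 1)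
      (fun n hn a ha => asSoft_low _ _ hn ha _) (fun x _ n _ hn a ha hd => ?_) _ le_rfl A
      (subset_univ _) hA
    obtain ⟨c, h3, h4, h5⟩ := (hψ x).2.2.inj h.cont ha.1 ha.2 hd
      ((cls_eq_zero ((hψ x).2.2.pull_mem_Zc h.cont ha.2 hd)).1
        ((isGen_tau r).eq_zero (k := n) (by omega) (cls_mem_deg (IsDeg.pull ha.1 _))))
    exact ⟨c, ⟨h3, Fam.prop_of_isCompact h.cont h4⟩, h5⟩

theorem epsilon_spec : IsThom Z chart (Classical.epsilon (IsThom Z chart)) :=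
  Classical.epsilon_spec h.exists_thom

theorem lhData {t : Coch E} (ht : IsThom Z chart t) :
    LHData p (fun _ : Unit => t) fun _ => 2 * r :=
  ⟨h.cont, fun _ => ht.1, fun _ => h.thom_prop ht, fun _ => h.thom_deg ht, fun _ => by omega⟩

/-- **The Thom isomorphism with supports in the zero section**, surjectivity -/
theorem thom_surj {t : Coch E} (ht : IsThom Z chart t) {n : ℤ} {b : Coch E} (hb : supp (δ b) = ∅)
    (hs : supp b ⊆ Z) (hn : IsDeg n b) :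
    ∃ a, supp (δ a) = ∅ ∧ IsDeg (n - 2 * r) a ∧ Cohom Z b (pull p a * t) := by
  obtain ⟨a, h1, c, -, h2, h3⟩ := (h.lhData ht).surj_p (isFib_val h.cont) (k := n)
    (fun x _ _ c _ => (h.isGen_fib ht x).mem_span c)
    (fun x _ _ => (linearIndependent_unique_iff.2
      (h.isGen_fib ht x).ne).linearIndepOn _) (fun _ => toFinite _) le_rfl hb
    (h.retr.prop_of_subset hs) hn
  rw [Finsupp.unique_single a, lhMap_single] at h3
  obtain ⟨c', h4, h5⟩ := h.retr.inj ((supp_sub _ _).trans (union_subset hs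
    ((supp_mul _ _).trans (inter_subset_right.trans ht.2.1)))) h2 (supp_eq_empty.1 h3)
  exact ⟨a (), (h1 ()).1, (h1 ()).2, c', h4, supp_eq_empty.2 h5⟩

/-- **The Thom isomorphism with proper supports**, injectivity -/
theorem thom_inj {t : Coch E} (ht : IsThom Z chart t) {a : Coch B} (ha : supp (δ a) = ∅)
    {c : Coch E} (hc : (Fam.prop p).mem (supp c)) (e : supp (pull p a * t - δ c) = ∅) :
    hcls a = 0 := by
  refine H.ext_comp fun n => ?_
  rw [map_zero, H.comp_hcls n ha, hcls_eq_zero (cocycle_comp ha n)]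
  obtain ⟨a', -, h1⟩ := (h.lhData ht).inj_p (isFib_val h.cont) (k := n + 2 * r)
    (fun x _ _ c _ => (h.isGen_fib ht x).mem_span c)
    (fun x _ _ => (linearIndependent_unique_iff.2
      (h.isGen_fib ht x).ne).linearIndepOn _) (fun _ => toFinite _) (n := n + 2 * r)
    (by omega) (a := Finsupp.single () (comp n a))
    (fun _ => by rw [Finsupp.single_eq_same]; exact cocycle_comp ha n)
    (fun _ => by rw [Finsupp.single_eq_same, add_sub_cancel_right]; exact isDeg_comp n a)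
    (c := comp (n + 2 * r - 1) c) (Fam.coch_mono (Φ := Fam.prop p) hc (supp_comp _ c))
    (supp_eq_empty.2 fun x => by
      have := Van.comp (supp_eq_empty.1 e x) (n + 2 * r)
      rwa [map_sub, comp_mul_right (h.thom_deg ht), comp_pull, comp_δ', ← lhMap_single p
        (fun _ : Unit => t) ()] at this) ()
  rw [Finsupp.single_eq_same] at h1
  exact ⟨a', h1⟩

/-- a cocycle of degree `2 r` with support in the zero section which restricts to `f x` times the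
orientation cocycle on the fibres is `f` times the Thom cocycle -/
theorem cohom_of_fibre {t : Coch E} (ht : IsThom Z chart t) {b : Coch E} (hb : supp (δ b) = ∅)
    (hs : supp b ⊆ Z) (hn : IsDeg (2 * r) b) {f : B → ℂ}
    (hf : ∀ x, ∃ φ, chart r φ ∧ p (φ 0) = x ∧ cls (pull φ b) = f x • cls (tau r)) :
    supp (δ (fn f)) = ∅ ∧ Cohom Z b (pull p (fn f) * t) := by
  obtain ⟨a, h1, h2, c, h3, h4⟩ := h.thom_surj ht hb hs hn
  have : a = fn f := by
    refine IsDeg.ext_zero (h2.cast (sub_self _)) (isDeg_fn f) fun x => ?_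
    obtain ⟨φ, h5, rfl, h9⟩ := hf x
    have hf := h.chart_fib h5
    have h6 : cls (pull φ b) = cls (pull φ (pull p a * t)) := cls_eq_of_Bc (by
      rw [← map_sub]
      exact hf.pull_mem_Bc h.cont (h.retr.prop_of_subset h3)
        (VanB.of_null (supp_eq_empty.1 h4) _))
    have h7 : pull φ (pull p a) = a.1 [p (φ 0)] • 1 := by
      rw [pull_pull, ← fn_const]
      refine IsDeg.ext_zero ((h2.cast (sub_self _)).pull _) (isDeg_fn _) fun v => ?_
      rw [pull_val, List.map_singleton, Function.comp_apply, hf.apply, fn_val]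
    rw [map_mul, h7, smul_mul_assoc, one_mul, cls_smul _ (h.isGen_chart ht h5).mem,
      h9, ht.cls_chart h5] at h6
    rw [fn_val]
    exact (smul_left_injective ℂ (isGen_tau r).ne h6).symm
  rw [this] at h4 h1
  exact ⟨h1, c, h3, h4⟩

/-- **Uniqueness of Thom cocycles** -/
theorem thom_unique {t t' : Coch E} (ht : IsThom Z chart t) (ht' : IsThom Z chart t') :
    Cohom Z t t' := by
  have := (h.cohom_of_fibre ht' ht.1 ht.2.1 (h.thom_deg ht) (f := fun _ => 1) fun x => by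
    obtain ⟨φ, h1, h2⟩ := h.exists_chart x
    exact ⟨φ, h1, h2, by rw [one_smul, ht.cls_chart h1]⟩).2
  rwa [fn_one, map_one, one_mul] at this

end IsOVB

/-- **The Thom cocycle of an extension** `E₁ → E → E₂`: `s` extends a Thom cocycle of `E₁`. -/
theorem IsOVB.isThom_ext [Nice E] [Nice B] {m n : ℕ} {p : E → B} {Z : Set E}
    {chart : (r : ℕ) → ((Fin r → ℂ) → E) → Prop} (h : IsOVB (m + n) p Z chart) {Z₁ : Set E₁}
    {chart₁ : (r : ℕ) → ((Fin r → ℂ) → E₁) → Prop} {Z₂ : Set E₂}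
    {chart₂ : (r : ℕ) → ((Fin r → ℂ) → E₂) → Prop} {i : E₁ → E} {q : E → E₂} (hq : Continuous q)
    (hZ : q ⁻¹' Z₂ ⊆ range i) {s : Coch E} (hs : ∀ e, δ s ∈ Van (i e))
    (hs' : ∀ e, i e ∉ Z → s ∈ Van (i e)) (hd : IsDeg (2 * m) s)
    (h₁ : IsThom Z₁ chart₁ (pull i s)) {t : Coch E₂} (h₂ : IsThom Z₂ chart₂ t)
    (hd' : IsDeg (2 * n) t)
    (hc : ∀ x, ∃ φ φ₁ φ₂, chart (m + n) φ ∧ chart₁ m φ₁ ∧ chart₂ n φ₂ ∧ p (φ 0) = x ∧
      (∀ v, φ (Fin.append v 0) = i (φ₁ v)) ∧ (∀ z, q (φ z) = φ₂ fun j => z (Fin.natAdd m j)) ∧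
      Continuous φ₂ ∧ ∀ w, φ₂ w ∈ Z₂ → w = 0) :
    IsThom Z chart (s * pull q t) := by
  have hq' : supp (pull q t) ⊆ range i :=
    (supp_pull hq t).trans ((preimage_mono h₂.2.1).trans hZ)
  refine h.isThom_of (supp_eq_empty.2 fun e => ?_) (fun e he => ?_)
    ((hd.mul (hd'.pull q)).cast (by push_cast; ring)) fun x => ?_
  · rw [δ_mul]
    refine (Van e).add_mem ?_ (Van.mul_left (supp_eq_empty.1 (cocycle_pull hq h₂.1) e) _)
    by_cases he : e ∈ range i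
    · obtain ⟨e, rfl⟩ := he
      exact Van.mul_right (hs e) _
    · exact Van.mul_left (fun h => he (hq' h)) _
  · obtain ⟨e, rfl⟩ := hq' (supp_mul _ _ he).2
    exact by_contra fun h => hs' e h (supp_mul _ _ he).1
  · obtain ⟨φ, φ₁, φ₂, c, c₁, c₂, e, e₁, e₂, hc₂, hz₂⟩ := hc x
    have hφ := h.chart_cont c
    refine ⟨φ, c, e, ?_⟩
    rw [map_mul, pull_pull, show q ∘ φ = φ₂ ∘ fun z j => z (Fin.natAdd m j) from funext e₂,
      ← pull_pull]
    refine cls_mul_tau (fun v => ?_) (fun v hv => ?_) ?_ (cocycle_pull hc₂ h₂.1)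
      (fun w hw => hz₂ w (h₂.2.1 (supp_pull hc₂ t hw))) (h₂.cls_chart c₂)
    · rw [δ_pull]
      exact Van.pull hφ.continuousAt (e₁ v ▸ hs _)
    · refine Van.pull hφ.continuousAt ?_
      rw [e₁]
      refine hs' _ fun hZ' => hv ?_
      rw [← e₁, h.chart_zero c] at hZ'
      exact funext fun j => by simpa using congrFun hZ' (Fin.castAdd n j)
    · rw [pull_pull, show (φ ∘ fun v => Fin.append v 0) = i ∘ φ₁ from funext e₁, ← pull_pull]
      exact h₁.cls_chart c₁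

/-- **The Thom cocycle of a direct sum** -/
theorem IsOVB.isThom_sum [Nice E] [Nice B] {m n : ℕ} {p : E → B} {Z : Set E}
    {chart : (r : ℕ) → ((Fin r → ℂ) → E) → Prop} (h : IsOVB (m + n) p Z chart) {Z₁ : Set E₁}
    {chart₁ : (r : ℕ) → ((Fin r → ℂ) → E₁) → Prop} {Z₂ : Set E₂}
    {chart₂ : (r : ℕ) → ((Fin r → ℂ) → E₂) → Prop} {q₁ : E → E₁} {q₂ : E → E₂}
    (hq₁ : Continuous q₁) (hq₂ : Continuous q₂) (hZ : q₁ ⁻¹' Z₁ ∩ q₂ ⁻¹' Z₂ ⊆ Z) {s : Coch E₁}
    (h₁ : IsThom Z₁ chart₁ s) (hd : IsDeg (2 * m) s) {t : Coch E₂} (h₂ : IsThom Z₂ chart₂ t)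
    (hd' : IsDeg (2 * n) t)
    (hc : ∀ x, ∃ φ φ₁ φ₂, chart (m + n) φ ∧ chart₁ m φ₁ ∧ chart₂ n φ₂ ∧ p (φ 0) = x ∧
      (∀ z, q₁ (φ z) = φ₁ fun j => z (Fin.castAdd n j)) ∧
      (∀ z, q₂ (φ z) = φ₂ fun j => z (Fin.natAdd m j)) ∧ pull φ₁ s ∈ Zc _ ∧ pull φ₂ t ∈ Zc _) :
    IsThom Z chart (pull q₁ s * pull q₂ t) := by
  refine h.isThom_of (cocycle_mul (cocycle_pull hq₁ h₁.1) (cocycle_pull hq₂ h₂.1))
    (fun e he => hZ ⟨h₁.2.1 (supp_pull hq₁ s (supp_mul _ _ he).1),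
      h₂.2.1 (supp_pull hq₂ t (supp_mul _ _ he).2)⟩)
    (((hd.pull q₁).mul (hd'.pull q₂)).cast (by push_cast; ring)) fun x => ?_
  obtain ⟨φ, φ₁, φ₂, c, c₁, c₂, e, e₁, e₂, z₁, z₂⟩ := hc x
  have hp := IsPr.of_isHomeomorph (isHomeomorph_append (E := ℂ) m n)
  refine ⟨φ, c, e, ?_⟩
  rw [map_mul, pull_pull, pull_pull,
    show q₁ ∘ φ = φ₁ ∘ fun z j => z (Fin.castAdd n j) from funext e₁,
    show q₂ ∘ φ = φ₂ ∘ fun z j => z (Fin.natAdd m j) from funext e₂, ← pull_pull, ← pull_pull,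
    ← Hc.cross_cls hp z₁ z₂, h₁.cls_chart c₁, h₂.cls_chart c₂,
    Hc.cross_cls hp (isGen_tau m).mem (isGen_tau n).mem, tau_add]

end Vale.Agent.P269.Orb
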