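import Vale.Agent.P269.Orb.KP

set_option linter.all false

/-!
# Comparison theorems for Kuranishi presentations
-/

namespace Vale.Agent.P269.Ch

open Set Topology Filter Module Vale.Agent.P291Z Vale.Agent.P269.Orb

variable {Y'' Y' Y : Sp}

theorem exists_pull_deg {X X' : Type} {j : X' → X} (hj : Function.Injective j) {a : Coch X'} {d : ℤ}
    (ha : IsDeg d a) : ∃ b, IsDeg d b ∧ pull j b = a := by
  rcases isEmpty_or_nonempty X' with h | h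
  · refine ⟨0, isDeg_zero _, Coch.ext fun l => ?_⟩
    rcases l with _ | ⟨x, _⟩
    exacts [(pull j 0).2.1.trans a.2.1.symm, isEmptyElim x]
  · exact ⟨pull (Function.invFun j) a, ha.pull _, by
      rw [pull_pull, Function.invFun_comp hj, pull_id]⟩

theorem Hom.exists_open_inj {E E' : VB Y} {A : Y.T → E.W →ₗ[ℂ] E'.W} (h : Hom (Mor.id Y) E E' A)
    {C : Set Y.T} (inj : ∀ t ∈ C, ∀ w ∈ E.F t, A t w = 0 → w = 0) :
    ∃ U : SubMulAction Y.G Y.T, IsOpen (U : Set Y.T) ∧ C ⊆ U ∧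
      ∀ t ∈ U, ∀ w ∈ E.F t, A t w = 0 → w = 0 := by
  refine Sp.exists_open (fun g t ht w hw e => ?_) fun t ht => ?_
  · obtain ⟨w, rfl⟩ : ∃ w', g • w' = w := ⟨_, smul_inv_smul _ w⟩
    have h1 := E.smul_mem_iff.1 hw
    rw [ht w h1 ((smul_eq_zero_iff_eq g).1 ((h.eqv g t w h1).symm.trans e)), smul_zero]
  · exact (eventually_inj E.P_cont.continuousAt h.continuous_clm.continuousAt fun w hw e =>
      inj t ht w (E.P_eq_iff.1 hw) ((h.clm_eq (E.P_eq_iff.1 hw)).symm.trans e)).mono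
      fun x hx w hw e => hx w (E.P_eq hw) ((h.clm_eq hw).trans e)

namespace KP

/-- a morphism of Kuranishi presentations -/
structure Hom (k' : KP Y') (k : KP Y) (m : Mor Y' Y) (A : Y'.T → k'.P.W →ₗ[ℂ] k.P.W) : Prop where
  hom : Ch.Hom m k'.P k.P A
  van : ∀ t, ∀ w ∈ k'.van t, A t w ∈ k.van (m.f t)
  sec : ∀ t, A t (k'.s t) - k.s (m.f t) ∈ k.van (m.f t)
  obs : ∀ t ∈ k'.Zs, ∀ w ∈ k'.obs t, A t w ∈ k.obs (m.f t)

/-- `k'` is, near its zero set, equivalent to the pull-back of `k` along `f` -/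
structure Cmp (k' : KP Y') (k : KP Y) (f : Y'.X → Y.X) : Prop where
  cont : Continuous f
  sub : k'.Z ⊆ f ⁻¹' k.Z
  isol : Isol k'.Z (f ⁻¹' k.Z)
  lcoh : LCoh k'.Z k'.eul (pull f k.eul)

theorem hom_pb (k : KP Y) (m : Mor Y' Y) : (k.pb m).Hom k m fun _ => LinearMap.id :=
  ⟨(iso_pb k.P m).toHom, fun _ _ h => h, fun t => (sub_self (k.s (m.f t))).symm ▸ zero_mem _,
    fun _ _ _ h => h⟩

variable {k'' : KP Y''} {k' : KP Y'} {k : KP Y} {m : Mor Y' Y} {A : Y'.T → k'.P.W →ₗ[ℂ] k.P.W}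

theorem Cmp.refl (k : KP Y) : k.Cmp k id :=
  ⟨continuous_id, Subset.rfl, Isol.refl _, LCoh.of_eq (pull_id _).symm⟩

theorem Cmp.comp {f : Y'.X → Y.X} {g : Y''.X → Y'.X} (h : k'.Cmp k f) (h' : k''.Cmp k' g) :
    k''.Cmp k (f ∘ g) :=
  ⟨h.cont.comp h'.cont, fun _ hx => h.sub (h'.sub hx),
    h'.isol.trans h'.sub (h.isol.preimage h'.cont),
    h'.lcoh.trans (pull_pull g f _ ▸ (h.lcoh.pull h'.cont).mono h'.sub h'.isol)⟩

theorem Cmp.symm {k₁ k₂ : KP Y} (h : k₁.Cmp k₂ id) (e : k₂.Z ⊆ k₁.Z) : k₂.Cmp k₁ id :=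
  ⟨continuous_id, e, Isol.of_subset h.sub, by
    have := h.lcoh.symm
    rw [pull_id] at this ⊢
    exact this.mono e (Isol.of_subset h.sub)⟩

theorem Cmp.lco {f : Y'.X → Y.X} (h : k'.Cmp k f) : LCo k'.Z (pull f k.eul) :=
  (k.lco.pull h.cont).mono h.sub h.isol

namespace Hom

variable (h : k'.Hom k m A)
include h

theorem mem_Zs {t : Y'.T} (ht : t ∈ k'.Zs) : m.f t ∈ k.Zs := by
  have := (k.van _).sub_mem (h.van t _ ht) (h.sec t)
  rwa [sub_sub_cancel] at this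

theorem Z_subset : k'.Z ⊆ m.map ⁻¹' k.Z := by
  rintro _ ⟨t, ht, rfl⟩
  exact mem_pre.2 (h.mem_Zs ht)

theorem comp {m' : Mor Y'' Y'} {A' : Y''.T → k''.P.W →ₗ[ℂ] k'.P.W} (h' : k''.Hom k' m' A') :
    k''.Hom k (m.comp m') fun t => A (m'.f t) ∘ₗ A' t :=
  ⟨h.hom.comp h'.hom, fun t w hw => h.van _ _ (h'.van t w hw), fun t => by
    have := (k.van _).add_mem (h.van _ _ (h'.sec t)) (h.sec (m'.f t))
    rwa [map_sub, sub_add_sub_cancel] at this,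
    fun t ht w hw => h.obs _ (h'.mem_Zs ht) _ (h'.obs t ht w hw)⟩

theorem pb : k'.Hom (k.pb m) (Mor.id Y') A := ⟨h.hom.pb, h.van, h.sec, h.obs⟩

theorem hom_comp {n : Mor Y'' Y'} {E : VB Y''} {M : Y''.T → k.P.W →ₗ[ℂ] E.W}
    (hM : Ch.Hom (Mor.id Y'') (k.P.pb (m.comp n)) E M) :
    Ch.Hom (Mor.id Y'') (k'.P.pb n) E fun t => M t ∘ₗ A (n.f t) :=
  hM.comp (h.hom.comp (iso_pb k'.P n).toHom).pb

theorem apply_s {n : Mor Y'' Y'} {E : VB Y''} {M : Y''.T → k.P.W →ₗ[ℂ] E.W}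
    (hM : k.Pre (m.comp n) E M) (t : Y''.T) :
    M t (A (n.f t) (k'.s (n.f t))) = M t (k.s (m.f (n.f t))) := by
  rw [← sub_eq_zero, ← map_sub]
  exact hM.van t _ (h.sec _)

section inj

variable (inj : ∀ t ∈ k'.Zs, ∀ w ∈ k'.obs t, A t w ∈ k.van (m.f t) → w ∈ k'.van t)
include inj

theorem isol : Isol k'.Z (m.map ⁻¹' k.Z) := Sp.isol fun t ht => by
  have ht := mem_Z.1 ht
  refine (k'.eventually_mem ht tendsto_id (((k.q_cont.comp m.cf).clm_comp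
    h.hom.continuous_clm).tendsto t) (Eventually.of_forall fun x w hw => q_eq_zero.2 ?_)
    fun w hw e => inj t ht w hw ?_).mono fun x hx e => mem_Z.2 (hx (q_eq_zero.2 ?_))
  · exact h.hom.clm_eq (k'.van_le _ hw) ▸ h.van x w hw
  · exact h.hom.clm_eq (k'.obs_le _ ht hw) ▸ q_eq_zero.1 e
  · have := (k.van _).add_mem (h.sec x) (mem_pre.1 e)
    rw [sub_add_cancel] at this
    exact h.hom.clm_eq (k'.sec.mem x) ▸ this

theorem pre {n : Mor Y'' Y'} {E : VB Y''} {M : Y''.T → k.P.W →ₗ[ℂ] E.W}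
    (hM : k.Pre (m.comp n) E M) : k'.Pre n E fun t => M t ∘ₗ A (n.f t) :=
  ⟨h.hom_comp hM.hom, fun t w hw => hM.van t _ (h.van _ w hw), fun t ht w hw e =>
    inj _ ht w hw (hM.ker t (h.mem_Zs ht) _ (h.obs _ ht w hw) e)⟩

theorem lcoh_pre {n : Mor Y'' Y'} {E : VB Y''} {M : Y''.T → k.P.W →ₗ[ℂ] E.W}
    (hM : k.Model (m.comp n) E M) : LCoh (n.map ⁻¹' k'.Z) (pull n.map (pull m.map k.eul))
      (h.pre inj hM.toPre).isSec.eul := by
  rw [← Mor.pull_comp, (h.pre inj hM.toPre).isSec.eul_congr hM.isSec (h.apply_s hM.toPre)]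
  refine hM.lcoh.mono ?_ ?_ <;> rw [Mor.preimage_comp]
  exacts [preimage_mono h.Z_subset, (h.isol inj).preimage n.map.continuous]

/-- **V2**: isomorphisms of the obstruction bundles -/
theorem cmp (hr : k'.r = k.r) : k'.Cmp k m.map := by
  have o1 : IsOpen (m.pre k.U : Set Y'.T) := k.isExt.isOpen.preimage m.cf
  have hM := k.model (m.comp (Y'.subI _ o1.isLocallyClosed)) fun t => t.2
  exact ⟨m.map.continuous, h.Z_subset, h.isol inj, lcoh_of_sub o1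
    (fun _ ht => k.isExt.sub (h.mem_Zs (mem_Z.1 ht)))
    ((Model.lcoh ⟨h.pre inj hM.toPre, hr.symm⟩).trans (h.lcoh_pre inj hM).symm)⟩

omit h inj in
/-- **V0**: pull-back -/
theorem _root_.Vale.Agent.P269.Ch.KP.cmp_pb (k : KP Y) (m : Mor Y' Y) : (k.pb m).Cmp k m.map :=
  (k.hom_pb m).cmp (fun _ _ _ _ h => h) rfl

omit h inj in
theorem _root_.Vale.Agent.P269.Ch.KP.eul_pb (k : KP Y) (m : Mor Y' Y) :
    LCoh (m.map ⁻¹' k.Z) (k.pb m).eul (pull m.map k.eul) := k.Z_pb m ▸ (k.cmp_pb m).lcoh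

/-- **V2, injective case**: the cokernel contributes its Euler class -/
theorem exists_inj : ∃ c : Coch Y'.X, (∀ x ∈ k'.Z, δ c ∈ Van x) ∧ IsDeg (2 * (k.r - k'.r : ℕ)) c ∧
    LCoh k'.Z (pull m.map k.eul) (c * k'.eul) ∧ ∀ {Y'' : Sp} (j : Mor Y'' Y') (N : VB Y'')
      (S : Y''.T → N.W →ₗ[ℂ] k.P.W), (∀ t, j.f t ∈ k'.Zs) → Ch.Hom (m.comp j) N k.P S →
      (∀ t, ∀ w ∈ N.F t, S t w ∈ k.obs (m.f (j.f t))) →
      (∀ t, ∀ w ∈ N.F t, ∀ w' ∈ k'.obs (j.f t), S t w - A (j.f t) w' ∈ k.van (m.f (j.f t)) → w = 0) →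
      k.r = k'.r + N.r → hcls (pull j.map c) = N.eu := by
  have o1 : IsOpen (m.pre k.U : Set Y'.T) := k.isExt.isOpen.preimage m.cf
  have s1 : ∀ t ∈ k'.Zs, t ∈ m.pre k.U := fun _ ht => k.isExt.sub (h.mem_Zs ht)
  obtain ⟨U, h1, h2, h3⟩ := (h.pre inj (k.model (m.comp (Y'.subI _ o1.isLocallyClosed))
    fun t => t.2).toPre).exists_open
  let n := (Y'.subI _ o1.isLocallyClosed).comp (Sp.subI _ U h1.isLocallyClosed)
  have hn' : ∀ t, n.f t ∈ k'.U := fun t => (h3 _ t.2).1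
  have hn : ∀ t, (m.comp n).f t ∈ k.U := fun t => t.1.2
  have o2 : IsOpenEmbedding n.map := by
    rw [Mor.map_comp]
    exact (Sp.isOpenEmbedding_subI o1).comp (Sp.isOpenEmbedding_subI h1)
  have r2 : k'.Z ⊆ range n.map := by
    rintro _ ⟨t, ht, rfl⟩
    exact ⟨_, n.map_π (⟨⟨t, s1 t ht⟩, h2 ht⟩ : U)⟩
  have p := h.pre inj (k.model _ hn).toPre
  have hA := Pre.hom_e p.hom hn'
  obtain ⟨N', B, hr, hex⟩ := hA.exists_coker fun t => (h3 _ t.2).2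
  have p' := (k'.model n hn').map hA fun t _ => (h3 _ t.2).2
  obtain ⟨c, c1, c2⟩ := exists_pull_deg o2.injective N'.isSec_zero.isCo.deg
  have c3 := N'.isSec_zero.isCo.cocycle
  have hc := k'.isClosed_Z.preimage n.map.continuous
  refine ⟨c, fun x hx => ?_, hr ▸ c1, LCoh.of_open o2 r2 ?_, fun j N S hj hS e1 e2 e3 => ?_⟩
  · obtain ⟨y, rfl⟩ := r2 hx
    exact van_of_pull o2 (by rw [← δ_pull, c2]; exact supp_eq_empty.1 c3 y)
  · rw [map_mul, c2]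
    refine ((h.lcoh_pre inj (k.model _ hn)).trans (p'.lcoh p fun t ht w hw =>
      Pre.apply_Ms (m := n) ht (p.van t) hw).symm).trans ((LCoh.of_cohom (k'.model n hn').isol
        (hex.cohom_eul (k'.model n hn').isSec p'.isSec (fun _ => rfl) c3
          N'.isSec_zero.hcls_eul)).trans ?_)
    have := ((k'.lcoh_model n hn').symm.mul_right (LCo.univ c3)).trans (LCoh.comm hc isClosed_univ
      (k'.lco.pull n.map.continuous) (LCo.univ c3) N'.isSec_zero.isCo.deg)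
    rwa [inter_univ] at this
  · let j' := (j.cod _ o1.isLocallyClosed fun t => s1 _ (hj t)).cod U h1.isLocallyClosed
      fun t => h2 (hj t)
    have h4 : Ch.Hom j' N (k.P.pb (m.comp n)) S := ⟨hS.mem, hS.cont, hS.eqv⟩
    have h5 := Iso.of_inj (hex.hB.comp ((k.model _ hn).hom.comp h4)) (fun t w hw e => by
      obtain ⟨w', h5, h6⟩ := (hex.ex _ _ ((k.model _ hn).hom.mem _ _ (hS.mem t w hw))).1 e
      have h7 := ((mem_range_e (hj t)).1 h5).1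
      refine e2 t w hw w' h7 ((k.model _ hn).ker (j'.f t) (h.mem_Zs (hj t)) _
        (sub_mem (e1 t w hw) (h.obs _ (hj t) _ h7)) ?_)
      refine (map_sub (k.Ms _) _ _).trans (sub_eq_zero.2 ?_)
      refine h6.symm.trans (congrArg (fun u => k.Ms _ (A _ u)) ?_)
      exact k'.P.P_eq (k'.obs_le _ (hj t) h7)) (by
        rw [hr]; show N.r = k.r - k'.r; omega)
    rw [h5.eu, Hev.coe_map, ← N'.isSec_zero.hcls_eul, H.map_hcls _ c3, ← c2]
    exact congrArg hcls (n.pull_comp j' c)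

end inj

section stab

variable {V : VB Y'} {η : Y'.T → V.W} (hη : V.IsSec η) {D : Y'.T → V.W →ₗ[ℂ] k'.P.W}
  (cone : ∀ t ∈ k'.Zs, ∀ v w, (t, v, w) ∈ closure {x : Y'.T × V.W × k'.P.W | m.f x.1 ∈ k.Zs ∧
    ∃ c : ℂ, x.2.1 = c • η x.1 ∧ x.2.2 - c • k'.s x.1 ∈ k'.van x.1} → w - D t v ∈ k'.van t)
include hη cone

omit h in
theorem eventually_stab {α : Type} {l : Filter α} {f : α → Y'.T} {t : Y'.T} (ht : t ∈ k'.Zs)
    (hf : Tendsto f l (𝓝 t)) {N : α → k'.P.W →L[ℂ] V.W} {N₀ : k'.P.W →L[ℂ] V.W}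
    (hN : Tendsto N l (𝓝 N₀)) (hv : ∀ x, ∀ w ∈ k'.van (f x), N x w = 0) {b : α → ℂ} {b₀ : ℂ}
    (hb : Tendsto b l (𝓝 b₀))
    (h0 : ∀ v ∈ V.F t, ∀ u ∈ k'.van t, N₀ (D t v + u) + b₀ • v = 0 → v = 0) :
    ∀ᶠ x in l, m.f (f x) ∈ k.Zs → N x (k'.s (f x)) + b x • η (f x) = 0 → f x ∈ k'.Zs := by
  by_contra h
  obtain ⟨l', c, w, h1, h2, h3, h4, h5⟩ := exists_lim
    (w := fun x => (η (f x), k'.q (f x) (k'.s (f x))))
    (P := fun x => m.f (f x) ∈ k.Zs ∧ N x (k'.s (f x)) + b x • η (f x) = 0)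
    ((not_eventually.1 h).mono fun x hx => by
      push Not at hx
      exact ⟨fun h1 => hx.2.2 (q_eq_zero.1 (congrArg Prod.snd h1)), hx.1, hx.2.1⟩)
  have f1 := hf.mono_left h2
  have w1 := (continuous_fst.tendsto w).comp h5
  have w2 := (continuous_snd.tendsto w).comp h5
  have h6 := cone t ht w.1 w.2 (mem_closure_of_tendsto (f1.prodMk_nhds h5)
    (h3.mono fun x hx => ⟨hx.1, c x, rfl, by
      show c x • _ - _ ∈ _
      rw [← smul_sub, ← neg_sub]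
      exact (k'.van _).smul_mem _ ((k'.van _).neg_mem (k'.sub_q _ _))⟩))
  have h7 : w.1 = 0 := h0 w.1 (V.closed.mem_of_tendsto (f1.prodMk_nhds w1)
    (Eventually.of_forall fun x => (V.F _).smul_mem _ (hη.mem _))) _ h6 (by
      rw [add_sub_cancel]
      refine tendsto_nhds_unique ((tendsto_clm (hN.mono_left h2) w2).add
        ((hb.mono_left h2).smul w1)) (tendsto_const_nhds.congr' (h3.mono fun x hx => ?_))
      have := hv x _ (k'.sub_q (f x) (k'.s (f x)))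
      rw [map_sub, sub_eq_zero] at this
      show 0 = N x (c x • _) + b x • c x • _
      rw [map_smul, ← this, smul_comm (b x), ← smul_add, hx.2, smul_zero])
  rw [h7, map_zero, sub_zero] at h6
  refine h4 (Prod.ext h7 ((tendsto_nhds_unique w2 ((tendsto_clm ((k'.q_cont.tendsto t).comp f1)
    w2).congr fun x => ?_)).trans (q_eq_zero.2 h6)))
  simp only [Function.comp_apply, Prod.smul_snd, map_smul, q_q]

omit h in
theorem isol_stab : Isol k'.Z (Y'.π '' {t | η t = 0} ∩ m.map ⁻¹' k.Z) := Sp.isol fun t ht =>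
  (eventually_stab hη cone (mem_Z.1 ht) tendsto_id (tendsto_const_nhds (x := 0))
    (fun _ _ _ => rfl) (tendsto_const_nhds (x := 1)) fun v _ _ _ e => by simpa using e).mono
    fun x hx e => mem_Z.2 (hx (mem_pre.1 e.2) (by simpa using hη.mem_zeros.1 e.1))

/-- **V5**: stabilisation -/
theorem lcoh_stab (hD : Ch.Hom (Mor.id Y') V k'.P D) (h0 : ∀ t ∈ k'.Zs, η t = 0)
    (inj : ∀ t ∈ k'.Zs, ∀ v ∈ V.F t, D t v ∈ k'.van t → v = 0)
    (ker : ∀ t ∈ k'.Zs, ∀ w ∈ k'.obs t, A t w ∈ k.van (m.f t) → ∃ v ∈ V.F t, w - D t v ∈ k'.van t)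
    (hr : k'.r = V.r + k.r) : LCoh k'.Z k'.eul (hη.eul * pull m.map k.eul) := by
  have hB : Ch.Hom (Mor.id Y') (V.sum k'.vanB) k'.P fun t => (D t).coprod LinearMap.id :=
    ⟨fun t w hw => add_mem (hD.mem t _ hw.1) (k'.van_le t hw.2),
      (hD.continuous (by fun_prop) (by fun_prop) fun x => x.2.1).add (by fun_prop),
      fun g t w hw => (congrArg (· + g • w.2) (hD.eqv g t _ hw.1)).trans (smul_add g _ _).symm⟩
  obtain ⟨U, h1, h2, h3⟩ := hB.exists_open_inj (C := k'.Zs) fun t ht w hw e => by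
    have h1 : D t w.1 = -w.2 := eq_neg_of_add_eq_zero_left e
    have h2 := inj t ht _ hw.1 (h1 ▸ neg_mem hw.2)
    rw [h2, map_zero, eq_comm, neg_eq_zero] at h1
    exact Prod.ext h2 h1
  have o1 : IsOpen ((U ⊓ m.pre k.U : SubMulAction Y'.G Y'.T) : Set Y'.T) :=
    h1.inter (k.isExt.isOpen.preimage m.cf)
  refine lcoh_of_sub o1 (fun t ht => ⟨h2 (mem_Z.1 ht), k.isExt.sub (h.mem_Zs (mem_Z.1 ht))⟩) ?_
  generalize hn : Y'.subI _ o1.isLocallyClosed = n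
  have n1 : ∀ t, n.f t ∈ U := hn ▸ fun t => t.2.1
  have n2 : ∀ t, (m.comp n).f t ∈ k.U := hn ▸ fun t => t.2.2
  obtain ⟨R, r1, r2, r3, r4⟩ : ∃ R : _ → k'.P.W →L[ℂ] V.W × k'.P.W, Continuous R ∧
      (∀ g t w, R (g • t) (n.ρ g • w) = n.ρ g • R t w) ∧
      (∀ t w, R t w ∈ (V.F (n.f t)).prod (k'.van (n.f t))) ∧
      ∀ t w, w ∈ (V.F (n.f t)).prod (k'.van (n.f t)) → R t (D (n.f t) w.1 + w.2) = w :=
    (hB.pb' n).exists_retr fun t => h3 _ (n1 t)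
  have r5 : ∀ t, ∀ v ∈ V.F (n.f t), ∀ u ∈ k'.van (n.f t), (R t (D (n.f t) v + u)).1 = v :=
    fun t v hv u hu => congrArg Prod.fst (r4 t (v, u) ⟨hv, hu⟩)
  have r6 : ∀ t, ∀ u ∈ k'.van (n.f t), (R t u).1 = 0 := fun t u hu => by
    simpa using r5 t 0 (zero_mem _) u hu
  have hM := k.model _ n2
  have h4 := h.hom_comp hM.hom
  have p : k'.Model n ((V.pb n).sum (k.isExt.vb _ n2)) fun t =>
      (LinearMap.fst ℂ _ _ ∘ₗ (R t).toLinearMap).prod (k.Ms (m.f (n.f t)) ∘ₗ A (n.f t)) :=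
    ⟨⟨⟨fun t w hw => ⟨(r3 t w).1, h4.mem t w hw⟩, (continuous_fst.comp ((r1.comp (by fun_prop)).clm_apply
      (by fun_prop))).prodMk h4.cont, fun g t w hw =>
        Prod.ext (Prod.ext_iff.1 (r2 g t w)).1 (h4.eqv g t w hw)⟩,
      fun t w hw => Prod.ext (r6 t w hw) (hM.van t _ (h.van _ w hw)), fun t ht w hw e => by
        obtain ⟨v, h5, h6⟩ := ker _ ht w hw (hM.ker t (h.mem_Zs ht) _ (h.obs _ ht w hw)
          (congrArg Prod.snd e))
        have := r5 t v h5 _ h6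
        rw [add_sub_cancel, show (R t w).1 = 0 from congrArg Prod.fst e] at this
        rwa [← this, map_zero, sub_zero] at h6⟩, hr.symm⟩
  have i1 := (isol_stab hη cone).preimage n.map.continuous
  have i2 : n.map ⁻¹' k'.Z ⊆ n.map ⁻¹' (Y'.π '' {t | η t = 0} ∩ m.map ⁻¹' k.Z) :=
    preimage_mono (subset_inter (image_mono h0) h.Z_subset)
  rw [map_mul, ← Mor.pull_comp]
  rw [preimage_inter, ← Mor.preimage_comp] at i1 i2
  refine p.lcoh.trans ((p.isSec.lcoh_lin ((hη.pb n).sum hM.isSec)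
    (k'.isClosed_Z.preimage n.map.continuous) fun x hx => ?_).trans (LCoh.mono ?_ i2 i1))
  · have ht := mem_pre.1 hx
    have c1 : Continuous fun q : unitInterval × _ => ((1 - q.1 : ℝ) : ℂ) •
        (ContinuousLinearMap.fst ℂ V.W k'.P.W ∘L R q.2) := by fun_prop
    filter_upwards [eventually_stab hη cone ht ((n.cf.comp continuous_snd).tendsto x) (c1.tendsto x)
      (fun y w hw => by simp [r6 _ w hw])
      ((show Continuous fun q : unitInterval × _ => ((q.1 : ℝ) : ℂ) by fun_prop).tendsto x)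
      fun v hv u hu e => by
        rwa [ContinuousLinearMap.smul_apply, ContinuousLinearMap.comp_apply,
          ContinuousLinearMap.coe_fst', r5 _ v hv u hu, ← add_smul, ← Complex.ofReal_add,
          sub_add_cancel, Complex.ofReal_one, one_smul] at e,
      continuous_snd.continuousAt.eventually (hM.eventually (h.mem_Zs ht))] with y h5 h6 e
    refine mem_pre.2 (h5 (h6 ?_) (congrArg Prod.fst e))
    have h7 : ((1 - y.1 : ℝ) : ℂ) • k.Ms (m.f (n.f y.2)) (A _ (k'.s (n.f y.2))) +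
      ((y.1 : ℝ) : ℂ) • k.Ms (m.f (n.f y.2)) (k.s (m.f (n.f y.2))) = 0 := congrArg Prod.snd e
    have h8 : k.Ms (m.f (n.f y.2)) (A _ (k'.s (n.f y.2))) =
      k.Ms (m.f (n.f y.2)) (k.s (m.f (n.f y.2))) := h.apply_s hM.toPre y.2
    rwa [h8, ← add_smul, ← Complex.ofReal_add, sub_add_cancel, Complex.ofReal_one,
      one_smul] at h7
  · have e1 : n.map ⁻¹' (Y'.π '' {t | η t = 0}) = Sp.π _ '' {t | η (n.f t) = 0} :=
      (KP.ofSec hη).Z_pb n |>.symm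
    rw [e1]
    exact (LCoh.of_cohom ((Isol.refl _).inter hM.isol |>.mono (by
      rintro _ ⟨t, ht, rfl⟩; exact ⟨⟨t, ht.1, rfl⟩, t, ht.2, rfl⟩))
      (cohom_eul_sum (hη.pb n) hM.isSec)).trans ((LCoh.of_cohom (Isol.refl _)
        ((iso_pb V n).cohom_eul (hη.pb n) hη fun _ => rfl)).mul hM.lcoh.symm
        (e1 ▸ (LCo.of_isCo hη.isCo).pull n.map.continuous) (k.lco.pull (m.comp n).map.continuous))

end stab

theorem finrank_ker {t : Y'.T} (ht : t ∈ k'.Zs)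
    (surj : ∀ w ∈ k.obs (m.f t), ∃ w' ∈ k'.obs t, A t w' - w ∈ k.van (m.f t))
    {S : Submodule ℂ k'.P.W} (h1 : S ≤ k'.obs t) (h2 : ∀ w ∈ k'.obs t, ∃ w' ∈ S, w - w' ∈ k'.van t)
    {B : k'.P.W →ₗ[ℂ] k.P.W} (hB : ∀ w ∈ k'.obs t, B w = k.q (m.f t) (A t w)) :
    k.r + finrank ℂ (S ⊓ LinearMap.ker B : Submodule ℂ k'.P.W) = finrank ℂ S := by
  have h3 := h.mem_Zs ht
  rw [← finrank_inf_ker S B, ← k.isExt.rank _ (k.isExt.sub h3)]
  refine congrArg (fun S : Submodule ℂ k.P.W => finrank ℂ S + _) (le_antisymm (fun u hu => ?_) ?_)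
  · obtain ⟨h4, h5⟩ := (mem_range_e h3).1 hu
    obtain ⟨w, h6, h7⟩ := surj u h4
    obtain ⟨w', h8, h9⟩ := h2 w h6
    refine ⟨w', h8, ?_⟩
    have := (k.van _).sub_mem h7 (h.van t _ h9)
    rw [map_sub, sub_sub_sub_cancel_left, ← q_eq_zero, map_sub, h5, sub_eq_zero] at this
    rw [hB _ (h1 h8), this]
  · rintro _ ⟨w, hw, rfl⟩
    rw [hB _ (h1 hw)]
    exact (mem_range_e h3).2 ⟨q_mem (k.le_obs _ h3) (h.obs t ht w (h1 hw)), k.q_q _ _⟩

theorem ker_of_surj {t : Y'.T} (ht : t ∈ k'.Zs) {W : Type} [AddCommGroup W] [Module ℂ W]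
    [FiniteDimensional ℂ W] {F : Submodule ℂ W} {D : W →ₗ[ℂ] k'.P.W}
    (h1 : ∀ v ∈ F, D v ∈ k'.obs t) (h2 : ∀ v ∈ F, A t (D v) ∈ k.van (m.f t))
    (inj : ∀ v ∈ F, D v ∈ k'.van t → v = 0)
    (surj : ∀ w ∈ k.obs (m.f t), ∃ w' ∈ k'.obs t, A t w' - w ∈ k.van (m.f t))
    (hr : k'.r = finrank ℂ F + k.r) {w : k'.P.W} (hw : w ∈ k'.obs t) (e : A t w ∈ k.van (m.f t)) :
    ∃ v ∈ F, w - D v ∈ k'.van t := by
  have h3 := h.finrank_ker ht surj le_rfl (fun w hw => ⟨w, hw, (sub_self w).symm ▸ zero_mem _⟩)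
    (B := (k.q (m.f t)).toLinearMap ∘ₗ A t) fun _ _ => rfl
  have h4 := Submodule.finrank_sup_add_finrank_inf_eq (F.map D) (k'.van t)
  rw [show F.map D ⊓ k'.van t = ⊥ from (Submodule.eq_bot_iff _).2 (by
    rintro _ ⟨⟨v, hv, rfl⟩, h5⟩; rw [inj v hv h5, map_zero]), finrank_bot,
    finrank_map_of_inj fun v hv h5 => inj v hv (h5 ▸ zero_mem _), k'.van_rank] at h4
  rw [k'.obs_rank t ht] at h3
  have h5 := Submodule.eq_of_le_of_finrank_eq (S₁ := F.map D ⊔ k'.van t)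
    (S₂ := k'.obs t ⊓ LinearMap.ker ((k.q (m.f t)).toLinearMap ∘ₗ A t)) (sup_le
      (by rintro _ ⟨v, hv, rfl⟩; exact ⟨h1 v hv, q_eq_zero.2 (h2 v hv)⟩)
      fun u hu => ⟨k'.le_obs t ht hu, q_eq_zero.2 (h.van t u hu)⟩) (by omega)
  obtain ⟨_, ⟨v, hv, rfl⟩, u, hu, rfl⟩ := Submodule.mem_sup.1 (h5.ge ⟨hw, q_eq_zero.2 e⟩)
  exact ⟨v, hv, by rwa [add_sub_cancel_left]⟩

/-- **V2, surjective case**: the kernel is an excess bundle -/
theorem exists_surj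
    (surj : ∀ t ∈ k'.Zs, ∀ w ∈ k.obs (m.f t), ∃ w' ∈ k'.obs t, A t w' - w ∈ k.van (m.f t))
    (hi : Isol k'.Z (m.map ⁻¹' k.Z)) :
    ∃ c : Coch Y'.X, (∀ x ∈ k'.Z, δ c ∈ Van x) ∧ IsDeg (2 * (k'.r - k.r : ℕ)) c ∧
    LCoh k'.Z k'.eul (c * pull m.map k.eul) ∧ ∀ {Y'' : Sp} (j : Mor Y'' Y') (N : VB Y'')
      (S : Y''.T → N.W →ₗ[ℂ] k'.P.W), (∀ t, j.f t ∈ k'.Zs) → Ch.Hom j N k'.P S →
      (∀ t, ∀ w ∈ N.F t, S t w ∈ k'.obs (j.f t)) →
      (∀ t, ∀ w ∈ N.F t, A (j.f t) (S t w) ∈ k.van (m.f (j.f t))) →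
      (∀ t, ∀ w ∈ N.F t, S t w ∈ k'.van (j.f t) → w = 0) →
      k'.r = N.r + k.r → hcls (pull j.map c) = N.eu := by
  let B : Y'.T → k'.P.W →L[ℂ] k.P.W := fun t => k.q (m.f t) ∘L h.hom.clm t
  have b1 : Continuous B := (k.q_cont.comp m.cf).clm_comp h.hom.continuous_clm
  have b2 : ∀ t ∈ k'.Zs, ∀ w ∈ k'.obs t, B t w = k.q (m.f t) (A t w) := fun t ht w hw =>
    congrArg (k.q _) (h.hom.clm_eq (k'.obs_le t ht hw))
  have b3 : ∀ t ∈ k'.Zs, k.r + finrank ℂ ((k'.obs t ⊓ LinearMap.ker (k'.vanB.P t).toLinearMap) ⊓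
      LinearMap.ker (B t).toLinearMap : Submodule ℂ k'.P.W) = k'.r := fun t ht => by
    rw [h.finrank_ker ht (surj t ht) inf_le_left (fun w hw => ⟨k'.q t w, ?_, k'.sub_q t w⟩)
      (b2 t ht), ← k'.isExt.range t ht, k'.isExt.rank t (k'.isExt.sub ht)]
    exact k'.isExt.range t ht ▸ (mem_range_e ht).2 ⟨q_mem (k'.le_obs t ht) hw, k'.q_q t w⟩
  obtain ⟨U, e, hU⟩ := k'.P.exists_isExt k'.isClosed_Zs k'.smul_mem_Zs (r := k'.r - k.r)
    (F := fun t => (k'.obs t ⊓ LinearMap.ker (k'.vanB.P t).toLinearMap) ⊓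
      LinearMap.ker (B t).toLinearMap)
    (by
      convert (k'.obs_closed.inter (isClosed_eq ((k'.vanB.P_cont.comp continuous_fst).clm_apply
        continuous_snd) (continuous_const (y := 0)))).inter (isClosed_eq
          ((b1.comp continuous_fst).clm_apply continuous_snd) (continuous_const (y := 0))) using 1
      exact Set.ext fun x => ⟨fun h => ⟨⟨⟨h.1, h.2.1.1⟩, h.2.1.2⟩, h.2.2⟩,
        fun h => ⟨h.1.1.1, ⟨h.1.1.2, h.1.2⟩, h.2⟩⟩)
    (fun t ht => by have := b3 t ht; omega) fun g t ht w hw =>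
      ⟨⟨k'.obs_inv g t w ht hw.1.1, (k'.vanB.P_smul g t w).trans (by
        rw [show k'.vanB.P t w = 0 from hw.1.2, smul_zero])⟩, by
        refine (congrArg (k.q _) (h.hom.clm_smul g t w)).trans ?_
        rw [m.eqv, k.q_smul, show k.q _ (h.hom.clm t w) = 0 from hw.2, smul_zero]⟩
  have hF : ∀ t ∈ k'.Zs, ∀ w, w ∈ LinearMap.range (e t).toLinearMap ↔
      w ∈ k'.obs t ∧ k'.q t w = w ∧ A t w ∈ k.van (m.f t) := fun t ht w => by
    rw [hU.range t ht, q_apply, sub_eq_self, ← and_assoc]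
    exact and_congr_right fun hw => by rw [← q_eq_zero, ← b2 t ht w hw.1]; rfl
  have hq : ∀ t (w : k'.P.W), A t w ∈ k.van (m.f t) → A t (k'.q t w) ∈ k.van (m.f t) :=
    fun t w hw => by
      have := (k.van _).sub_mem hw (h.van _ _ (k'.sub_q t w))
      rwa [map_sub, sub_sub_cancel] at this
  let n := Y'.subI U hU.isOpen.isLocallyClosed
  have hn : ∀ t, n.f t ∈ U := Sp.subI_mem _
  have o2 : IsOpenEmbedding n.map := Sp.isOpenEmbedding_subI hU.isOpen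
  have r2 : k'.Z ⊆ range n.map := Sp.subset_range_subI _ fun _ ht => hU.sub (mem_Z.1 ht)
  have h0 := (hU.vb n hn).isSec_zero
  obtain ⟨c, c1, c2⟩ := exists_pull_deg o2.injective h0.isCo.deg
  have c3 := h0.isCo.cocycle
  refine ⟨c, fun x hx => ?_, c1, ?_, fun j N S hj hS e1 e2 e3 e4 => ?_⟩
  · obtain ⟨y, rfl⟩ := r2 hx
    exact van_of_pull o2 (by rw [← δ_pull, c2]; exact supp_eq_empty.1 c3 y)
  · rcases eq_empty_or_nonempty k'.Zs with h1 | ⟨t₀, h1⟩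
    · exact LCoh.of_van fun _ ⟨t, ht, _⟩ => absurd (h1 ▸ ht) (notMem_empty t)
    refine LCoh.of_open o2 r2 ((k'.eul_pb n).symm.trans ?_)
    rw [map_mul, c2, ← Mor.pull_comp, ← Z_pb]
    have hP : ∀ t, n.f t ∈ k'.Zs → ∀ v ∈ LinearMap.range (e (n.f t)).toLinearMap,
        k'.P.P (n.f t) v = v := fun t ht v hv => k'.P.P_eq (k'.obs_le _ ht ((hF _ ht v).1 hv).1)
    refine (h.comp (k'.hom_pb n)).lcoh_stab h0 (D := fun t => (k'.P.P (n.f t)).toLinearMap)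
      (fun t ht v w hw => ?_) (Hom.of_continuous (fun t w _ => k'.P.P_mem _ w)
        ((k'.P.P_cont.comp (n.cf.comp continuous_fst)).clm_apply continuous_snd)
        fun g t w _ => k'.P.P_smul g t.1 w) (fun _ _ => rfl) (fun t ht v hv h2 => ?_)
      (fun t ht w hw h2 => ?_) (show k'.r = k'.r - k.r + k.r by have := b3 t₀ h1; omega)
    · obtain ⟨O, h2, h3, h4⟩ := hi.exists_isOpen
      have h5 := (h2.preimage ((Y'.cont.comp n.cf).comp continuous_fst)).inter_closure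
        (show (t, v, w) ∈ _ from ⟨(show Y'.π (n.f t) ∈ O from h3 (mem_Z.2 ht)), hw⟩)
      have h6 : IsClosed {x : _ × k'.P.W × k'.P.W | x.2.1 = 0 ∧ x.2.2 ∈ k'.van (n.f x.1)} :=
        (isClosed_eq (by fun_prop) continuous_const).inter (k'.van_closed.preimage
          ((n.cf.comp continuous_fst).prodMk (by fun_prop)))
      obtain ⟨h7, h8⟩ := closure_minimal (by
        rintro x ⟨h7, h8, c, h9, h10⟩
        have := (k'.van _).add_mem h10 ((k'.van _).smul_mem c (mem_Z.1 (h4 ⟨h7, mem_pre.2 h8⟩)))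
        exact ⟨h9.trans (smul_zero c), (sub_add_cancel x.2.2 _) ▸ this⟩) h6 h5
      obtain rfl : v = 0 := h7
      have : ∀ w : k'.P.W, w ∈ k'.van (n.f t) → w - k'.P.P (n.f t) 0 ∈ k'.van (n.f t) :=
        fun w h => by rwa [map_zero, sub_zero]
      exact this w h8
    · have h3 : v ∈ k'.van (n.f t) := hP t ht v hv ▸ h2
      exact ((hF _ ht v).1 hv).2.1.symm.trans (q_eq_zero.2 h3)
    · have h3 : k'.q (n.f t) w ∈ LinearMap.range (e (n.f t)).toLinearMap :=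
        (hF _ ht _).2 ⟨q_mem (k'.le_obs _ ht) hw, k'.q_q _ _, hq _ _ h2⟩
      refine ⟨_, h3, ?_⟩
      have := k'.sub_q (n.f t) w
      rwa [← hP t ht _ h3] at this
  · let j' := j.cod U hU.isOpen.isLocallyClosed fun t => hU.sub (hj t)
    have h5 : Iso j' N (hU.vb n hn) fun t => (k'.q (j.f t)).toLinearMap ∘ₗ S t :=
      Iso.of_inj ⟨fun t w hw => (hF _ (hj t) _).2 ⟨q_mem (k'.le_obs _ (hj t)) (e1 t w hw),
        k'.q_q _ _, hq _ _ (e2 t w hw)⟩,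
        (k'.q_cont.comp (j.cf.comp (by fun_prop))).clm_apply hS.cont, fun g t w hw => by
          refine (congrArg (k'.q _) (hS.eqv g t w hw)).trans ?_
          rw [j.eqv]
          exact k'.q_smul _ _ _⟩ (fun t w hw e => e3 t w hw (q_eq_zero.1 e))
        (show N.r = k'.r - k.r by omega)
    rw [h5.eu, Hev.coe_map, ← h0.hcls_eul, H.map_hcls _ c3, ← c2]
    exact congrArg hcls (n.pull_comp j' c)

end Hom

theorem eul_ofSec {E : VB Y} {s : Y.T → E.W} (h : E.IsSec s) :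
    LCoh (Y.π '' {t | s t = 0}) (ofSec h).eul h.eul :=
  Model.lcoh' (k := ofSec h) (E := E) (M := fun _ => LinearMap.id)
    ⟨⟨(iso_pb E (Mor.id Y)).toHom, fun _ _ h => h, fun _ _ _ _ h => h⟩, rfl⟩

theorem Model.sum {k₁ k₂ : KP Y} {E₁ E₂ : VB Y'} {M₁ : Y'.T → k₁.P.W →ₗ[ℂ] E₁.W}
    {M₂ : Y'.T → k₂.P.W →ₗ[ℂ] E₂.W} (h₁ : k₁.Model m E₁ M₁) (h₂ : k₂.Model m E₂ M₂) :
    (k₁.sum k₂).Model m (E₁.sum E₂) fun t => (M₁ t).prodMap (M₂ t) :=
  ⟨⟨⟨fun t w hw => ⟨h₁.hom.mem t _ hw.1, h₂.hom.mem t _ hw.2⟩,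
    (h₁.hom.continuous (by fun_prop) (continuous_fst.comp (by fun_prop)) fun x => x.2.1).prodMk
      (h₂.hom.continuous (by fun_prop) (continuous_snd.comp (by fun_prop)) fun x => x.2.2),
    fun g t w hw => Prod.ext (h₁.hom.eqv g t _ hw.1) (h₂.hom.eqv g t _ hw.2)⟩,
    fun t w hw => Prod.ext (h₁.van t _ hw.1) (h₂.van t _ hw.2), fun t ht w hw e =>
      ⟨h₁.ker t ht.1 _ hw.1 (congrArg Prod.fst e), h₂.ker t ht.2 _ hw.2 (congrArg Prod.snd e)⟩⟩,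
    congrArg₂ (· + ·) h₁.rank h₂.rank⟩

/-- **V1**: sums -/
theorem eul_sum (k₁ k₂ : KP Y) : LCoh (k₁.Z ∩ k₂.Z) (k₁.sum k₂).eul (k₁.eul * k₂.eul) := by
  have o1 : IsOpen ((k₁.U ⊓ k₂.U : SubMulAction Y.G Y.T) : Set Y.T) :=
    k₁.isExt.isOpen.inter k₂.isExt.isOpen
  refine lcoh_of_sub o1 (fun t ht => ⟨k₁.isExt.sub (mem_Z.1 ht.1), k₂.isExt.sub (mem_Z.1 ht.2)⟩) ?_
  have h₁ := k₁.model (Y.subI _ o1.isLocallyClosed) fun t => t.2.1
  have h₂ := k₂.model (Y.subI _ o1.isLocallyClosed) fun t => t.2.2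
  have h3 := (h₁.sum h₂).lcoh
  rw [Z_sum] at h3
  rw [map_mul]
  exact h3.trans ((LCoh.of_cohom ((h₁.isol.inter h₂.isol).mono (by
    rintro _ ⟨t, ht, rfl⟩; exact ⟨⟨t, ht.1, rfl⟩, t, ht.2, rfl⟩))
    (cohom_eul_sum h₁.isSec h₂.isSec)).trans (h₁.lcoh.mul h₂.lcoh h₁.lco h₂.lco).symm)

end KP

end Vale.Agent.P269.Ch
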